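import Mathlib

open Finset

namespace Vale.Agent.Lib.P248

variable {ι : Type*} [Fintype ι] [DecidableEq ι]

/-- Reindexing pairs `(J, i)` with `i ∈ J` by pairs `(I, i)` with `i ∉ I`. -/
lemma sum_sum_erase (F : Finset ι → ι → ℝ) :
    ∑ J : Finset ι, ∑ i ∈ J, F J i = ∑ I : Finset ι, ∑ i ∈ Iᶜ, F (insert i I) i := by
  rw [Finset.sum_sigma', Finset.sum_sigma']
  refine Finset.sum_bij' (fun p _ => ⟨p.1.erase p.2, p.2⟩) (fun p _ => ⟨insert p.2 p.1, p.2⟩)
    ?_ ?_ ?_ ?_ ?_
  · rintro ⟨J, i⟩ h; simp
  · rintro ⟨I, i⟩ h; simp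
  · rintro ⟨J, i⟩ h
    simp only [mem_sigma, mem_univ, true_and] at h
    simp [Finset.insert_erase h]
  · rintro ⟨I, i⟩ h
    simp only [mem_sigma, mem_univ, true_and, mem_compl] at h
    simp [Finset.erase_insert h]
  · rintro ⟨J, i⟩ h
    simp only [mem_sigma, mem_univ, true_and] at h
    simp [Finset.insert_erase h]

/-- The weights. -/
noncomputable def wW (n k : ℕ) : ℝ := 1 / (((n : ℝ) + 1) * (n.choose k : ℝ))

lemma wW_pos {n k : ℕ} (h : k ≤ n) : 0 < wW n k := by
  unfold wW
  have : (0 : ℝ) < n.choose k := by exact_mod_cast Nat.choose_pos h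
  positivity

lemma choose_rel {n k : ℕ} (h : k < n) :
    ((n.choose (k + 1) : ℝ)) * ((k : ℝ) + 1) = (n.choose k : ℝ) * ((n : ℝ) - k) := by
  have := Nat.choose_succ_right_eq n k
  have h2 : ((n - k : ℕ) : ℝ) = (n : ℝ) - k := by
    rw [Nat.cast_sub h.le]
  rw [← h2]
  exact_mod_cast this

lemma wW_succ {n k : ℕ} (h : k < n) :
    ((n : ℝ) - k) * wW n (k + 1) = ((k : ℝ) + 1) * wW n k := by
  unfold wW
  have h1 : (0 : ℝ) < n.choose k := by exact_mod_cast Nat.choose_pos h.le
  have h2 : (0 : ℝ) < n.choose (k + 1) := by exact_mod_cast Nat.choose_pos h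
  have h3 := choose_rel h
  have h4 : (0 : ℝ) < (n : ℝ) + 1 := by positivity
  field_simp
  linarith [h3]

/-- Abel summation on the Boolean lattice, upper version. -/
lemma abel_upper (f : Finset ι → ℝ) (hf : f univ = 0) :
    ∑ I : Finset ι, wW (Fintype.card ι) I.card * f I =
      ∑ J : Finset ι, ∑ i ∈ J, wW (Fintype.card ι) J.card * (f (J.erase i) - f J) := by
  have h1 : ∑ J : Finset ι, ∑ i ∈ J, wW (Fintype.card ι) J.card * (f (J.erase i) - f J) =
      ∑ J : Finset ι, ∑ i ∈ J, wW (Fintype.card ι) J.card * f (J.erase i) -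
        ∑ J : Finset ι, (J.card : ℝ) * (wW (Fintype.card ι) J.card * f J) := by
    rw [← Finset.sum_sub_distrib]
    refine Finset.sum_congr rfl fun J _ => ?_
    simp only [mul_sub, Finset.sum_sub_distrib, Finset.sum_const, nsmul_eq_mul]
  rw [h1, sum_sum_erase (fun J i => wW (Fintype.card ι) J.card * f (J.erase i)),
    ← Finset.sum_sub_distrib]
  refine Finset.sum_congr rfl fun I _ => ?_
  by_cases hI : I = univ
  · subst hI; simp [hf]
  have hlt : I.card < Fintype.card ι := by
    rw [← Finset.card_univ]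
    exact Finset.card_lt_card (Finset.ssubset_univ_iff.mpr hI)
  have h2 : ∑ i ∈ Iᶜ, wW (Fintype.card ι) (insert i I).card * f ((insert i I).erase i) =
      ((Fintype.card ι : ℝ) - I.card) * (wW (Fintype.card ι) (I.card + 1) * f I) := by
    have : ∀ i ∈ Iᶜ, wW (Fintype.card ι) (insert i I).card * f ((insert i I).erase i) =
        wW (Fintype.card ι) (I.card + 1) * f I := by
      intro i hi
      have hi' : i ∉ I := by simpa using hi
      rw [Finset.card_insert_of_notMem hi', Finset.erase_insert hi']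
    rw [Finset.sum_congr rfl this, Finset.sum_const, Finset.card_compl, nsmul_eq_mul,
      Nat.cast_sub hlt.le]
  rw [h2]
  have h3 := wW_succ hlt
  calc wW (Fintype.card ι) I.card * f I
      = (((I.card : ℝ) + 1) * wW (Fintype.card ι) I.card) * f I -
          (I.card : ℝ) * (wW (Fintype.card ι) I.card * f I) := by ring
    _ = _ := by rw [← h3]; ring

/-- Abel summation on the Boolean lattice, lower version. -/
lemma abel_lower (g : Finset ι → ℝ) (hg : g ∅ = 0) :
    ∑ I : Finset ι, wW (Fintype.card ι) I.card * g I =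
      ∑ J : Finset ι, ∑ i ∈ J, wW (Fintype.card ι) (J.card - 1) * (g J - g (J.erase i)) := by
  have h1 : ∑ J : Finset ι, ∑ i ∈ J, wW (Fintype.card ι) (J.card - 1) * (g J - g (J.erase i)) =
      ∑ J : Finset ι, (J.card : ℝ) * (wW (Fintype.card ι) (J.card - 1) * g J) -
      ∑ J : Finset ι, ∑ i ∈ J, wW (Fintype.card ι) (J.card - 1) * g (J.erase i) := by
    rw [← Finset.sum_sub_distrib]
    refine Finset.sum_congr rfl fun J _ => ?_
    simp only [mul_sub, Finset.sum_sub_distrib, Finset.sum_const, nsmul_eq_mul]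
  rw [h1, sum_sum_erase (fun J i => wW (Fintype.card ι) (J.card - 1) * g (J.erase i)),
    ← Finset.sum_sub_distrib]
  refine Finset.sum_congr rfl fun I _ => ?_
  by_cases hI : I = ∅
  · subst hI; simp [hg]
  have hle : I.card ≤ Fintype.card ι := by
    rw [← Finset.card_univ]; exact Finset.card_le_card (Finset.subset_univ _)
  have h2 : ∑ i ∈ Iᶜ, wW (Fintype.card ι) ((insert i I).card - 1) * g ((insert i I).erase i) =
      ((Fintype.card ι : ℝ) - I.card) * (wW (Fintype.card ι) I.card * g I) := by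
    have : ∀ i ∈ Iᶜ, wW (Fintype.card ι) ((insert i I).card - 1) * g ((insert i I).erase i) =
        wW (Fintype.card ι) I.card * g I := by
      intro i hi
      have hi' : i ∉ I := by simpa using hi
      rw [Finset.card_insert_of_notMem hi', Finset.erase_insert hi']
      simp
    rw [Finset.sum_congr rfl this, Finset.sum_const, Finset.card_compl, nsmul_eq_mul,
      Nat.cast_sub hle]
  rw [h2]
  have hpos : 0 < I.card := Finset.card_pos.mpr (Finset.nonempty_iff_ne_empty.mpr hI)
  obtain ⟨k, hk⟩ : ∃ k, I.card = k + 1 := ⟨I.card - 1, by omega⟩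
  have hlt : k < Fintype.card ι := by omega
  have h3 := wW_succ hlt
  simp only [hk, Nat.add_sub_cancel]
  push_cast
  have : (((k : ℝ) + 1)) * wW (Fintype.card ι) k =
      ((Fintype.card ι : ℝ) - k) * wW (Fintype.card ι) (k + 1) := h3.symm
  calc wW (Fintype.card ι) (k + 1) * g I
      = (((Fintype.card ι : ℝ) - k) * wW (Fintype.card ι) (k + 1)) * g I -
          ((Fintype.card ι : ℝ) - (k + 1)) * (wW (Fintype.card ι) (k + 1) * g I) := by ring
    _ = _ := by rw [← this]; ring

/-- The weights sum to one. -/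
lemma sum_wW : ∑ I : Finset ι, wW (Fintype.card ι) I.card = 1 := by
  have h := Finset.sum_powerset_apply_card (fun k => wW (Fintype.card ι) k)
    (x := (univ : Finset ι))
  rw [Finset.powerset_univ, Finset.card_univ] at h
  rw [h]
  have : ∀ m ∈ range (Fintype.card ι + 1),
      (Fintype.card ι).choose m • wW (Fintype.card ι) m = 1 / ((Fintype.card ι : ℝ) + 1) := by
    intro m hm
    have hm' : m ≤ Fintype.card ι := by simpa [Nat.lt_succ_iff] using hm
    have h1 : (0 : ℝ) < (Fintype.card ι).choose m := by exact_mod_cast Nat.choose_pos hm'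
    unfold wW
    rw [nsmul_eq_mul]
    have h4 : (0 : ℝ) < (Fintype.card ι : ℝ) + 1 := by positivity
    field_simp
  rw [Finset.sum_congr rfl this, Finset.sum_const, Finset.card_range, nsmul_eq_mul]
  have h4 : (0 : ℝ) < (Fintype.card ι : ℝ) + 1 := by positivity
  push_cast
  field_simp

/-- The key local inequality (Gibbs): if `∑ (a i + b i) ≤ 1` then the weighted logarithms are
nonpositive, with equality only at the extremal values. -/
lemma gibbs_local {n j : ℕ} (hj : 1 ≤ j) (hjn : j ≤ n) (J : Finset ι) (hJ : J.card = j)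
    (a b : ι → ℝ) (ha : ∀ i ∈ J, 0 < a i) (hb : ∀ i ∈ J, 0 < b i)
    (hsum : ∑ i ∈ J, (a i + b i) ≤ 1) :
    ∑ i ∈ J, (wW n j * Real.log (((n : ℝ) + 1) * a i) +
        wW n (j - 1) * Real.log (((n : ℝ) + 1) * ((n.choose (j - 1) : ℝ) / (n.choose j : ℝ)) * b i))
      ≤ 0 ∧
    (∑ i ∈ J, (wW n j * Real.log (((n : ℝ) + 1) * a i) +
        wW n (j - 1) * Real.log (((n : ℝ) + 1) * ((n.choose (j - 1) : ℝ) / (n.choose j : ℝ)) * b i))
      = 0 → ∀ i ∈ J, ((n : ℝ) + 1) * a i = 1) := by
  obtain ⟨k, rfl⟩ : ∃ k, j = k + 1 := ⟨j - 1, by omega⟩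
  simp only [Nat.add_sub_cancel]
  have hk : k < n := by omega
  have h1 : (0 : ℝ) < n.choose k := by exact_mod_cast Nat.choose_pos hk.le
  have h2 : (0 : ℝ) < n.choose (k + 1) := by exact_mod_cast Nat.choose_pos hk
  have h4 : (0 : ℝ) < (n : ℝ) + 1 := by positivity
  have hrel := choose_rel hk
  set C1 : ℝ := (n.choose k : ℝ) with hC1
  set C2 : ℝ := (n.choose (k + 1) : ℝ) with hC2
  have hw1 : 0 < wW n (k + 1) := wW_pos hk
  have hw0 : 0 < wW n k := wW_pos hk.le
  have hw1' : wW n (k + 1) = 1 / (((n : ℝ) + 1) * C2) := rfl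
  have hw0' : wW n k = 1 / (((n : ℝ) + 1) * C1) := rfl
  -- termwise bound
  have hterm : ∀ i ∈ J, wW n (k + 1) * Real.log (((n : ℝ) + 1) * a i) +
      wW n k * Real.log (((n : ℝ) + 1) * (C1 / C2) * b i) ≤
      (1 / C2) * (a i + b i) - (wW n (k + 1) + wW n k) := by
    intro i hi
    have hx : 0 < ((n : ℝ) + 1) * a i := mul_pos h4 (ha i hi)
    have hy : 0 < ((n : ℝ) + 1) * (C1 / C2) * b i := by
      have := hb i hi
      positivity
    have h5 := Real.log_le_sub_one_of_pos hx
    have h6 := Real.log_le_sub_one_of_pos hy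
    have h7 : wW n (k + 1) * (((n : ℝ) + 1) * a i) = (1 / C2) * a i := by
      rw [hw1']; field_simp
    have h8 : wW n k * (((n : ℝ) + 1) * (C1 / C2) * b i) = (1 / C2) * b i := by
      rw [hw0']; field_simp
    have h9 := mul_le_mul_of_nonneg_left h5 hw1.le
    have h10 := mul_le_mul_of_nonneg_left h6 hw0.le
    calc _ ≤ wW n (k + 1) * (((n : ℝ) + 1) * a i - 1) +
          wW n k * (((n : ℝ) + 1) * (C1 / C2) * b i - 1) := add_le_add h9 h10
      _ = _ := by
        rw [mul_sub, mul_sub, h7, h8]; ring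
  have hsumw : ((k : ℝ) + 1) * (wW n (k + 1) + wW n k) = 1 / C2 := by
    rw [hw1', hw0']
    have : ((n : ℝ) - k) * C1 = C2 * ((k : ℝ) + 1) := by rw [hrel]; ring
    field_simp
    nlinarith [this]
  have hcard : ((J.card : ℕ) : ℝ) = (k : ℝ) + 1 := by rw [hJ]; push_cast; ring
  have hfinal : ∑ i ∈ J, ((1 / C2) * (a i + b i) - (wW n (k + 1) + wW n k)) ≤ 0 := by
    rw [Finset.sum_sub_distrib, ← Finset.mul_sum, Finset.sum_const, nsmul_eq_mul, hcard, hsumw]
    have : (1 / C2) * ∑ i ∈ J, (a i + b i) ≤ (1 / C2) * 1 :=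
      mul_le_mul_of_nonneg_left hsum (by positivity)
    linarith
  constructor
  · exact (Finset.sum_le_sum hterm).trans hfinal
  · intro heq i hi
    by_contra hne
    have hx : 0 < ((n : ℝ) + 1) * a i := mul_pos h4 (ha i hi)
    have hy : 0 < ((n : ℝ) + 1) * (C1 / C2) * b i := by
      have := hb i hi
      positivity
    have h5 := Real.log_lt_sub_one_of_pos hx hne
    have h6 := Real.log_le_sub_one_of_pos hy
    have h7 : wW n (k + 1) * (((n : ℝ) + 1) * a i) = (1 / C2) * a i := by
      rw [hw1']; field_simp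
    have h8 : wW n k * (((n : ℝ) + 1) * (C1 / C2) * b i) = (1 / C2) * b i := by
      rw [hw0']; field_simp
    have h9 := mul_lt_mul_of_pos_left h5 hw1
    have h10 := mul_le_mul_of_nonneg_left h6 hw0.le
    have hstrict : wW n (k + 1) * Real.log (((n : ℝ) + 1) * a i) +
        wW n k * Real.log (((n : ℝ) + 1) * (C1 / C2) * b i) <
        (1 / C2) * (a i + b i) - (wW n (k + 1) + wW n k) := by
      calc _ < wW n (k + 1) * (((n : ℝ) + 1) * a i - 1) +
            wW n k * (((n : ℝ) + 1) * (C1 / C2) * b i - 1) := add_lt_add_of_lt_of_le h9 h10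
        _ = _ := by
          rw [mul_sub, mul_sub, h7, h8]; ring
    have := Finset.sum_lt_sum hterm ⟨i, hi, hstrict⟩
    linarith [hfinal, heq, this]

/-- The algebraic core of the sharp non-symmetric Mahler bound: positive set functions `α`, `V`
and a positive vector `z` satisfying the local inequalities satisfy the sharp global inequality;
in the equality case all the ratios `α (J \ i) z i / α J` equal `1 / (n + 1)`. -/
theorem alg_main (α V : Finset ι → ℝ) (z : ι → ℝ)
    (hα : ∀ J, 0 < α J) (hV : ∀ J, 0 < V J) (hz : ∀ i, 0 < z i)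
    (hα0 : α ∅ = 1) (hV0 : V ∅ = 1)
    (hloc : ∀ J : Finset ι, J.Nonempty →
      ∑ i ∈ J, α (J.erase i) * (z i + V (J.erase i) / V J) ≤ α J) :
    ((Fintype.card ι : ℝ) + 1) ^ (Fintype.card ι + 1) ≤
        α univ * ∑ I : Finset ι, V I / ∏ j ∈ Iᶜ, z j ∧
    (α univ * ∑ I : Finset ι, V I / ∏ j ∈ Iᶜ, z j =
        ((Fintype.card ι : ℝ) + 1) ^ (Fintype.card ι + 1) →
      ∀ J : Finset ι, ∀ i ∈ J, ((Fintype.card ι : ℝ) + 1) * (α (J.erase i) * z i / α J) = 1) := by
  classical
  set n := Fintype.card ι with hn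
  have hn1 : (0 : ℝ) < (n : ℝ) + 1 := by positivity
  set L := Real.log ((n : ℝ) + 1) with hL
  have hcardle : ∀ J : Finset ι, J.card ≤ n := fun J => by
    rw [hn, ← Finset.card_univ]; exact Finset.card_le_card (Finset.subset_univ _)
  have hCpos : ∀ J : Finset ι, (0 : ℝ) < n.choose J.card := fun J => by
    exact_mod_cast Nat.choose_pos (hcardle J)
  set a : Finset ι → ι → ℝ := fun J i => α (J.erase i) * z i / α J with ha
  set b : Finset ι → ι → ℝ := fun J i => α (J.erase i) * V (J.erase i) / (α J * V J) with hb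
  have ha_pos : ∀ J i, 0 < a J i := fun J i => by
    have := hα (J.erase i); have := hα J; have := hz i
    simp only [ha]; positivity
  have hb_pos : ∀ J i, 0 < b J i := fun J i => by
    have := hα (J.erase i); have := hα J; have := hV (J.erase i); have := hV J
    simp only [hb]; positivity
  have hsum : ∀ J : Finset ι, J.Nonempty → ∑ i ∈ J, (a J i + b J i) ≤ 1 := by
    intro J hJ
    have h1 := hloc J hJ
    have h2 : ∑ i ∈ J, (a J i + b J i) =
        (∑ i ∈ J, α (J.erase i) * (z i + V (J.erase i) / V J)) / α J := by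
      rw [Finset.sum_div]
      refine Finset.sum_congr rfl fun i _ => ?_
      have := hα J; have := hV J
      simp only [ha, hb]
      field_simp
    rw [h2, div_le_one (hα J)]
    exact h1
  set Ahat : Finset ι → ℝ := fun I => Real.log (α univ) - Real.log (α I) -
    ∑ j ∈ Iᶜ, Real.log (z j) - ((n : ℝ) - I.card) * L with hAhat
  set Bhat : Finset ι → ℝ := fun I => Real.log (α I) + Real.log (V I) +
    Real.log (n.choose I.card) - (I.card : ℝ) * L with hBhat
  have hA0 : Ahat univ = 0 := by
    simp only [hAhat, Finset.compl_univ, Finset.sum_empty, Finset.card_univ]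
    rw [← hn]; ring
  have hB0 : Bhat ∅ = 0 := by
    simp only [hBhat, hα0, hV0, Finset.card_empty, Nat.choose_zero_right]
    simp
  have hedgeA : ∀ J : Finset ι, ∀ i ∈ J,
      Ahat (J.erase i) - Ahat J = - Real.log (((n : ℝ) + 1) * a J i) := by
    intro J i hi
    have h0 : (J.erase i)ᶜ = insert i Jᶜ := by
      ext x; simp only [mem_compl, mem_erase, mem_insert]
      by_cases hx : x = i <;> simp [hx]
    have hnot : i ∉ Jᶜ := by simpa using hi
    have hcard : ((J.erase i).card : ℝ) = (J.card : ℝ) - 1 := by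
      rw [Finset.card_erase_of_mem hi]
      have : 1 ≤ J.card := Finset.card_pos.mpr ⟨i, hi⟩
      push_cast [Nat.cast_sub this]; ring
    have hlog : Real.log (((n : ℝ) + 1) * a J i) =
        L + (Real.log (α (J.erase i)) + Real.log (z i) - Real.log (α J)) := by
      simp only [ha]
      rw [Real.log_mul hn1.ne' (by have := hα (J.erase i); have := hα J; have := hz i; positivity),
        Real.log_div (by have := hα (J.erase i); have := hz i; positivity) (hα J).ne',
        Real.log_mul (hα _).ne' (hz i).ne']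
    simp only [hAhat]
    rw [hlog, h0, Finset.sum_insert hnot, hcard]
    ring
  have hedgeB : ∀ J : Finset ι, ∀ i ∈ J,
      Bhat J - Bhat (J.erase i) = - Real.log (((n : ℝ) + 1) *
        ((n.choose (J.card - 1) : ℝ) / (n.choose J.card : ℝ)) * b J i) := by
    intro J i hi
    have hpos1 : 1 ≤ J.card := Finset.card_pos.mpr ⟨i, hi⟩
    have hcard : ((J.erase i).card : ℝ) = (J.card : ℝ) - 1 := by
      rw [Finset.card_erase_of_mem hi]
      push_cast [Nat.cast_sub hpos1]; ring
    have hcard' : (J.erase i).card = J.card - 1 := Finset.card_erase_of_mem hi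
    have hC1 : (0 : ℝ) < n.choose (J.card - 1) := by
      exact_mod_cast Nat.choose_pos (le_trans (Nat.sub_le _ _) (hcardle J))
    have hC2 := hCpos J
    have hbpos := hb_pos J i
    have hlog : Real.log (((n : ℝ) + 1) *
        ((n.choose (J.card - 1) : ℝ) / (n.choose J.card : ℝ)) * b J i) =
        L + (Real.log (n.choose (J.card - 1)) - Real.log (n.choose J.card)) +
        (Real.log (α (J.erase i)) + Real.log (V (J.erase i)) -
          (Real.log (α J) + Real.log (V J))) := by
      rw [Real.log_mul (by positivity) hbpos.ne', Real.log_mul hn1.ne' (by positivity),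
        Real.log_div hC1.ne' hC2.ne']
      simp only [hb]
      rw [Real.log_div (mul_pos (hα _) (hV _)).ne' (mul_pos (hα _) (hV _)).ne',
        Real.log_mul (hα _).ne' (hV _).ne', Real.log_mul (hα _).ne' (hV _).ne']
    simp only [hBhat]
    rw [hlog, hcard, hcard']
    ring
  -- the Gibbs sums
  set G : Finset ι → ℝ := fun J => ∑ i ∈ J, (wW n J.card * Real.log (((n : ℝ) + 1) * a J i) +
      wW n (J.card - 1) * Real.log (((n : ℝ) + 1) *
        ((n.choose (J.card - 1) : ℝ) / (n.choose J.card : ℝ)) * b J i)) with hG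
  have hGle : ∀ J, G J ≤ 0 := by
    intro J
    by_cases hJ : J = ∅
    · subst hJ; simp [hG]
    have hne := Finset.nonempty_iff_ne_empty.mpr hJ
    exact (gibbs_local (Finset.card_pos.mpr hne) (hcardle J) J rfl (a J) (b J)
      (fun i _ => ha_pos J i) (fun i _ => hb_pos J i) (hsum J hne)).1
  have hGeq : ∀ J, G J = 0 → ∀ i ∈ J, ((n : ℝ) + 1) * a J i = 1 := by
    intro J hJ0 i hi
    have hne : J.Nonempty := ⟨i, hi⟩
    exact (gibbs_local (Finset.card_pos.mpr hne) (hcardle J) J rfl (a J) (b J)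
      (fun i _ => ha_pos J i) (fun i _ => hb_pos J i) (hsum J hne)).2 hJ0 i hi
  have hAbel : ∑ I : Finset ι, wW n I.card * (Ahat I + Bhat I) = - ∑ J, G J := by
    have h1 := abel_upper Ahat hA0
    have h2 := abel_lower Bhat hB0
    rw [← hn] at h1 h2
    simp only [mul_add]
    rw [Finset.sum_add_distrib, h1, h2, ← Finset.sum_add_distrib, ← Finset.sum_neg_distrib]
    refine Finset.sum_congr rfl fun J _ => ?_
    rw [← Finset.sum_add_distrib]
    simp only [hG]
    rw [← Finset.sum_neg_distrib]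
    refine Finset.sum_congr rfl fun i hi => ?_
    rw [hedgeA J i hi, hedgeB J i hi]
    ring
  set T : ℝ := ((n : ℝ) + 1) ^ (n + 1) with hT
  have hTpos : 0 < T := by positivity
  -- termwise lower bound
  have hterm : ∀ I : Finset ι, T * (wW n I.card * (1 + (Ahat I + Bhat I))) ≤
      α univ * (V I / ∏ j ∈ Iᶜ, z j) := by
    intro I
    have hprod : 0 < ∏ j ∈ Iᶜ, z j := Finset.prod_pos fun j _ => hz j
    have htI : 0 < α univ * (V I / ∏ j ∈ Iᶜ, z j) :=
      mul_pos (hα _) (div_pos (hV _) hprod)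
    have hw := wW_pos (hcardle I)
    have hTw : T * wW n I.card = ((n : ℝ) + 1) ^ n / (n.choose I.card : ℝ) := by
      simp only [hT, wW]
      have := hCpos I
      rw [pow_succ]
      field_simp
    have hTwpos : 0 < T * wW n I.card := mul_pos hTpos hw
    have hlogeq : Real.log (α univ * (V I / ∏ j ∈ Iᶜ, z j) / (T * wW n I.card)) =
        Ahat I + Bhat I := by
      rw [Real.log_div htI.ne' hTwpos.ne', hTw, Real.log_div (by positivity) (hCpos I).ne',
        Real.log_pow, Real.log_mul (hα _).ne' (div_pos (hV _) hprod).ne',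
        Real.log_div (hV _).ne' hprod.ne', Real.log_prod (fun j _ => (hz j).ne')]
      simp only [hAhat, hBhat]
      ring
    have hle := Real.log_le_sub_one_of_pos (div_pos htI hTwpos)
    rw [hlogeq] at hle
    have h3 : 1 + (Ahat I + Bhat I) ≤ α univ * (V I / ∏ j ∈ Iᶜ, z j) / (T * wW n I.card) := by
      linarith
    have h4 := mul_le_mul_of_nonneg_left h3 hTwpos.le
    rw [mul_div_cancel₀ _ hTwpos.ne'] at h4
    calc _ = T * wW n I.card * (1 + (Ahat I + Bhat I)) := by ring
      _ ≤ _ := h4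
  have hmain : T * (1 - ∑ J, G J) ≤ α univ * ∑ I : Finset ι, V I / ∏ j ∈ Iᶜ, z j := by
    rw [Finset.mul_sum]
    refine le_trans (le_of_eq ?_) (Finset.sum_le_sum fun I _ => hterm I)
    rw [← Finset.mul_sum]
    congr 1
    have h8 : ∑ I : Finset ι, wW n I.card * (1 + (Ahat I + Bhat I)) =
        ∑ I : Finset ι, wW n I.card + ∑ I : Finset ι, wW n I.card * (Ahat I + Bhat I) := by
      rw [← Finset.sum_add_distrib]; exact Finset.sum_congr rfl fun I _ => by ring
    have h9 : ∑ I : Finset ι, wW n I.card = 1 := sum_wW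
    rw [h8, h9, hAbel]
    ring
  have hsumG : ∑ J, G J ≤ 0 := Finset.sum_nonpos fun J _ => hGle J
  refine ⟨?_, ?_⟩
  · have : T * 1 ≤ T * (1 - ∑ J, G J) :=
      mul_le_mul_of_nonneg_left (by linarith) hTpos.le
    linarith
  · intro heq J i hi
    apply hGeq J _ i hi
    have h5 : T * (1 - ∑ J, G J) ≤ T := hmain.trans heq.le
    have h6 : 1 - ∑ J, G J ≤ 1 := by
      by_contra hcon
      push Not at hcon
      have := mul_lt_mul_of_pos_left hcon hTpos
      linarith
    have h7 : ∑ J, G J = 0 := le_antisymm hsumG (by linarith)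
    exact (Finset.sum_eq_zero_iff_of_nonpos fun J _ => hGle J).mp h7 J (Finset.mem_univ _)

end Vale.Agent.Lib.P248
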