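import Mathlib

open MeasureTheory Set Function Finset
open scoped ENNReal Pointwise

namespace Vale.Agent.Lib.P248

variable {ι : Type*} [Fintype ι] [DecidableEq ι]

/-- The `|J|`-dimensional volume of the slice of `A` through `x` parallel to the coordinate
subspace of `J`. -/
noncomputable def secVol (J : Finset ι) (A : Set (ι → ℝ)) (x : ι → ℝ) : ℝ≥0∞ :=
  lmarginal (fun _ : ι => (volume : Measure ℝ)) J (A.indicator fun _ => (1 : ℝ≥0∞)) x

lemma secVol_eq (J : Finset ι) {A : Set (ι → ℝ)} (hA : MeasurableSet A) (x : ι → ℝ) :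
    secVol J A x = volume {y : J → ℝ | updateFinset x J y ∈ A} := by
  have hm : MeasurableSet {y : J → ℝ | updateFinset x J y ∈ A} := measurable_updateFinset hA
  unfold secVol lmarginal
  have : (fun y : J → ℝ => A.indicator (fun _ => (1 : ℝ≥0∞)) (updateFinset x J y)) =
      ({y : J → ℝ | updateFinset x J y ∈ A}).indicator 1 := by
    ext y
    by_cases h : updateFinset x J y ∈ A <;> simp [h, Set.indicator]
  rw [this, lintegral_indicator_one hm]
  rfl

lemma measurable_indicator_one {A : Set (ι → ℝ)} (hA : MeasurableSet A) :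
    Measurable (A.indicator fun _ => (1 : ℝ≥0∞)) :=
  measurable_const.indicator hA

lemma measurable_secVol (J : Finset ι) {A : Set (ι → ℝ)} (hA : MeasurableSet A) :
    Measurable (secVol J A) :=
  (measurable_indicator_one hA).lmarginal _

lemma secVol_insert {J : Finset ι} {i : ι} (hi : i ∉ J) {A : Set (ι → ℝ)} (hA : MeasurableSet A)
    (x : ι → ℝ) :
    secVol (insert i J) A x = ∫⁻ s, secVol J A (update x i s) :=
  lmarginal_insert _ (measurable_indicator_one hA) hi x

lemma secVol_erase {J : Finset ι} {i : ι} (hi : i ∈ J) {A : Set (ι → ℝ)} (hA : MeasurableSet A)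
    (x : ι → ℝ) :
    secVol J A x = ∫⁻ s, secVol (J.erase i) A (update x i s) :=
  lmarginal_erase _ (measurable_indicator_one hA) hi x

lemma secVol_univ {A : Set (ι → ℝ)} (hA : MeasurableSet A) (x : ι → ℝ) :
    secVol univ A x = volume A := by
  unfold secVol
  rw [lmarginal_univ]
  have : (A.indicator fun _ => (1 : ℝ≥0∞)) = A.indicator 1 := rfl
  rw [this, lintegral_indicator_one hA]
  rfl

lemma secVol_empty (A : Set (ι → ℝ)) (x : ι → ℝ) :
    secVol ∅ A x = A.indicator (fun _ => (1 : ℝ≥0∞)) x := by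
  unfold secVol
  rw [lmarginal_empty]

lemma secVol_singleton (i : ι) {A : Set (ι → ℝ)} (hA : MeasurableSet A) (x : ι → ℝ) :
    secVol {i} A x = volume {s : ℝ | update x i s ∈ A} := by
  unfold secVol
  rw [lmarginal_singleton]
  have hm : MeasurableSet {s : ℝ | update x i s ∈ A} := measurable_update x hA
  have : (fun s : ℝ => A.indicator (fun _ => (1 : ℝ≥0∞)) (update x i s)) =
      ({s : ℝ | update x i s ∈ A}).indicator 1 := by
    ext y
    by_cases h : update x i y ∈ A <;> simp [h, Set.indicator]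
  simp only [this]
  rw [lintegral_indicator_one hm]

/-- Comparing slices through an affine map with positive ratio. -/
lemma secVol_slice_ge (J : Finset ι) {A C : Set (ι → ℝ)} (hA : MeasurableSet A)
    (hC : MeasurableSet C) (x0 x1 : ι → ℝ) {c : ℝ} (hc : 0 < c) (v : J → ℝ)
    (h : ∀ u : J → ℝ, updateFinset x0 J u ∈ C → updateFinset x1 J (c • u + v) ∈ A) :
    ENNReal.ofReal c ^ J.card * secVol J C x0 ≤ secVol J A x1 := by
  rw [secVol_eq J hA, secVol_eq J hC]
  set P := {y : J → ℝ | updateFinset x0 J y ∈ C}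
  set Q := {y : J → ℝ | updateFinset x1 J y ∈ A}
  have hsub : (fun u : J → ℝ => u + v) '' (c • P) ⊆ Q := by
    rintro _ ⟨_, ⟨u, hu, rfl⟩, rfl⟩
    exact h u hu
  have hvol : volume ((fun u : J → ℝ => u + v) '' (c • P)) = volume (c • P) := by
    simp only [Set.image_add_right]
    exact measure_preimage_add_right _ _ _
  have hsm : volume (c • P) = ENNReal.ofReal c ^ J.card * volume P := by
    rw [Measure.addHaar_smul]
    congr 1
    rw [Module.finrank_fintype_fun_eq_card, Fintype.card_coe, abs_of_pos (by positivity),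
      ENNReal.ofReal_pow hc.le]
  calc _ = volume (c • P) := hsm.symm
    _ = volume ((fun u : J → ℝ => u + v) '' (c • P)) := hvol.symm
    _ ≤ volume Q := measure_mono hsub

/-- A one dimensional integral. -/
lemma lintegral_Ico_one_sub_pow (m : ℕ) :
    ∫⁻ t, (Ico (0 : ℝ) 1).indicator (fun t => ENNReal.ofReal (1 - t) ^ m) t =
      ENNReal.ofReal (1 / ((m : ℝ) + 1)) := by
  rw [lintegral_indicator measurableSet_Ico]
  have h1 : ∀ t ∈ Ico (0 : ℝ) 1, ENNReal.ofReal (1 - t) ^ m = ENNReal.ofReal ((1 - t) ^ m) := by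
    intro t ht
    rw [ENNReal.ofReal_pow]
    linarith [ht.2]
  rw [setLIntegral_congr_fun measurableSet_Ico h1]
  have hint : IntegrableOn (fun t : ℝ => (1 - t) ^ m) (Ico (0 : ℝ) 1) := by
    have : Continuous (fun t : ℝ => (1 - t) ^ m) := by fun_prop
    exact (this.integrableOn_Icc (a := 0) (b := 1)).mono_set Ico_subset_Icc_self
  rw [← ofReal_integral_eq_lintegral_ofReal hint]
  · congr 1
    rw [integral_Ico_eq_integral_Ioc, ← intervalIntegral.integral_of_le zero_le_one]
    have h := intervalIntegral.integral_comp_sub_left (a := (0 : ℝ)) (b := 1)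
      (fun x : ℝ => x ^ m) 1
    simp only [sub_self, sub_zero] at h
    rw [h, integral_pow]
    simp
  · refine (ae_restrict_iff' measurableSet_Ico).mpr (ae_of_all _ ?_)
    intro t ht
    have : 0 ≤ 1 - t := by linarith [ht.2]
    simpa using pow_nonneg this m

/-- The volume of a pyramid: a region containing the cone over a coordinate face. -/
lemma pyr_region {J : Finset ι} {i : ι} (hi : i ∈ J) {R C : Set (ι → ℝ)}
    (hR : MeasurableSet R) (hC : MeasurableSet C) {y : ι → ℝ} (hy : y i ≠ 0)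
    (hsupp : ∀ l, l ∉ J → y l = 0)
    (hsub : ∀ x ∈ C, x i = 0 → (∀ l, l ∉ J → x l = 0) → ∀ t ∈ Ico (0 : ℝ) 1,
      (1 - t) • x + t • y ∈ R) :
    ENNReal.ofReal |y i| * secVol (J.erase i) C 0 ≤ (J.card : ℝ≥0∞) * secVol J R 0 := by
  set J' := J.erase i with hJ'
  have hi' : i ∉ J' := Finset.notMem_erase i J
  have hcard : J.card = J'.card + 1 := by
    rw [hJ', Finset.card_erase_of_mem hi]
    have : 0 < J.card := Finset.card_pos.mpr ⟨i, hi⟩
    omega
  set g : ℝ → ℝ≥0∞ := fun s => secVol J' R (update 0 i s) with hg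
  have hgm : Measurable g := (measurable_secVol J' hR).comp (measurable_update' (a := i)
    |>.comp (measurable_const.prodMk measurable_id))
  have hchange : secVol J R 0 = ENNReal.ofReal |y i| * ∫⁻ t, g (y i * t) := by
    rw [secVol_erase hi hR]
    have hmap := Real.map_volume_mul_left hy
    have h2 : ∫⁻ t, g (y i * t) = ∫⁻ s, g s ∂(Measure.map (fun t => y i * t) volume) := by
      rw [lintegral_map hgm (measurable_const_mul _)]
    rw [h2, hmap, lintegral_smul_measure, smul_eq_mul, ← mul_assoc, ← ENNReal.ofReal_mul (abs_nonneg _),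
      ← abs_mul, mul_inv_cancel₀ hy]
    simp [hg, hJ']
  have hlow : ∀ t, (Ico (0 : ℝ) 1).indicator (fun t => ENNReal.ofReal (1 - t) ^ J'.card) t *
      secVol J' C 0 ≤ g (y i * t) := by
    intro t
    by_cases ht : t ∈ Ico (0 : ℝ) 1
    · rw [Set.indicator_of_mem ht]
      have hc : 0 < 1 - t := by linarith [ht.2]
      refine secVol_slice_ge J' hR hC 0 (update 0 i (y i * t)) hc (fun j => t * y j) ?_
      intro u hu
      set x := updateFinset (0 : ι → ℝ) J' u with hx
      have hxi : x i = 0 := by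
        simp [hx, updateFinset, hi']
      have hxl : ∀ l, l ∉ J → x l = 0 := by
        intro l hl
        have : l ∉ J' := fun h => hl (Finset.mem_of_mem_erase h)
        simp [hx, updateFinset, this]
      have := hsub x hu hxi hxl t ht
      convert this using 1
      ext l
      by_cases hl : l ∈ J'
      · simp [updateFinset, hl, hx, Pi.add_apply, Pi.smul_apply, smul_eq_mul]
      · simp only [updateFinset, hl, dif_neg, not_false_eq_true, hx, Pi.add_apply, Pi.smul_apply,
          smul_eq_mul]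
        by_cases hli : l = i
        · subst hli; simp; ring
        · have hlJ : l ∉ J := by
            intro hlJ
            exact hl (Finset.mem_erase.mpr ⟨hli, hlJ⟩)
          simp [hli, hsupp l hlJ]
    · rw [Set.indicator_of_notMem ht, zero_mul]
      exact bot_le
  have hint : ENNReal.ofReal (1 / ((J'.card : ℝ) + 1)) * secVol J' C 0 ≤ ∫⁻ t, g (y i * t) := by
    rw [← lintegral_Ico_one_sub_pow, ← lintegral_mul_const]
    · exact lintegral_mono hlow
    · exact (Measurable.indicator (by fun_prop) measurableSet_Ico)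
  have hk : (J.card : ℝ≥0∞) * ENNReal.ofReal (1 / ((J'.card : ℝ) + 1)) = 1 := by
    rw [hcard, ← ENNReal.ofReal_natCast, ← ENNReal.ofReal_mul (by positivity)]
    push_cast
    rw [mul_one_div_cancel (by positivity)]
    simp
  calc ENNReal.ofReal |y i| * secVol J' C 0
      = ENNReal.ofReal |y i| * (((J.card : ℝ≥0∞) * ENNReal.ofReal (1 / ((J'.card : ℝ) + 1))) *
          secVol J' C 0) := by rw [hk, one_mul]
    _ = (J.card : ℝ≥0∞) * (ENNReal.ofReal |y i| * (ENNReal.ofReal (1 / ((J'.card : ℝ) + 1)) *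
          secVol J' C 0)) := by ring
    _ ≤ (J.card : ℝ≥0∞) * (ENNReal.ofReal |y i| * ∫⁻ t, g (y i * t)) := by gcongr
    _ = (J.card : ℝ≥0∞) * secVol J R 0 := by rw [hchange]

/-- The pyramid inequality: for a convex set in the orthant (on the coordinates of `J`) with a
point `y` supported in `J`, the pyramids with apex `y` over the coordinate faces fit in the set. -/
theorem pyramid {J : Finset ι} {C : Set (ι → ℝ)} (hCm : MeasurableSet C) (hCc : Convex ℝ C)
    (hCp : ∀ x ∈ C, ∀ l ∈ J, 0 ≤ x l) {y : ι → ℝ} (hyC : y ∈ C) (hyp : ∀ l, 0 ≤ y l)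
    (hsupp : ∀ l, l ∉ J → y l = 0) :
    ∑ i ∈ J, ENNReal.ofReal (y i) * secVol (J.erase i) C 0 ≤ (J.card : ℝ≥0∞) * secVol J C 0 := by
  classical
  set Jp := J.filter (fun i => 0 < y i) with hJp
  set R : ι → Set (ι → ℝ) := fun i => C ∩ ⋂ l ∈ J, {x | x i * y l ≤ x l * y i} with hR
  have hRm : ∀ i, MeasurableSet (R i) := by
    intro i
    refine hCm.inter (Finset.measurableSet_biInter _ fun l _ => ?_)
    exact measurableSet_le (by fun_prop) (by fun_prop)
  have hterm : ∀ i ∈ Jp, ENNReal.ofReal (y i) * secVol (J.erase i) C 0 ≤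
      (J.card : ℝ≥0∞) * secVol J (R i) 0 := by
    intro i hi
    obtain ⟨hiJ, hipos⟩ := Finset.mem_filter.mp hi
    have := pyr_region (R := R i) (C := C) (y := y) hiJ (hRm i) hCm hipos.ne' hsupp ?_
    · rwa [abs_of_pos hipos] at this
    intro x hx hxi _ t ht
    refine ⟨hCc hx hyC (by linarith [ht.2]) ht.1 (by ring), ?_⟩
    simp only [Set.mem_iInter, Set.mem_ofPred_eq]
    intro l hl
    simp only [Pi.add_apply, Pi.smul_apply, smul_eq_mul, hxi, mul_zero, zero_add]
    have h1 := hCp x hx l hl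
    have h2 : 0 ≤ (1 - t) * x l * y i :=
      mul_nonneg (mul_nonneg (by linarith [ht.2]) h1) hipos.le
    nlinarith
  -- additivity of the volume on the almost disjoint pieces
  have hadd : ∑ i ∈ Jp, secVol J (R i) 0 ≤ secVol J C 0 := by
    simp only [secVol_eq J (hRm _), secVol_eq J hCm]
    have hd : (Jp : Set ι).Pairwise (AEDisjoint volume on
        fun i => {u : J → ℝ | updateFinset (0 : ι → ℝ) J u ∈ R i}) := by
      intro i hi l hl hil
      obtain ⟨hiJ, hipos⟩ := Finset.mem_filter.mp hi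
      obtain ⟨hlJ, hlpos⟩ := Finset.mem_filter.mp hl
      let φ : (J → ℝ) →ₗ[ℝ] ℝ := y l • LinearMap.proj ⟨i, hiJ⟩ - y i • LinearMap.proj ⟨l, hlJ⟩
      have hne : LinearMap.ker φ ≠ ⊤ := by
        intro htop
        have hmem : (Pi.single (⟨i, hiJ⟩ : J) (1 : ℝ) : J → ℝ) ∈ LinearMap.ker φ := by
          rw [htop]; trivial
        have h0 := LinearMap.mem_ker.mp hmem
        have hne' : (⟨l, hlJ⟩ : J) ≠ ⟨i, hiJ⟩ := by
          intro h; exact hil (congrArg Subtype.val h).symm
        simp [φ, hne'] at h0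
        exact hlpos.ne' h0
      have hnull := Measure.addHaar_submodule (volume : Measure (J → ℝ)) (LinearMap.ker φ) hne
      refine measure_mono_null ?_ hnull
      rintro u ⟨hu1, hu2⟩
      simp only [Set.mem_ofPred_eq] at hu1 hu2
      have h1 := (Set.mem_iInter₂.mp hu1.2) l hlJ
      have h2 := (Set.mem_iInter₂.mp hu2.2) i hiJ
      simp only [Set.mem_ofPred_eq] at h1 h2
      have h3 : updateFinset (0 : ι → ℝ) J u i = u ⟨i, hiJ⟩ := by simp [updateFinset, hiJ]
      have h4 : updateFinset (0 : ι → ℝ) J u l = u ⟨l, hlJ⟩ := by simp [updateFinset, hlJ]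
      rw [h3, h4] at h1 h2
      show u ∈ (LinearMap.ker φ : Set (J → ℝ))
      simp only [SetLike.mem_coe, LinearMap.mem_ker, φ, LinearMap.sub_apply, LinearMap.smul_apply,
        LinearMap.proj_apply, smul_eq_mul]
      linarith
    have hm : ∀ i ∈ Jp, NullMeasurableSet {u : J → ℝ | updateFinset (0 : ι → ℝ) J u ∈ R i} volume :=
      fun i _ => (measurable_updateFinset (hRm i)).nullMeasurableSet
    rw [← measure_biUnion_finset₀ hd hm]
    refine measure_mono ?_
    intro u hu
    simp only [Set.mem_iUnion] at hu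
    obtain ⟨i, _, hu⟩ := hu
    exact hu.1
  calc ∑ i ∈ J, ENNReal.ofReal (y i) * secVol (J.erase i) C 0
      = ∑ i ∈ Jp, ENNReal.ofReal (y i) * secVol (J.erase i) C 0 := by
        rw [hJp, Finset.sum_filter]
        refine Finset.sum_congr rfl fun i _ => ?_
        by_cases h : 0 < y i
        · simp [h]
        · have : y i = 0 := le_antisymm (not_lt.mp h) (hyp i)
          simp [this]
    _ ≤ ∑ i ∈ Jp, (J.card : ℝ≥0∞) * secVol J (R i) 0 := Finset.sum_le_sum hterm
    _ = (J.card : ℝ≥0∞) * ∑ i ∈ Jp, secVol J (R i) 0 := by rw [Finset.mul_sum]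
    _ ≤ _ := by gcongr

/-- Slices of bounded sets have finite volume. -/
lemma secVol_lt_top (J : Finset ι) {A : Set (ι → ℝ)} (hA : MeasurableSet A) {R : ℝ}
    (hR : ∀ x ∈ A, ∀ i, |x i| ≤ R) (x : ι → ℝ) : secVol J A x < ⊤ := by
  rw [secVol_eq J hA]
  refine lt_of_le_of_lt (measure_mono (t := Icc (fun _ => -R) (fun _ => R)) ?_)
    isCompact_Icc.measure_lt_top
  intro y hy
  have key : ∀ j, -R ≤ y j ∧ y j ≤ R := by
    intro j
    have h := hR _ hy j
    have h3 : updateFinset x J y j = y j := by simp [updateFinset]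
    rw [h3] at h
    exact abs_le.mp h
  exact ⟨fun j => (key j).1, fun j => (key j).2⟩

/-- Slices through the origin of sets containing a box at the origin have positive volume. -/
lemma secVol_pos (J : Finset ι) {A : Set (ι → ℝ)} (hA : MeasurableSet A) {d : ι → ℝ}
    (hd : ∀ i, 0 < d i) (hbox : ∀ x : ι → ℝ, (∀ i, 0 ≤ x i ∧ x i ≤ d i) → x ∈ A) :
    0 < secVol J A 0 := by
  rw [secVol_eq J hA]
  have hsub : Icc (fun _ : J => (0 : ℝ)) (fun j : J => d j) ⊆
      {y : J → ℝ | updateFinset (0 : ι → ℝ) J y ∈ A} := by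
    intro y hy
    apply hbox
    intro i
    by_cases hi : i ∈ J
    · simpa [updateFinset, hi] using And.intro (hy.1 ⟨i, hi⟩) (hy.2 ⟨i, hi⟩)
    · simpa [updateFinset, hi] using (hd i).le
  refine lt_of_lt_of_le ?_ (measure_mono hsub)
  rw [Real.volume_Icc_pi]
  rw [pos_iff_ne_zero, Finset.prod_ne_zero_iff]
  intro j _
  simpa using hd j

/-- Normalised slice volume: `|J|! * vol_J (A ∩ ℝ^J)`. -/
noncomputable def Avol (A : Set (ι → ℝ)) (J : Finset ι) : ℝ :=
  (J.card.factorial : ℝ) * (secVol J A 0).toReal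

lemma Avol_pos (J : Finset ι) {A : Set (ι → ℝ)} (hA : MeasurableSet A) {R : ℝ}
    (hR : ∀ x ∈ A, ∀ i, |x i| ≤ R) {d : ι → ℝ}
    (hd : ∀ i, 0 < d i) (hbox : ∀ x : ι → ℝ, (∀ i, 0 ≤ x i ∧ x i ≤ d i) → x ∈ A) :
    0 < Avol A J := by
  unfold Avol
  have h1 := secVol_pos J hA hd hbox
  have h2 := secVol_lt_top J hA hR 0
  have h3 : 0 < (secVol J A 0).toReal := ENNReal.toReal_pos h1.ne' h2.ne
  positivity

/-- The pyramid inequality in the normalised form. -/
theorem pyramid_real {J : Finset ι} {C : Set (ι → ℝ)} (hCm : MeasurableSet C) (hCc : Convex ℝ C)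
    {R : ℝ} (hR : ∀ x ∈ C, ∀ i, |x i| ≤ R)
    (hCp : ∀ x ∈ C, ∀ l ∈ J, 0 ≤ x l) (hJ : J.Nonempty) {y : ι → ℝ} (hyC : y ∈ C)
    (hyp : ∀ l, 0 ≤ y l) (hsupp : ∀ l, l ∉ J → y l = 0) :
    ∑ i ∈ J, y i * Avol C (J.erase i) ≤ Avol C J := by
  have h := pyramid hCm hCc hCp hyC hyp hsupp
  have hfin : ∀ K : Finset ι, secVol K C 0 ≠ ⊤ := fun K => (secVol_lt_top K hCm hR 0).ne
  have h2 := (ENNReal.toReal_le_toReal
    (ENNReal.sum_ne_top.mpr fun i _ => ENNReal.mul_ne_top ENNReal.ofReal_ne_top (hfin _))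
    (ENNReal.mul_ne_top (ENNReal.natCast_ne_top _) (hfin _))).mpr h
  rw [ENNReal.toReal_sum (fun i _ => ENNReal.mul_ne_top ENNReal.ofReal_ne_top (hfin _)),
    ENNReal.toReal_mul] at h2
  simp only [ENNReal.toReal_mul, ENNReal.toReal_ofReal (hyp _), ENNReal.toReal_natCast] at h2
  have hpos : 0 < J.card := Finset.card_pos.mpr hJ
  obtain ⟨k, hk⟩ : ∃ k, J.card = k + 1 := ⟨J.card - 1, by omega⟩
  have hfact : ∀ i ∈ J, ((J.erase i).card.factorial : ℝ) = (k.factorial : ℝ) := by
    intro i hi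
    rw [Finset.card_erase_of_mem hi, hk]
    simp
  unfold Avol
  have h3 : ∑ i ∈ J, y i * (((J.erase i).card.factorial : ℝ) * (secVol (J.erase i) C 0).toReal) =
      (k.factorial : ℝ) * ∑ i ∈ J, y i * (secVol (J.erase i) C 0).toReal := by
    rw [Finset.mul_sum]
    refine Finset.sum_congr rfl fun i hi => ?_
    rw [hfact i hi]; ring
  rw [h3, hk, Nat.factorial_succ]
  have h4 : (0 : ℝ) ≤ k.factorial := by positivity
  have h5 := mul_le_mul_of_nonneg_left h2 h4
  rw [hk] at h5
  push_cast at h5 ⊢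
  calc _ ≤ (k.factorial : ℝ) * (((k : ℝ) + 1) * (secVol J C 0).toReal) := h5
    _ = _ := by ring

end Vale.Agent.Lib.P248
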