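import Mathlib

namespace Vale.Agent.Lib.P248

/-- The polar of `K` with respect to the point `z`, that is the set `(K - z)°`. -/
def polarAt {ι : Type*} [Fintype ι] (K : Set (ι → ℝ)) (z : ι → ℝ) : Set (ι → ℝ) :=
  {y | ∀ x ∈ K, ∑ i, y i * (x i - z i) ≤ 1}

/-- Anti-blocking sets: subsets of the nonnegative orthant which are closed under passing to
coordinatewise smaller nonnegative vectors. -/
structure IsAntiBlocking {ι : Type*} (S : Set (ι → ℝ)) : Prop where
  nonneg : ∀ x ∈ S, ∀ i, 0 ≤ x i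
  down : ∀ x ∈ S, ∀ y : ι → ℝ, (∀ i, 0 ≤ y i) → (∀ i, y i ≤ x i) → y ∈ S

end Vale.Agent.Lib.P248
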