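import Mathlib
import Vale.Agent.Lib.P248.AB1
import Vale.Agent.Lib.P248.AB2
import Vale.Agent.Lib.P248.ABDefs

open MeasureTheory Set Function Finset
open scoped ENNReal

namespace Vale.Agent.Lib.P248

variable {ι : Type*} [Fintype ι] [DecidableEq ι]

omit [DecidableEq ι] in
lemma polarAt_convex (K : Set (ι → ℝ)) (z : ι → ℝ) : Convex ℝ (polarAt K z) := by
  intro y hy y' hy' a b ha hb hab x hx
  have h1 := hy x hx
  have h2 := hy' x hx
  have : ∑ i, (a • y + b • y') i * (x i - z i) =
      a * ∑ i, y i * (x i - z i) + b * ∑ i, y' i * (x i - z i) := by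
    rw [Finset.mul_sum, Finset.mul_sum, ← Finset.sum_add_distrib]
    refine Finset.sum_congr rfl fun i _ => ?_
    simp only [Pi.add_apply, Pi.smul_apply, smul_eq_mul]
    ring
  rw [this]
  nlinarith

omit [DecidableEq ι] in
lemma polarAt_isClosed (K : Set (ι → ℝ)) (z : ι → ℝ) : IsClosed (polarAt K z) := by
  have : polarAt K z = ⋂ x ∈ K, {y : ι → ℝ | ∑ i, y i * (x i - z i) ≤ 1} := by
    ext y; simp [polarAt]
  rw [this]
  refine isClosed_biInter fun x _ => isClosed_le ?_ continuous_const
  fun_prop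

omit [DecidableEq ι] in
/-- A uniform box around an interior point. -/
lemma exists_box_of_interior {K : Set (ι → ℝ)} {z : ι → ℝ} (hz : z ∈ interior K) :
    ∃ δ > 0, ∀ w : ι → ℝ, (∀ i, |w i - z i| ≤ δ) → w ∈ K := by
  rcases Metric.mem_nhds_iff.mp (mem_interior_iff_mem_nhds.mp hz) with ⟨ε, hε, hball⟩
  refine ⟨ε / 2, by positivity, fun w hw => hball ?_⟩
  rw [Metric.mem_ball]
  have : dist w z ≤ ε / 2 := by
    rw [dist_pi_le_iff (by positivity)]
    intro i
    rw [Real.dist_eq]
    exact hw i
  linarith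

lemma pos_of_interior {K : Set (ι → ℝ)} (hKp : ∀ x ∈ K, ∀ i, 0 ≤ x i) {z : ι → ℝ}
    (hz : z ∈ interior K) (i : ι) : 0 < z i := by
  obtain ⟨δ, hδ, hbox⟩ := exists_box_of_interior hz
  have h := hKp (update z i (z i - δ)) (hbox _ (by
    intro l
    by_cases hl : l = i
    · subst hl; simp [abs_of_pos hδ]
    · simp [hl, hδ.le])) i
  simp at h
  linarith

lemma polarAt_bounded {K : Set (ι → ℝ)} {z : ι → ℝ} (hz : z ∈ interior K) :
    ∃ R, ∀ y ∈ polarAt K z, ∀ i, |y i| ≤ R := by
  obtain ⟨δ, hδ, hbox⟩ := exists_box_of_interior hz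
  refine ⟨1 / δ, fun y hy i => ?_⟩
  rw [le_div_iff₀ hδ]
  by_cases hi : 0 ≤ y i
  · have h := hy (update z i (z i + δ)) (hbox _ (by
      intro l
      by_cases hl : l = i
      · subst hl; simp [abs_of_pos hδ]
      · simp [hl, hδ.le]))
    rw [Finset.sum_eq_single i] at h
    · simp only [update_self] at h
      rw [abs_of_nonneg hi]
      linarith
    · intro l _ hl; simp [hl]
    · simp
  · push Not at hi
    have h := hy (update z i (z i - δ)) (hbox _ (by
      intro l
      by_cases hl : l = i
      · subst hl; simp [abs_of_pos hδ]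
      · simp [hl, hδ.le]))
    rw [Finset.sum_eq_single i] at h
    · simp only [update_self] at h
      rw [abs_of_neg hi]
      linarith
    · intro l _ hl; simp [hl]
    · simp

omit [DecidableEq ι] in
lemma polarAt_box {K : Set (ι → ℝ)} {z : ι → ℝ} {R : ℝ} (hKb : ∀ x ∈ K, ∀ i, |x i| ≤ R)
    (hzK : z ∈ K) : ∃ ε > 0, ∀ y : ι → ℝ, (∀ i, 0 ≤ y i ∧ y i ≤ ε) → y ∈ polarAt K z := by
  have hR0 : 0 ≤ R ∨ IsEmpty ι := by
    by_cases h : IsEmpty ι
    · exact Or.inr h
    · rw [not_isEmpty_iff] at h
      obtain ⟨i⟩ := h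
      exact Or.inl ((abs_nonneg _).trans (hKb z hzK i))
  set R' := max R 0 with hR'
  have hR'0 : 0 ≤ R' := le_max_right _ _
  refine ⟨1 / (((Fintype.card ι : ℝ) + 1) * (2 * R' + 1)), by positivity, fun y hy x hx => ?_⟩
  set ε := 1 / (((Fintype.card ι : ℝ) + 1) * (2 * R' + 1)) with hε
  have hεpos : 0 < ε := by positivity
  have hb : ∀ i, y i * (x i - z i) ≤ ε * (2 * R' + 1) := by
    intro i
    have h1 := abs_le.mp ((hKb x hx i).trans (le_max_left R 0))
    have h2 := abs_le.mp ((hKb z hzK i).trans (le_max_left R 0))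
    have h3 : x i - z i ≤ 2 * R' + 1 := by linarith [h1.2, h2.1]
    calc y i * (x i - z i) ≤ y i * (2 * R' + 1) := mul_le_mul_of_nonneg_left h3 (hy i).1
      _ ≤ ε * (2 * R' + 1) := mul_le_mul_of_nonneg_right (hy i).2 (by positivity)
  calc ∑ i, y i * (x i - z i) ≤ ∑ _i : ι, ε * (2 * R' + 1) := Finset.sum_le_sum fun i _ => hb i
    _ = (Fintype.card ι : ℝ) * (ε * (2 * R' + 1)) := by
      simp [Finset.sum_const, nsmul_eq_mul]
    _ ≤ 1 := by
      rw [hε]
      have h5 : (0 : ℝ) < 2 * R' + 1 := by positivity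
      have h6 : (0 : ℝ) < (Fintype.card ι : ℝ) + 1 := by positivity
      rw [div_mul_eq_mul_div, one_mul, mul_div_assoc', div_le_one (by positivity)]
      nlinarith

/-- The positive part of the polar. -/
def polarPos (K : Set (ι → ℝ)) (z : ι → ℝ) : Set (ι → ℝ) :=
  polarAt K z ∩ {y | ∀ i, 0 ≤ y i}

omit [DecidableEq ι] in
lemma polarPos_convex (K : Set (ι → ℝ)) (z : ι → ℝ) : Convex ℝ (polarPos K z) := by
  refine (polarAt_convex K z).inter ?_
  intro y hy y' hy' a b ha hb _ i
  have h1 := hy i
  have h2 := hy' i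
  simp only [Pi.add_apply, Pi.smul_apply, smul_eq_mul]
  positivity

omit [DecidableEq ι] in
lemma polarPos_measurable (K : Set (ι → ℝ)) (z : ι → ℝ) : MeasurableSet (polarPos K z) := by
  refine (polarAt_isClosed K z).measurableSet.inter ?_
  have : {y : ι → ℝ | ∀ i, 0 ≤ y i} = ⋂ i, {y | 0 ≤ y i} := by ext y; simp
  rw [this]
  exact MeasurableSet.iInter fun i => measurableSet_le measurable_const (measurable_pi_apply i)

/-- The local inequality on the positive parts of the polar. -/
lemma local_ineq {K : Set (ι → ℝ)} (hKp : ∀ x ∈ K, ∀ i, 0 ≤ x i) {z : ι → ℝ}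
    (hz : z ∈ interior K) (α : Finset ι → ℝ) (hα : ∀ J, 0 < α J)
    (hq : ∀ J : Finset ι, J.Nonempty → ∀ x ∈ K, ∑ i ∈ J, α (J.erase i) * x i ≤ α J)
    (hVpos : ∀ J, 0 < Avol (polarPos K z) J)
    (J : Finset ι) (hJ : J.Nonempty) :
    ∑ i ∈ J, α (J.erase i) * (z i + Avol (polarPos K z) (J.erase i) / Avol (polarPos K z) J) ≤
      α J := by
  classical
  set V := Avol (polarPos K z) with hV
  obtain ⟨δ, hδ, hbox⟩ := exists_box_of_interior hz
  obtain ⟨Rb, hRb⟩ := polarAt_bounded hz
  set A := ∑ i ∈ J, α (J.erase i) * z i with hA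
  set B := ∑ i ∈ J, α (J.erase i) with hB
  have hBpos : 0 < B := Finset.sum_pos (fun i _ => hα _) hJ
  -- first, `A < α J`
  have hAlt : A + δ * B ≤ α J := by
    have h1 := hq J hJ (fun i => z i + δ) (hbox _ (fun i => by simp [abs_of_pos hδ]))
    have h2 : ∑ i ∈ J, α (J.erase i) * (z i + δ) = A + δ * B := by
      rw [hA, hB, Finset.mul_sum, ← Finset.sum_add_distrib]
      exact Finset.sum_congr rfl fun i _ => by ring
    linarith
  have hr : 0 < α J - A := by nlinarith
  set y : ι → ℝ := fun i => if i ∈ J then α (J.erase i) / (α J - A) else 0 with hy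
  have hy_nn : ∀ l, 0 ≤ y l := by
    intro l
    simp only [hy]
    split_ifs
    · exact div_nonneg (hα _).le hr.le
    · exact le_rfl
  have hy_supp : ∀ l, l ∉ J → y l = 0 := fun l hl => by simp [hy, hl]
  have hy_L : y ∈ polarAt K z := by
    intro x hx
    have h1 : ∑ i, y i * (x i - z i) = ∑ i ∈ J, (α (J.erase i) / (α J - A)) * (x i - z i) := by
      rw [← Finset.sum_subset (Finset.subset_univ J)]
      · refine Finset.sum_congr rfl fun i hi => ?_
        simp [hy, hi]
      · intro i _ hi
        simp [hy, hi]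
    have h2 : ∑ i ∈ J, (α (J.erase i) / (α J - A)) * (x i - z i) =
        (∑ i ∈ J, α (J.erase i) * x i - A) / (α J - A) := by
      rw [hA, ← Finset.sum_sub_distrib, Finset.sum_div]
      exact Finset.sum_congr rfl fun i _ => by ring
    rw [h1, h2, div_le_one hr]
    linarith [hq J hJ x hx]
  have hy_D : y ∈ polarPos K z := ⟨hy_L, hy_nn⟩
  have hbd : ∀ x ∈ polarPos K z, ∀ i, |x i| ≤ Rb := fun x hx i => hRb x hx.1 i
  have hpy := pyramid_real (polarPos_measurable K z) (polarPos_convex K z) hbd
    (fun x hx l _ => hx.2 l) hJ hy_D hy_nn hy_supp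
  have hpy' : ∑ i ∈ J, α (J.erase i) * V (J.erase i) ≤ (α J - A) * V J := by
    have h3 : ∑ i ∈ J, y i * V (J.erase i) =
        (∑ i ∈ J, α (J.erase i) * V (J.erase i)) / (α J - A) := by
      rw [Finset.sum_div]
      refine Finset.sum_congr rfl fun i hi => ?_
      simp only [hy, hi, if_true]
      ring
    rw [h3, div_le_iff₀ hr] at hpy
    linarith
  have hVJ := hVpos J
  have h4 : ∑ i ∈ J, α (J.erase i) * (z i + V (J.erase i) / V J) =
      A + (∑ i ∈ J, α (J.erase i) * V (J.erase i)) / V J := by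
    rw [hA, Finset.sum_div, ← Finset.sum_add_distrib]
    refine Finset.sum_congr rfl fun i _ => ?_
    ring
  rw [h4]
  have h5 : (∑ i ∈ J, α (J.erase i) * V (J.erase i)) / V J ≤ α J - A := by
    rw [div_le_iff₀ hVJ]
    exact hpy'
  linarith

/-- The piece of the polar with prescribed signs on `I` (nonnegative) and on `T` (nonpositive). -/
def polarSign (K : Set (ι → ℝ)) (z : ι → ℝ) (I T : Finset ι) : Set (ι → ℝ) :=
  polarAt K z ∩ ({y | ∀ i ∈ I, 0 ≤ y i} ∩ {y | ∀ i ∈ T, y i ≤ 0})

omit [DecidableEq ι] in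
lemma polarSign_measurable (K : Set (ι → ℝ)) (z : ι → ℝ) (I T : Finset ι) :
    MeasurableSet (polarSign K z I T) := by
  refine (polarAt_isClosed K z).measurableSet.inter (MeasurableSet.inter ?_ ?_)
  · have : {y : ι → ℝ | ∀ i ∈ I, 0 ≤ y i} = ⋂ i ∈ I, {y | 0 ≤ y i} := by ext y; simp
    rw [this]
    exact Finset.measurableSet_biInter _ fun i _ =>
      measurableSet_le measurable_const (measurable_pi_apply i)
  · have : {y : ι → ℝ | ∀ i ∈ T, y i ≤ 0} = ⋂ i ∈ T, {y | y i ≤ 0} := by ext y; simp
    rw [this]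
    exact Finset.measurableSet_biInter _ fun i _ =>
      measurableSet_le (measurable_pi_apply i) measurable_const

/-- One negative coordinate at a time. -/
lemma polarSign_step {K : Set (ι → ℝ)} (hKp : ∀ x ∈ K, ∀ i, 0 ≤ x i) {z : ι → ℝ}
    (hz : z ∈ interior K) (I T : Finset ι) {j : ι} (hjI : j ∉ I) (hjT : j ∉ T) :
    (1 / z j) * Avol (polarSign K z I T) (I ∪ T) ≤
      Avol (polarSign K z I (insert j T)) (I ∪ insert j T) := by
  classical
  have hzj := pos_of_interior hKp hz j
  obtain ⟨Rb, hRb⟩ := polarAt_bounded hz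
  set J := I ∪ insert j T with hJ
  have hjJ : j ∈ J := by simp [hJ]
  have hjnot : j ∉ I ∪ T := by simp [hjI, hjT]
  have herase : J.erase j = I ∪ T := by
    ext l
    simp only [hJ, Finset.mem_erase, Finset.mem_union, Finset.mem_insert]
    constructor
    · rintro ⟨h1, h2 | h2 | h2⟩
      · exact Or.inl h2
      · exact absurd h2 h1
      · exact Or.inr h2
    · rintro (h | h)
      · exact ⟨fun hl => hjI (hl ▸ h), Or.inl h⟩
      · exact ⟨fun hl => hjT (hl ▸ h), Or.inr (Or.inr h)⟩
  set y : ι → ℝ := fun l => if l = j then - (1 / z j) else 0 with hy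
  have hyj : y j ≠ 0 := by
    simp only [hy, if_true]
    have := one_div_pos.mpr hzj
    linarith
  have hyL : y ∈ polarAt K z := by
    intro x hx
    rw [Finset.sum_eq_single j]
    · simp only [hy, if_true]
      have hx0 := hKp x hx j
      have h2 : -(1 / z j) * (x j - z j) = 1 - x j / z j := by
        field_simp
        ring
      rw [h2]
      have : 0 ≤ x j / z j := div_nonneg hx0 hzj.le
      linarith
    · intro l _ hl
      simp [hy, hl]
    · simp
  have hreg := pyr_region (J := J) (i := j) (R := polarSign K z I (insert j T))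
    (C := polarSign K z I T) (y := y) hjJ (polarSign_measurable _ _ _ _)
    (polarSign_measurable _ _ _ _) hyj
    (fun l hl => by
      have : l ≠ j := fun h => hl (h ▸ hjJ)
      simp [hy, this])
    (by
      intro x hx hxj _ t ht
      refine ⟨polarAt_convex K z hx.1 hyL (by linarith [ht.2]) ht.1 (by ring), ?_, ?_⟩
      · intro i hi
        have hne : i ≠ j := fun h => hjI (h ▸ hi)
        have h1 := hx.2.1 i hi
        simp only [Pi.add_apply, Pi.smul_apply, smul_eq_mul, hy, hne, if_false]
        have : 0 ≤ (1 - t) * x i := mul_nonneg (by linarith [ht.2]) h1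
        linarith
      · intro i hi
        simp only [Pi.add_apply, Pi.smul_apply, smul_eq_mul]
        rcases Finset.mem_insert.mp hi with rfl | hi'
        · simp only [hxj, mul_zero, zero_add, hy, if_true]
          have := one_div_pos.mpr hzj
          nlinarith [ht.1]
        · have hne : i ≠ j := fun h => hjT (h ▸ hi')
          have h1 := hx.2.2 i hi'
          simp only [hy, hne, if_false]
          have : (1 - t) * x i ≤ 0 := mul_nonpos_of_nonneg_of_nonpos (by linarith [ht.2]) h1
          linarith)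
  rw [herase] at hreg
  have hbdC : ∀ x ∈ polarSign K z I T, ∀ i, |x i| ≤ Rb := fun x hx i => hRb x hx.1 i
  have hbdR : ∀ x ∈ polarSign K z I (insert j T), ∀ i, |x i| ≤ Rb := fun x hx i => hRb x hx.1 i
  have hfin1 := (secVol_lt_top (I ∪ T) (polarSign_measurable K z I T) hbdC 0).ne
  have hfin2 := (secVol_lt_top J (polarSign_measurable K z I (insert j T)) hbdR 0).ne
  have hreal := (ENNReal.toReal_le_toReal
    (ENNReal.mul_ne_top ENNReal.ofReal_ne_top hfin1)
    (ENNReal.mul_ne_top (ENNReal.natCast_ne_top _) hfin2)).mpr hreg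
  rw [ENNReal.toReal_mul, ENNReal.toReal_mul, ENNReal.toReal_ofReal (abs_nonneg _),
    ENNReal.toReal_natCast] at hreal
  have habs : |y j| = 1 / z j := by
    simp only [hy, if_true, abs_neg]
    exact abs_of_pos (one_div_pos.mpr hzj)
  rw [habs] at hreal
  have hcard : J.card = (I ∪ T).card + 1 := by
    rw [← herase, Finset.card_erase_of_mem hjJ]
    have : 0 < J.card := Finset.card_pos.mpr ⟨j, hjJ⟩
    omega
  unfold Avol
  rw [hcard, Nat.factorial_succ]
  push_cast
  rw [hcard] at hreal
  push_cast at hreal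
  have h0 : (0 : ℝ) ≤ ((I ∪ T).card.factorial : ℝ) := by positivity
  have := mul_le_mul_of_nonneg_left hreal h0
  calc _ = ((I ∪ T).card.factorial : ℝ) * (1 / z j * (secVol (I ∪ T) (polarSign K z I T) 0).toReal) := by
        ring
    _ ≤ _ := this
    _ = _ := by ring

/-- Iterating over all the negative coordinates. -/
lemma polarSign_iter {K : Set (ι → ℝ)} (hKp : ∀ x ∈ K, ∀ i, 0 ≤ x i) {z : ι → ℝ}
    (hz : z ∈ interior K) (I : Finset ι) (T : Finset ι) (hT : Disjoint I T) :
    Avol (polarSign K z I ∅) I / ∏ j ∈ T, z j ≤ Avol (polarSign K z I T) (I ∪ T) := by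
  classical
  induction T using Finset.induction_on with
  | empty => simp
  | insert j T hj ih =>
    have hjI : j ∉ I := fun h => (Finset.disjoint_left.mp hT h) (Finset.mem_insert_self _ _)
    have hT' : Disjoint I T := Finset.disjoint_of_subset_right (Finset.subset_insert _ _) hT
    have h1 := ih hT'
    have h2 := polarSign_step hKp hz I T hjI hj
    have hzj := pos_of_interior hKp hz j
    rw [Finset.prod_insert hj, ← div_div]
    refine le_trans ?_ h2
    rw [mul_comm (1 / z j), mul_one_div]
    have : Avol (polarSign K z I ∅) I / z j / ∏ j ∈ T, z j =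
        (Avol (polarSign K z I ∅) I / ∏ j ∈ T, z j) / z j := by ring
    rw [this]
    exact div_le_div_of_nonneg_right h1 hzj.le

lemma Avol_univ {A : Set (ι → ℝ)} (hA : MeasurableSet A) :
    Avol A univ = ((Fintype.card ι).factorial : ℝ) * (volume A).toReal := by
  unfold Avol
  rw [secVol_univ hA, Finset.card_univ]

/-- The orthant decomposition of the polar. -/
lemma volume_polar_ge (K : Set (ι → ℝ)) (z : ι → ℝ) {R : ℝ} (hR : ∀ y ∈ polarAt K z, ∀ i, |y i| ≤ R) :
    ∑ I : Finset ι, Avol (polarSign K z I Iᶜ) univ ≤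
      ((Fintype.card ι).factorial : ℝ) * (volume (polarAt K z)).toReal := by
  classical
  have hfin : volume (polarAt K z) ≠ ⊤ := by
    have := secVol_lt_top (univ : Finset ι) (polarAt_isClosed K z).measurableSet hR 0
    rw [secVol_univ (polarAt_isClosed K z).measurableSet] at this
    exact this.ne
  simp only [Avol_univ (polarSign_measurable K z _ _)]
  rw [← Finset.mul_sum]
  refine mul_le_mul_of_nonneg_left ?_ (by positivity)
  have hd : ((univ : Finset (Finset ι)) : Set (Finset ι)).Pairwise
      (AEDisjoint volume on fun I : Finset ι => polarSign K z I Iᶜ) := by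
    intro I _ I' _ hII
    -- find a coordinate on which the signs disagree
    obtain ⟨i, hi⟩ : ∃ i, (i ∈ I ∧ i ∉ I') ∨ (i ∈ I' ∧ i ∉ I) := by
      by_contra hcon
      push Not at hcon
      apply hII
      ext i
      constructor
      · intro h; exact (hcon i).1 h
      · intro h; exact (hcon i).2 h
    have hnull : volume {y : ι → ℝ | y i = 0} = 0 := by
      rw [volume_pi]
      exact Measure.pi_hyperplane _ i 0
    refine measure_mono_null ?_ hnull
    rintro y ⟨hy1, hy2⟩
    simp only [Set.mem_ofPred_eq]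
    rcases hi with ⟨h1, h2⟩ | ⟨h1, h2⟩
    · exact le_antisymm (hy2.2.2 i (by simpa using h2)) (hy1.2.1 i h1)
    · exact le_antisymm (hy1.2.2 i (by simpa using h2)) (hy2.2.1 i h1)
  have hm : ∀ I ∈ (univ : Finset (Finset ι)), NullMeasurableSet (polarSign K z I Iᶜ) volume :=
    fun I _ => (polarSign_measurable K z I Iᶜ).nullMeasurableSet
  have hsub : (⋃ I ∈ (univ : Finset (Finset ι)), polarSign K z I Iᶜ) ⊆ polarAt K z := by
    intro y hy
    simp only [Set.mem_iUnion] at hy
    obtain ⟨I, _, hy⟩ := hy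
    exact hy.1
  have hle := measure_mono (μ := volume) hsub
  rw [measure_biUnion_finset₀ hd hm] at hle
  have hfin' : ∀ I ∈ (univ : Finset (Finset ι)), volume (polarSign K z I Iᶜ) ≠ ⊤ := by
    intro I _
    refine ((measure_mono Set.inter_subset_left).trans_lt (lt_top_iff_ne_top.mpr hfin)).ne
  rw [← ENNReal.toReal_sum hfin']
  exact (ENNReal.toReal_le_toReal (ENNReal.sum_ne_top.mpr hfin') hfin).mpr hle

/-- **Core theorem.** Let `K` be a bounded subset of the nonnegative orthant with `z` in its
interior and `α` a positive set function such that the vectors `(α (J \ i) / α J)`, `i ∈ J`,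
belong to the polar of `K`. Then `α univ * n! * |(K - z)°| ≥ (n+1)^(n+1)`. -/
theorem mahler_core {K : Set (ι → ℝ)} (hKp : ∀ x ∈ K, ∀ i, 0 ≤ x i) {R : ℝ}
    (hKb : ∀ x ∈ K, ∀ i, |x i| ≤ R) {z : ι → ℝ} (hz : z ∈ interior K)
    (α : Finset ι → ℝ) (hα : ∀ J, 0 < α J) (hα0 : α ∅ = 1)
    (hq : ∀ J : Finset ι, J.Nonempty → ∀ x ∈ K, ∑ i ∈ J, α (J.erase i) * x i ≤ α J) :
    ((Fintype.card ι : ℝ) + 1) ^ (Fintype.card ι + 1) ≤
        α univ * (((Fintype.card ι).factorial : ℝ) * (volume (polarAt K z)).toReal) ∧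
    (α univ * (((Fintype.card ι).factorial : ℝ) * (volume (polarAt K z)).toReal) =
        ((Fintype.card ι : ℝ) + 1) ^ (Fintype.card ι + 1) →
      ∀ J : Finset ι, ∀ i ∈ J, ((Fintype.card ι : ℝ) + 1) * (α (J.erase i) * z i / α J) = 1) := by
  classical
  have hzK : z ∈ K := interior_subset hz
  have hzpos := pos_of_interior hKp hz
  obtain ⟨Rb, hRb⟩ := polarAt_bounded hz
  obtain ⟨ε, hε, hbox⟩ := polarAt_box hKb hzK
  set D := polarPos K z with hD
  have hDm : MeasurableSet D := polarPos_measurable K z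
  have hDb : ∀ x ∈ D, ∀ i, |x i| ≤ Rb := fun x hx i => hRb x hx.1 i
  have hDbox : ∀ x : ι → ℝ, (∀ i, 0 ≤ x i ∧ x i ≤ ε) → x ∈ D :=
    fun x hx => ⟨hbox x hx, fun i => (hx i).1⟩
  have hVpos : ∀ J, 0 < Avol D J := fun J =>
    Avol_pos J hDm hDb (fun _ => hε) hDbox
  have h0D : (0 : ι → ℝ) ∈ D := hDbox 0 (fun i => ⟨le_rfl, hε.le⟩)
  have hV0 : Avol D ∅ = 1 := by
    unfold Avol
    rw [secVol_empty, Set.indicator_of_mem h0D]
    simp
  have hloc := local_ineq hKp hz α hα hq hVpos
  obtain ⟨hmain, heq⟩ := alg_main α (Avol D) z hα hVpos hzpos hα0 hV0 hloc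
  -- compare with the polar
  have hcomp : ∑ I : Finset ι, Avol D I / ∏ j ∈ Iᶜ, z j ≤
      ((Fintype.card ι).factorial : ℝ) * (volume (polarAt K z)).toReal := by
    refine le_trans (Finset.sum_le_sum fun I _ => ?_) (volume_polar_ge K z hRb)
    have h1 := polarSign_iter hKp hz I Iᶜ disjoint_compl_right
    rw [Finset.union_compl] at h1
    refine le_trans ?_ h1
    have hprod : 0 < ∏ j ∈ Iᶜ, z j := Finset.prod_pos fun j _ => hzpos j
    refine div_le_div_of_nonneg_right ?_ hprod.le
    -- the positive part sits inside the signed piece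
    unfold Avol
    refine mul_le_mul_of_nonneg_left ?_ (by positivity)
    have hbd2 : ∀ x ∈ polarSign K z I ∅, ∀ i, |x i| ≤ Rb := fun x hx i => hRb x hx.1 i
    refine (ENNReal.toReal_le_toReal (secVol_lt_top I hDm hDb 0).ne
      (secVol_lt_top I (polarSign_measurable K z I ∅) hbd2 0).ne).mpr ?_
    refine lmarginal_mono (fun x => ?_) 0
    apply Set.indicator_le_indicator_of_subset _ (fun _ => bot_le)
    intro y hy
    exact ⟨hy.1, fun i _ => hy.2 i, fun i hi => absurd hi (Finset.notMem_empty i)⟩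
  have hle : α univ * ∑ I : Finset ι, Avol D I / ∏ j ∈ Iᶜ, z j ≤
      α univ * (((Fintype.card ι).factorial : ℝ) * (volume (polarAt K z)).toReal) :=
    mul_le_mul_of_nonneg_left hcomp (hα _).le
  refine ⟨hmain.trans hle, fun h J i hi => heq (le_antisymm (hle.trans h.le) hmain) J i hi⟩

omit [DecidableEq ι] in
lemma bounded_of_compact {S : Set (ι → ℝ)} (hk : IsCompact S) :
    ∃ R, ∀ x ∈ S, ∀ i, |x i| ≤ R := by
  obtain ⟨R, hR⟩ := hk.isBounded.subset_closedBall (0 : ι → ℝ)
  refine ⟨R, fun x hx i => ?_⟩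
  have h1 := hR hx
  rw [mem_closedBall_zero_iff] at h1
  exact (norm_le_pi_norm x i).trans h1

/-- The sections of an anti-blocking convex set satisfy the pyramid inequality for all points of
the set. -/
lemma antiblocking_q {S : Set (ι → ℝ)} (hc : Convex ℝ S) (hm : MeasurableSet S) {R : ℝ}
    (hR : ∀ x ∈ S, ∀ i, |x i| ≤ R) (hab : IsAntiBlocking S) (J : Finset ι) (hJ : J.Nonempty)
    (x : ι → ℝ) (hx : x ∈ S) :
    ∑ i ∈ J, Avol S (J.erase i) * x i ≤ Avol S J := by
  classical
  set y : ι → ℝ := fun l => if l ∈ J then x l else 0 with hy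
  have hx0 := hab.nonneg x hx
  have hy0 : ∀ l, 0 ≤ y l := by
    intro l
    simp only [hy]
    split_ifs
    · exact hx0 l
    · exact le_rfl
  have hyS : y ∈ S := hab.down x hx y hy0 (by
    intro l
    simp only [hy]
    split_ifs
    · exact le_rfl
    · exact hx0 l)
  have h := pyramid_real hm hc hR (fun w hw l _ => hab.nonneg w hw l) hJ hyS hy0
    (fun l hl => by simp [hy, hl])
  refine le_trans (le_of_eq ?_) h
  refine Finset.sum_congr rfl fun i hi => ?_
  simp [hy, hi, mul_comm]

/-- **Sharp non-symmetric Mahler inequality for anti-blocking bodies.** -/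
theorem antiblocking_mahler {S : Set (ι → ℝ)} (hc : Convex ℝ S) (hk : IsCompact S)
    (hab : IsAntiBlocking S) {z : ι → ℝ} (hz : z ∈ interior S) :
    ((Fintype.card ι : ℝ) + 1) ^ (Fintype.card ι + 1) ≤
        (((Fintype.card ι).factorial : ℝ) * (volume S).toReal) *
          (((Fintype.card ι).factorial : ℝ) * (volume (polarAt S z)).toReal) ∧
    ((((Fintype.card ι).factorial : ℝ) * (volume S).toReal) *
          (((Fintype.card ι).factorial : ℝ) * (volume (polarAt S z)).toReal) =
        ((Fintype.card ι : ℝ) + 1) ^ (Fintype.card ι + 1) →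
      S = {x | (∀ i, 0 ≤ x i) ∧ ∑ i, x i / (((Fintype.card ι : ℝ) + 1) * z i) ≤ 1}) := by
  classical
  have hm : MeasurableSet S := hk.isClosed.measurableSet
  obtain ⟨R, hR⟩ := bounded_of_compact hk
  have hzS : z ∈ S := interior_subset hz
  have hzpos := pos_of_interior hab.nonneg hz
  have hbox : ∀ x : ι → ℝ, (∀ i, 0 ≤ x i ∧ x i ≤ z i) → x ∈ S := fun x hx =>
    hab.down z hzS x (fun i => (hx i).1) (fun i => (hx i).2)
  have hαpos : ∀ J, 0 < Avol S J := fun J => Avol_pos J hm hR hzpos hbox
  have h0S : (0 : ι → ℝ) ∈ S := hbox 0 (fun i => ⟨le_rfl, (hzpos i).le⟩)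
  have hα0 : Avol S ∅ = 1 := by
    unfold Avol
    rw [secVol_empty, Set.indicator_of_mem h0S]
    simp
  have hq : ∀ J : Finset ι, J.Nonempty → ∀ x ∈ S, ∑ i ∈ J, Avol S (J.erase i) * x i ≤ Avol S J :=
    fun J hJ x hx => antiblocking_q hc hm hR hab J hJ x hx
  obtain ⟨hmain, heq⟩ := mahler_core hab.nonneg hR hz (Avol S) hαpos hα0 hq
  rw [Avol_univ hm] at hmain heq
  refine ⟨hmain, fun hequal => ?_⟩
  have hratio := heq hequal
  set n := Fintype.card ι with hn
  have hn1 : (0 : ℝ) < (n : ℝ) + 1 := by positivity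
  set p : ι → ℝ := fun i => ((n : ℝ) + 1) * z i with hp
  have hppos : ∀ i, 0 < p i := fun i => mul_pos hn1 (hzpos i)
  -- the upper bound for `S`
  have hupper : ∀ x ∈ S, ∑ i, x i / p i ≤ 1 := by
    intro x hx
    by_cases hne : (univ : Finset ι).Nonempty
    · have h1 : ∑ i, Avol S (univ.erase i) * x i ≤ Avol S univ := hq univ hne x hx
      have h2 : ∀ i, Avol S (univ.erase i) = Avol S univ / p i := by
        intro i
        have h3 := hratio univ i (Finset.mem_univ i)
        have h4 := hαpos univ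
        have h5 := hzpos i
        simp only [hp]
        field_simp at h3 ⊢
        linarith
      have h6 : ∑ i, Avol S (univ.erase i) * x i = Avol S univ * ∑ i, x i / p i := by
        rw [Finset.mul_sum]
        refine Finset.sum_congr rfl fun i _ => ?_
        rw [h2 i]
        ring
      rw [h6] at h1
      have h4 := hαpos univ
      by_contra hcon
      push Not at hcon
      have := mul_lt_mul_of_pos_left hcon h4
      linarith
    · rw [Finset.not_nonempty_iff_eq_empty] at hne
      rw [hne]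
      simp
  -- the vertices of the simplex lie in `S`
  have hvert : ∀ i, update (0 : ι → ℝ) i (p i) ∈ S := by
    intro i
    have h1 := hratio {i} i (Finset.mem_singleton_self i)
    have herase : ({i} : Finset ι).erase i = ∅ := by simp
    rw [herase, hα0] at h1
    have h2 : Avol S {i} = p i := by
      have h4 := hαpos {i}
      have h5 := hzpos i
      simp only [hp]
      field_simp at h1
      linarith
    have h3 : (volume {s : ℝ | update (0 : ι → ℝ) i s ∈ S}).toReal = p i := by
      rw [← h2]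
      unfold Avol
      rw [secVol_singleton i hm]
      simp
    set E := {s : ℝ | update (0 : ι → ℝ) i s ∈ S} with hE
    have hEclosed : IsClosed E := hk.isClosed.preimage (continuous_const.update i continuous_id)
    by_contra hnot
    have hnotE : p i ∉ E := hnot
    obtain ⟨ε, hε, hball⟩ := Metric.isOpen_iff.mp hEclosed.isOpen_compl (p i) hnotE
    have hsub : E ⊆ Icc 0 (p i - ε / 2) := by
      intro s hs
      have hs0 : 0 ≤ s := by
        have := hab.nonneg _ hs i
        simpa using this
      have hs1 : s ≤ p i := by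
        have h5 := hupper _ hs
        rw [Finset.sum_eq_single i] at h5
        · simp only [update_self] at h5
          rwa [div_le_one (hppos i)] at h5
        · intro l _ hl
          simp [hl]
        · simp
      refine ⟨hs0, ?_⟩
      by_contra hcon
      push Not at hcon
      have hmem : s ∈ Metric.ball (p i) ε := by
        rw [Metric.mem_ball, Real.dist_eq, abs_lt]
        constructor <;> linarith
      exact hball hmem hs
    have hle := measure_mono (μ := volume) hsub
    rw [Real.volume_Icc, sub_zero] at hle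
    have hle2 := ENNReal.toReal_mono ENNReal.ofReal_ne_top hle
    rw [h3] at hle2
    have hpi := hppos i
    rw [ENNReal.toReal_ofReal'] at hle2
    rcases le_total 0 (p i - ε / 2) with h | h
    · rw [max_eq_left h] at hle2; linarith
    · rw [max_eq_right h] at hle2; linarith
  ext x
  constructor
  · intro hx
    exact ⟨hab.nonneg x hx, hupper x hx⟩
  · rintro ⟨hx0, hx1⟩
    have hx1' : ∑ i, x i / p i ≤ 1 := hx1
    set σ := ∑ i, x i / p i with hσ
    have hterm0 : ∀ i, 0 ≤ x i / p i := fun i => div_nonneg (hx0 i) (hppos i).le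
    by_cases hσ0 : σ = 0
    · have hzero := (Finset.sum_eq_zero_iff_of_nonneg (fun i _ => hterm0 i)).mp hσ0
      have : x = 0 := by
        ext i
        have h1 := hzero i (Finset.mem_univ i)
        have h2 := hppos i
        rw [div_eq_zero_iff] at h1
        rcases h1 with h1 | h1
        · simpa using h1
        · exact absurd h1 h2.ne'
      rw [this]
      exact h0S
    · have hσpos : 0 < σ := lt_of_le_of_ne (Finset.sum_nonneg fun i _ => hterm0 i) (Ne.symm hσ0)
      have hw : ∑ i, ((x i / p i) / σ) • update (0 : ι → ℝ) i (p i) ∈ S := by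
        refine hc.sum_mem (fun i _ => div_nonneg (hterm0 i) hσpos.le) ?_ (fun i _ => hvert i)
        rw [← Finset.sum_div]
        exact div_self hσ0
      have hxeq : x = σ • ∑ i, ((x i / p i) / σ) • update (0 : ι → ℝ) i (p i) := by
        ext l
        rw [Pi.smul_apply, Finset.sum_apply, Finset.sum_eq_single l]
        · simp only [Pi.smul_apply, update_self, smul_eq_mul]
          have := hppos l
          field_simp
        · intro m _ hm
          simp [Function.update_of_ne (Ne.symm hm)]
        · simp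
      rw [hxeq]
      exact hc.smul_mem_of_zero_mem h0S hw ⟨hσpos.le, hx1'⟩

end Vale.Agent.Lib.P248
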