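import Mathlib

open MeasureTheory Set

namespace Vale.Agent.Lib.P248

/-- The vertices of the Hansen polytope of a graph `G`: all points `(1, 1_A)` and `(-1, -1_A)`,
where `A` runs over the independent sets of `G` and `1_A` is the indicator vector of `A`. -/
def hansenVertices {V : Type} (G : SimpleGraph V) : Set (ℝ × (V → ℝ)) :=
  {p | ∃ A : Set V, G.IsIndepSet A ∧
    (p = (1, A.indicator (fun _ => 1)) ∨ p = (-1, -A.indicator (fun _ => 1)))}

/-- The Hansen polytope of `G`, a centrally symmetric polytope in `ℝ × ℝ^V`. -/
def hansenPolytope {V : Type} (G : SimpleGraph V) : Set (ℝ × (V → ℝ)) :=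
  convexHull ℝ (hansenVertices G)

/-- The polar body of `K ⊆ ℝ × ℝ^V` for the standard inner product. -/
def polarBody {V : Type} [Fintype V] (K : Set (ℝ × (V → ℝ))) : Set (ℝ × (V → ℝ)) :=
  {q | ∀ p ∈ K, q.1 * p.1 + ∑ i, q.2 i * p.2 i ≤ 1}

/-- Cographs (complement-reducible graphs): the graphs obtained from the one-vertex graph by
disjoint unions, complements and isomorphisms. -/
inductive IsCograph : {V : Type} → SimpleGraph V → Prop
  | single {V : Type} [Unique V] (G : SimpleGraph V) : IsCograph G
  | sum {V W : Type} {G : SimpleGraph V} {H : SimpleGraph W} :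
      IsCograph G → IsCograph H → IsCograph (G.sum H)
  | compl {V : Type} {G : SimpleGraph V} : IsCograph G → IsCograph Gᶜ
  | iso {V W : Type} {G : SimpleGraph V} {H : SimpleGraph W} :
      Nonempty (G ≃g H) → IsCograph G → IsCograph H

end Vale.Agent.Lib.P248
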