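import Vale.Agent.Lib.P248.Pol9

open MeasureTheory Set Function Filter
open scoped ENNReal Pointwise Topology

namespace Vale.Agent.Lib.P248

/-- The triangle in the plane. -/
def T2 : Set (Fin 2 → ℝ) := {y | 0 ≤ y 0 ∧ 0 ≤ y 1 ∧ y 0 + y 1 ≤ 1}

lemma T2_measurable : MeasurableSet T2 := by
  have h1 : IsClosed T2 := by
    have c0 : Continuous (fun y : Fin 2 → ℝ => y 0) := continuous_apply 0
    have c1 : Continuous (fun y : Fin 2 → ℝ => y 1) := continuous_apply 1
    exact (isClosed_le continuous_const c0).inter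
      ((isClosed_le continuous_const c1).inter (isClosed_le (c0.add c1) continuous_const))
  exact h1.measurableSet

lemma int_lin (A B c : ℝ) : ∫ b in (0:ℝ)..c, (A + B * b) = A * c + B * c ^ 2 / 2 := by
  rw [intervalIntegral.integral_add (by simp) (Continuous.intervalIntegrable (by fun_prop) _ _),
    intervalIntegral.integral_const_mul, integral_id]
  simp
  ring

lemma int_quad (P Q R : ℝ) : ∫ a in (0:ℝ)..1, (P + Q * a + R * a ^ 2) = P + Q / 2 + R / 3 := by
  rw [intervalIntegral.integral_add (Continuous.intervalIntegrable (by fun_prop) _ _)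
    (Continuous.intervalIntegrable (by fun_prop) _ _),
    intervalIntegral.integral_add (by simp) (Continuous.intervalIntegrable (by fun_prop) _ _),
    intervalIntegral.integral_const_mul, intervalIntegral.integral_const_mul, integral_id,
    integral_pow]
  simp
  ring

/-- The integral of a nonnegative affine function over the triangle. -/
lemma lintegral_T2 {a₀ a₁ a₂ : ℝ} (h₀ : 0 ≤ a₀) (h₁ : 0 ≤ a₁) (h₂ : 0 ≤ a₂) :
    ∫⁻ y : Fin 2 → ℝ, T2.indicator
      (fun y => ENNReal.ofReal (a₀ * (1 - y 0 - y 1) + a₁ * y 0 + a₂ * y 1)) y =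
      ENNReal.ofReal ((a₀ + a₁ + a₂) / 6) := by
  let F : ℝ × ℝ → ℝ≥0∞ := ({p : ℝ × ℝ | 0 ≤ p.1 ∧ 0 ≤ p.2 ∧ p.1 + p.2 ≤ 1}).indicator
    (fun p => ENNReal.ofReal (a₀ * (1 - p.1 - p.2) + a₁ * p.1 + a₂ * p.2))
  have hFm : Measurable F := by
    refine Measurable.indicator (by fun_prop) ?_
    have : IsClosed {p : ℝ × ℝ | 0 ≤ p.1 ∧ 0 ≤ p.2 ∧ p.1 + p.2 ≤ 1} :=
      (isClosed_le continuous_const continuous_fst).inter
        ((isClosed_le continuous_const continuous_snd).inter
          (isClosed_le (continuous_fst.add continuous_snd) continuous_const))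
    exact this.measurableSet
  have e1 : ∀ y : Fin 2 → ℝ, T2.indicator
      (fun y => ENNReal.ofReal (a₀ * (1 - y 0 - y 1) + a₁ * y 0 + a₂ * y 1)) y =
      F (MeasurableEquiv.finTwoArrow y) := by
    intro y
    by_cases hy : y ∈ T2
    · rw [indicator_of_mem hy]
      simp only [F]
      rw [indicator_of_mem]
      · simp
      · exact hy
    · rw [indicator_of_notMem hy]
      simp only [F]
      rw [indicator_of_notMem]
      exact hy
  simp_rw [e1]
  rw [(volume_preserving_finTwoArrow ℝ).lintegral_comp hFm]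
  rw [Measure.volume_eq_prod, lintegral_prod _ hFm.aemeasurable]
  have inner : ∀ a : ℝ, ∫⁻ b, F (a, b) =
      (Icc (0:ℝ) 1).indicator (fun a => ENNReal.ofReal
        ((a₀ + a₂) / 2 + a₁ * (1 - a) - (a₀ + a₂) * a + (a₀ + a₂) / 2 * a ^ 2 - a₁ * (1 - a) + a₁ * a * (1 - a))) a := by
    intro a
    by_cases ha : a ∈ Icc (0:ℝ) 1
    · rw [indicator_of_mem ha]
      have e2 : (fun b => F (a, b)) = (Icc (0:ℝ) (1 - a)).indicator
          (fun b => ENNReal.ofReal (a₀ * (1 - a - b) + a₁ * a + a₂ * b)) := by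
        ext b
        simp only [F, indicator, mem_ofPred_eq, mem_Icc]
        by_cases hb : 0 ≤ b ∧ b ≤ 1 - a
        · rw [if_pos ⟨ha.1, hb.1, by linarith [hb.2]⟩, if_pos hb]
        · rw [if_neg (fun h => hb ⟨h.2.1, by linarith [h.2.2]⟩), if_neg hb]
      rw [e2, lintegral_indicator measurableSet_Icc]
      have hle : (0:ℝ) ≤ 1 - a := by linarith [ha.2]
      rw [← ofReal_integral_eq_lintegral_ofReal]
      · congr 1
        rw [integral_Icc_eq_integral_Ioc, ← intervalIntegral.integral_of_le hle]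
        have : ∀ b : ℝ, a₀ * (1 - a - b) + a₁ * a + a₂ * b =
            (a₀ * (1 - a) + a₁ * a) + (a₂ - a₀) * b := by
          intro b
          ring
        simp_rw [this]
        rw [int_lin]
        ring
      · exact (Continuous.integrableOn_Icc (by fun_prop))
      · filter_upwards [ae_restrict_mem measurableSet_Icc] with b hb
        have h1 : 0 ≤ 1 - a - b := by linarith [hb.2]
        have h2 := ha.1
        have h3 := hb.1
        show (0:ℝ) ≤ a₀ * (1 - a - b) + a₁ * a + a₂ * b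
        positivity
    · rw [indicator_of_notMem ha]
      have e2 : (fun b => F (a, b)) = 0 := by
        funext b
        show F (a, b) = 0
        apply indicator_of_notMem
        rintro ⟨h1, h2, h3⟩
        exact ha ⟨h1, by simp only at h2 h3; linarith⟩
      rw [e2]
      exact lintegral_zero
  simp_rw [inner]
  rw [lintegral_indicator measurableSet_Icc]
  rw [← ofReal_integral_eq_lintegral_ofReal]
  · congr 1
    rw [integral_Icc_eq_integral_Ioc, ← intervalIntegral.integral_of_le (by norm_num : (0:ℝ) ≤ 1)]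
    have : ∀ a : ℝ, (a₀ + a₂) / 2 + a₁ * (1 - a) - (a₀ + a₂) * a + (a₀ + a₂) / 2 * a ^ 2 -
        a₁ * (1 - a) + a₁ * a * (1 - a) =
        (a₀ + a₂) / 2 + (a₁ - (a₀ + a₂)) * a + ((a₀ + a₂) / 2 - a₁) * a ^ 2 := by
      intro a
      ring
    simp_rw [this]
    rw [int_quad]
    ring
  · exact (Continuous.integrableOn_Icc (by fun_prop))
  · filter_upwards [ae_restrict_mem measurableSet_Icc] with a ha
    have h1 := ha.1
    have h2 : 0 ≤ 1 - a := by linarith [ha.2]
    have : (a₀ + a₂) / 2 + a₁ * (1 - a) - (a₀ + a₂) * a + (a₀ + a₂) / 2 * a ^ 2 -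
        a₁ * (1 - a) + a₁ * a * (1 - a) = (a₀ + a₂) / 2 * (1 - a) ^ 2 + a₁ * a * (1 - a) := by
      ring
    show (0:ℝ) ≤ (a₀ + a₂) / 2 + a₁ * (1 - a) - (a₀ + a₂) * a + (a₀ + a₂) / 2 * a ^ 2 -
        a₁ * (1 - a) + a₁ * a * (1 - a)
    rw [this]
    positivity

/-- The prism over the triangle under an affine function. -/
def Prism (a₀ a₁ a₂ : ℝ) : Set E3 :=
  {x | 0 ≤ x 0 ∧ 0 ≤ x 1 ∧ x 0 + x 1 ≤ 1 ∧ 0 ≤ x 2 ∧ x 2 ≤ a₀ * (1 - x 0 - x 1) + a₁ * x 0 + a₂ * x 1}

lemma Prism_closed (a₀ a₁ a₂ : ℝ) : IsClosed (Prism a₀ a₁ a₂) := by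
  have c0 : Continuous (fun y : E3 => y 0) := continuous_apply 0
  have c1 : Continuous (fun y : E3 => y 1) := continuous_apply 1
  have c2 : Continuous (fun y : E3 => y 2) := continuous_apply 2
  exact (isClosed_le continuous_const c0).inter
    ((isClosed_le continuous_const c1).inter
      ((isClosed_le (c0.add c1) continuous_const).inter
        ((isClosed_le continuous_const c2).inter
          (isClosed_le c2 (by fun_prop)))))

/-- **The volume of the prism.** -/
theorem vol_Prism {a₀ a₁ a₂ : ℝ} (h₀ : 0 ≤ a₀) (h₁ : 0 ≤ a₁) (h₂ : 0 ≤ a₂) :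
    volume (Prism a₀ a₁ a₂) = ENNReal.ofReal ((a₀ + a₁ + a₂) / 6) := by
  rw [volume_eq_fib (d := 2) 2 (Prism_closed a₀ a₁ a₂).measurableSet, ← lintegral_T2 h₀ h₁ h₂]
  apply lintegral_congr
  intro y
  by_cases hy : y ∈ T2
  · rw [indicator_of_mem hy]
    have : {τ : ℝ | ins (d := 2) 2 τ y ∈ Prism a₀ a₁ a₂} =
        Icc 0 (a₀ * (1 - y 0 - y 1) + a₁ * y 0 + a₂ * y 1) := by
      ext τ
      show up τ y ∈ Prism a₀ a₁ a₂ ↔ _
      simp only [Prism, mem_ofPred_eq, mem_Icc, up_0, up_1, up_2]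
      exact ⟨fun h => ⟨h.2.2.2.1, h.2.2.2.2⟩, fun h => ⟨hy.1, hy.2.1, hy.2.2, h.1, h.2⟩⟩
    rw [this, Real.volume_Icc, sub_zero]
  · rw [indicator_of_notMem hy]
    have : {τ : ℝ | ins (d := 2) 2 τ y ∈ Prism a₀ a₁ a₂} = ∅ := by
      ext τ
      show up τ y ∈ Prism a₀ a₁ a₂ ↔ _
      simp only [Prism, mem_ofPred_eq, mem_empty_iff_false, iff_false, up_0, up_1, up_2]
      rintro ⟨h1, h2, h3, -⟩
      exact hy ⟨h1, h2, h3⟩
    rw [this]
    simp

/-- **The volume of the standard simplex.** -/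
theorem vol_T3 : volume T3 = ENNReal.ofReal (1 / 6) := by
  have : T3 = Prism 1 0 0 := by
    ext x
    simp only [T3, Prism, mem_ofPred_eq]
    constructor
    · rintro ⟨h1, h2⟩
      have h3 := h1 0
      have h4 := h1 1
      have h5 := h1 2
      exact ⟨h3, h4, by linarith, h5, by linarith⟩
    · rintro ⟨h1, h2, h3, h4, h5⟩
      refine ⟨?_, by linarith⟩
      intro i
      fin_cases i
      · exact h1
      · exact h2
      · exact h4
  rw [this, vol_Prism (by norm_num) (by norm_num) (by norm_num)]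
  norm_num

lemma volReal_T3 : (volume T3).toReal = 1 / 6 := by
  rw [vol_T3, ENNReal.toReal_ofReal (by norm_num)]

end Vale.Agent.Lib.P248
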