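import Vale.Agent.Lib.P248.Eq9

open MeasureTheory Set Function Filter
open scoped ENNReal Pointwise Topology

namespace Vale.Agent.Lib.P248

/-- The stronger bound away from the simplices. -/
def Sp (l : ℝ) (K : Set E3) : Prop :=
  ∀ z ∈ interior K, ¬ Near K z l → Mm l ≤ (volume K).toReal * (volume (polarAt K z)).toReal

/-- The vertical dilation. -/
def dg (c : ℝ) : Matrix (Fin 3) (Fin 3) ℝ := !![1, 0, 0; 0, 1, 0; 0, 0, c]

lemma det_dg (c : ℝ) : (dg c).det = c := by
  rw [Matrix.det_fin_three]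
  simp [dg]

lemma hullH_scale (V : Finset E3) (g : E3 → ℝ) (c : ℝ) :
    hullH V (fun v => c * g v) = Lm (dg c) '' hullH V g := by
  have hbar : ∀ w, bar V w (fun v => c * g v) = c * bar V w g := by
    intro w
    simp only [bar, Finset.mul_sum]
    apply Finset.sum_congr rfl
    intro v _
    ring
  ext x
  constructor
  · intro hx
    obtain ⟨w, hw, h0, h1, h2⟩ := mem_hullH.1 hx
    refine ⟨![x 0, x 1, bar V w g], mem_hullH.2 ⟨w, hw, h0, h1, rfl⟩, ?_⟩
    rw [hbar] at h2
    apply ext3
    · rw [Lm_apply]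
      simp [dg]
    · rw [Lm_apply]
      simp [dg]
    · rw [Lm_apply]
      simp [dg]
      exact h2
  · rintro ⟨x', hx', rfl⟩
    obtain ⟨w, hw, h0, h1, h2⟩ := mem_hullH.1 hx'
    refine mem_hullH.2 ⟨w, hw, ?_, ?_, ?_⟩
    · rw [Lm_apply, h0]
      simp [dg]
    · rw [Lm_apply, h1]
      simp [dg]
    · rw [Lm_apply, hbar, h2]
      simp [dg]

lemma interior_image_Lm {m : Matrix (Fin 3) (Fin 3) ℝ} (hm : m.det ≠ 0) (K : Set E3) :
    interior (Lm m '' K) = Lm m '' interior K := by
  rw [← Le_image hm, ← Le_image hm]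
  exact ((Le m hm).toHomeomorph.image_interior K).symm

lemma Valid.scale {V : Finset E3} {a : E3 → ℝ} (ha : Valid V a) {s : ℝ} (hs : 0 ≤ s) :
    Valid V (fun v => s * a v) := by
  have := ha.comb (valid_self V) hs le_rfl
  simpa using this

/-- **The step of the induction away from the simplices.** -/
theorem S_count {l₁ l₂ : ℝ} (h1 : 1 < l₁) (h12 : l₁ < l₂) (h2 : l₂ ≤ 1 + 1 / 100000000000000)
    {V : Finset E3} (hV : IsPoly V) (hdim : ∑ S ∈ NVset V, (S.card - 3) + 5 ≤ V.card)
    (hnear : ¬ NearBody (hull V) l₂)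
    (IH : ∀ W, IsPoly W → cplx W < cplx V → Sp l₁ (hull W)) : Qp (Mm l₁) (hull V) := by
  obtain ⟨z, hz⟩ := hV.2
  obtain ⟨δ, hδ, hnt⟩ := exists_delta hdim
  obtain ⟨h₁, h₂, v₁, v₂, hv, ⟨S, σ, α, β, γ, a, b, c, u, hN, hon, hsup, hu, huS, ht⟩,
    ⟨S', σ', α', β', γ', a', b', c', u', hN', hon', hsup', hu', huS', ht'⟩,
    ⟨T, τ, α₁, β₁, γ₁, a₁, b₁, c₁, w, hNT, honT, hw, hgap⟩,
    ⟨T', τ', α₂, β₂, γ₂, a₂, b₂, c₂, w', hNT', honT', hw', hgap'⟩⟩ := exists_move hz hδ hnt
  have hi₁ := interior_of_gap hV.2 hNT honT hw hgap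
  have hi₂ := interior_of_gap hV.2 hNT' honT' hw' hgap'
  have hc₁ := cplx_lt hV hz v₁ hN hon hsup hu huS ht
  have hc₂ := cplx_lt hV hz v₂ hN' hon' hsup' hu' huS' ht'
  have side : ∀ h : E3 → ℝ, Valid V h → (interior (hullH V h)).Nonempty → cplx (vertsH V h) < cplx V →
      ∃ t : ℝ, 0 < t ∧ t ≤ 1 ∧ (interior (hullH V (gg h t))).Nonempty ∧
        Qp (Mm l₁) (hullH V (gg h t)) := by
    intro h hh hi hc
    obtain ⟨t, ht0, ht1, hint, hnot, hor⟩ := exists_stop hz hh hi h1 h12 hnear
    refine ⟨t, ht0, ht1, hint, ?_⟩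
    intro w hw
    have hnot' : ¬ Near (hullH V (gg h t)) w l₁ := fun hn => hnot ⟨w, hn⟩
    rcases hor with rfl | hn
    · rw [hullH_gg_one] at hw hnot' ⊢
      have := IH _ (isPoly_vertsH hi) hc
      rw [hull_vertsH] at this
      exact this w hw hnot'
    · exact local_main (hullH_compact _ _) (hullH_convex _ _) hw h1 h2 hn hnot'
  obtain ⟨t₁, t10, t11, hint₁, Q₁⟩ := side h₁ v₁ hi₁ hc₁
  obtain ⟨t₂, t20, t21, hint₂, Q₂⟩ := side h₂ v₂ hi₂ hc₂
  have hsum : 0 < t₁ + t₂ := by linarith
  set p := 2 * t₂ / (t₁ + t₂) with hp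
  set q := 2 * t₁ / (t₁ + t₂) with hq
  have hp0 : 0 < p := by positivity
  have hq0 : 0 < q := by positivity
  have hdp : (dg p).det ≠ 0 := by rw [det_dg]; exact hp0.ne'
  have hdq : (dg q).det ≠ 0 := by rw [det_dg]; exact hq0.ne'
  refine move_Q hz (h₁ := fun v => p * gg h₁ t₁ v) (h₂ := fun v => q * gg h₂ t₂ v)
    ((gg_valid v₁ t10.le t11).scale hp0.le) ((gg_valid v₂ t20.le t21).scale hq0.le) ?_ ?_ ?_ ?_ ?_
  · intro v hv'
    have e := hv v hv'
    have e2 : h₂ v = 2 * v 2 - h₁ v := by linarith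
    have hs := hsum.ne'
    simp only [gg, hp, hq]
    rw [e2]
    field_simp
    ring
  · rw [hullH_scale, interior_image_Lm hdp]
    exact hint₁.image _
  · rw [hullH_scale, interior_image_Lm hdq]
    exact hint₂.image _
  · rw [hullH_scale]
    exact (Qp_image hdp).2 Q₁
  · rw [hullH_scale]
    exact (Qp_image hdq).2 Q₂

lemma nearBody_image {m : Matrix (Fin 3) (Fin 3) ℝ} (hm : m.det ≠ 0) {K : Set E3} {l : ℝ}
    (h : NearBody (Lm m '' K) l) : NearBody K l := by
  obtain ⟨z', hz'⟩ := h
  obtain ⟨z, rfl⟩ := affine_exists hm 0 z'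
  rw [add_zero] at hz'
  exact ⟨z, (Near.image_iff hm).1 hz'⟩

/-- The step for polytopes with at least as many facets as vertices. -/
theorem S_step {l₁ l₂ : ℝ} (h1 : 1 < l₁) (h12 : l₁ < l₂) (h2 : l₂ ≤ 1 + 1 / 100000000000000)
    {V : Finset E3} (hV : IsPoly V) (hF : V.card ≤ (Fac V).card)
    (IH : ∀ W, IsPoly W → cplx W < cplx V → Sp l₁ (hull W)) : Sp l₁ (hull V) := by
  classical
  by_cases hn : NearBody (hull V) l₂
  · intro z hz hnot
    exact local_main (hull_compact V) (hull_convex V) hz h1 h2 hn hnot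
  have hQ : Qp (Mm l₁) (hull V) := by
    by_cases h : ∃ S ∈ Fac V, 4 ≤ S.card
    · obtain ⟨S₁, hS₁, h4⟩ := h
      have hfac := mem_Fac.1 hS₁
      obtain ⟨a, b, ha, hsup, hSe, -⟩ := id hfac
      obtain ⟨m, hm, hma⟩ := exists_vertical ha
      let e := Le m hm
      have hV' := hV.image e
      have hcount : ∑ S ∈ NVset (V.image e), (S.card - 3) + 5 ≤ (V.image e).card := by
        apply count_nonsimplicial (S₁ := S₁.image e) hV'
        · rw [card_image_Le, card_Fac_image e hV]
          exact hF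
        · exact mem_Fac.2 (hfac.image e hV)
        · rw [card_image_Le]
          exact h4
        · intro hN
          obtain ⟨σ, α, β, γ, hN⟩ := mem_NVset.1 hN
          refine not_vertical_of_NV hN (a := ![1, 0, 0]) (b := b) (by
            intro h0
            have := congrFun h0 0
            simp at this) (by simp) ?_
          ext x
          simp only [Finset.mem_image, mem_onP]
          have key : ∀ v, ip ![1, 0, 0] (e v) = ip a v := by
            intro v
            rw [← hma v]
            simp [ip, e]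
          constructor
          · rintro ⟨u, hu, rfl⟩
            rw [hSe] at hu
            obtain ⟨hu, hub⟩ := mem_onP.1 hu
            exact ⟨⟨u, hu, rfl⟩, by rw [key, hub]⟩
          · rintro ⟨⟨u, hu, rfl⟩, hx⟩
            rw [key] at hx
            exact ⟨u, by rw [hSe]; exact mem_onP.2 ⟨hu, hx⟩, rfl⟩
      have hnear' : ¬ NearBody (hull (V.image e)) l₂ := by
        rw [hull_image, Le_image]
        exact fun h => hn (nearBody_image hm h)
      have hQ := S_count h1 h12 h2 hV' hcount hnear' (by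
        intro W hW hc
        rw [cplx_image e hV] at hc
        exact IH W hW hc)
      rw [hull_image, Le_image] at hQ
      exact (Qp_image hm).1 hQ
    · push Not at h
      by_cases h5 : 5 ≤ V.card
      · exact S_count h1 h12 h2 hV (by rw [sum_zero_simplicial h]; simpa using h5) hn IH
      · exact absurd ((nearBody_small hV (by omega)).mono (by linarith)) hn
  intro z hz _
  exact hQ z hz

/-- **The improved bound for polytopes away from the simplices.** -/
theorem S_poly {l₁ l₂ : ℝ} (h1 : 1 < l₁) (h12 : l₁ < l₂) (h2 : l₂ ≤ 1 + 1 / 100000000000000) :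
    ∀ (N : ℕ) (V : Finset E3), cplx V = N → IsPoly V → Sp l₁ (hull V) := by
  intro N
  induction N using Nat.strong_induction_on with
  | _ N IH =>
    intro V hN hV
    have IH' : ∀ W, IsPoly W → cplx W < cplx V → Sp l₁ (hull W) := by
      intro W hW hc
      exact IH _ (hN ▸ hc) W rfl hW
    by_cases hF : V.card ≤ (Fac V).card
    · exact S_step h1 h12 h2 hV hF IH'
    · intro z hz hnot
      obtain ⟨W, hW, hh, hc1, hc2, h0, hp⟩ := polar_poly hV hz
      have hcW : cplx W = cplx V := by
        simp only [cplx]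
        omega
      have hQ := S_step h1 h12 h2 hW (by omega) (by
        intro U hU hc
        rw [hcW] at hc
        exact IH' U hU hc)
      have hnot' : ¬ Near (hull W) 0 l₁ := by
        intro hn
        have := hn.polar (by linarith)
        rw [hp, Near.translate_iff, zero_add] at this
        exact hnot this
      have := hQ 0 h0 hnot'
      rw [hp, measure_preimage_add_right, hh] at this
      rw [mul_comm]
      exact this

/-- **The improved bound for all bodies away from the simplices.** -/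
theorem body_bound {K : Set E3} (hK : IsCompact K) (hc : Convex ℝ K) {z : E3} (hz : z ∈ interior K)
    {l₁ l₂ l₀ : ℝ} (h1 : 1 < l₁) (h12 : l₁ < l₂) (h2 : l₂ ≤ 1 + 1 / 100000000000000) (h10 : l₁ < l₀)
    (hnot : ¬ Near K z l₀) :
    Mm l₁ ≤ (volume K).toReal * (volume (polarAt K z)).toReal := by
  have hl0 : 0 < l₁ := by linarith
  have key : ∀ ε : ℝ, 0 < ε → (1 + ε) * l₁ ≤ l₀ →
      Mm l₁ ≤ (1 + ε) ^ 3 * ((volume K).toReal * (volume (polarAt K z)).toReal) := by
    intro ε hε hεl
    set c : ℝ := 1 + ε with hcdef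
    have hc1 : 1 < c := by linarith
    have hc0 : 0 < c := by linarith
    let φ : E3 →ᵃ[ℝ] E3 := AffineMap.homothety z c
    have hφ : ∀ y, φ y = c • (y - z) + z := by
      intro y
      simp [φ, AffineMap.homothety_apply]
    let ψ : E3 → E3 := fun y => c⁻¹ • (y - z) + z
    have hψc : Continuous ψ := by fun_prop
    have hφψ : ∀ y, φ (ψ y) = y := by
      intro y
      rw [hφ]
      simp only [ψ, add_sub_cancel_right, smul_smul]
      rw [mul_inv_cancel₀ hc0.ne', one_smul, sub_add_cancel]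
    let U : Set E3 := ψ ⁻¹' interior K
    have hUo : IsOpen U := isOpen_interior.preimage hψc
    have hKU : K ⊆ U := by
      intro x hx
      have h1 : (1 - c⁻¹) + c⁻¹ = 1 := by ring
      have h2 : 0 < 1 - c⁻¹ := by
        have : c⁻¹ < 1 := inv_lt_one_of_one_lt₀ hc1
        linarith
      have := hc.combo_interior_self_mem_interior hz hx h2 (by positivity) h1
      have e : ψ x = (1 - c⁻¹) • z + c⁻¹ • x := by
        ext i
        simp only [ψ, Pi.add_apply, Pi.smul_apply, Pi.sub_apply, smul_eq_mul]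
        ring
      show ψ x ∈ interior K
      rw [e]
      exact this
    have hUK : U ⊆ φ '' K := by
      intro y hy
      exact ⟨ψ y, interior_subset hy, hφψ y⟩
    obtain ⟨F, hF1, hF2⟩ := exists_finset_between hK hUo hKU
    have hF3 : hull F ⊆ φ '' K := convexHull_min (hF2.trans hUK) (hc.affine_image φ)
    have hzF : z ∈ interior (hull F) := interior_mono hF1 hz
    obtain ⟨W, hW, hWF⟩ := exists_vertices_of_hull F ⟨z, hzF⟩
    have hnotF : ¬ Near (hull F) z l₁ := by
      rintro ⟨u, y, hR, hu, hy⟩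
      apply hnot
      refine Near.mono ⟨fun i => c⁻¹ • u i, fun j => c • y j, ?_, ?_, ?_⟩ hεl
      · intro i j
        rw [smul_ip, ip_smul, ← mul_assoc, mul_inv_cancel₀ hc0.ne', one_mul]
        exact hR i j
      · intro i
        obtain ⟨k, hk, ek⟩ := hF3 (hu i)
        rw [hφ] at ek
        have e : z + c⁻¹ • u i = k := by
          have h5 : u i = c • (k - z) := by
            have := ek
            ext s
            have h6 := congrFun this s
            simp only [Pi.add_apply, Pi.smul_apply, Pi.sub_apply, smul_eq_mul] at h6 ⊢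
            linarith
          rw [h5, smul_smul, inv_mul_cancel₀ hc0.ne', one_smul]
          abel
        rw [e]
        exact hk
      · intro x hx j
        rw [smul_ip]
        exact mul_le_mul_of_nonneg_left (hy x (hF1 hx) j) hc0.le
    have hQ := S_poly h1 h12 h2 _ W rfl hW z (by rw [hWF]; exact hzF)
    rw [hWF] at hQ
    have hQ' := hQ hnotF
    have hv1 : (volume (hull F)).toReal ≤ c ^ 3 * (volume K).toReal := by
      have h1 : volume (hull F) ≤ volume (φ '' K) := measure_mono hF3
      have h2 : volume (φ '' K) = ENNReal.ofReal (c ^ 3) * volume K := by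
        have := Measure.addHaar_image_homothety (μ := (volume : Measure E3)) z c K
        rw [this]
        simp only [Module.finrank_fin_fun]
        rw [abs_of_pos (by positivity)]
      rw [h2] at h1
      have h3 := ENNReal.toReal_mono (ENNReal.mul_ne_top ENNReal.ofReal_ne_top hK.measure_lt_top.ne) h1
      rwa [ENNReal.toReal_mul, ENNReal.toReal_ofReal (by positivity)] at h3
    have hv2 : (volume (polarAt (hull F) z)).toReal ≤ (volume (polarAt K z)).toReal := by
      apply ENNReal.toReal_mono (polar_compact hz).measure_lt_top.ne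
      exact measure_mono (polarAt_anti hF1 z)
    have hn1 : 0 ≤ (volume (polarAt (hull F) z)).toReal := ENNReal.toReal_nonneg
    have hn2 : 0 ≤ (volume K).toReal := ENNReal.toReal_nonneg
    calc Mm l₁ ≤ (volume (hull F)).toReal * (volume (polarAt (hull F) z)).toReal := hQ'
      _ ≤ (c ^ 3 * (volume K).toReal) * (volume (polarAt K z)).toReal :=
          mul_le_mul hv1 hv2 hn1 (by positivity)
      _ = _ := by ring
  set P := (volume K).toReal * (volume (polarAt K z)).toReal with hP
  have hlim : Tendsto (fun ε : ℝ => (1 + ε) ^ 3 * P) (𝓝[>] 0) (𝓝 ((1 + 0) ^ 3 * P)) := by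
    have : Continuous (fun ε : ℝ => (1 + ε) ^ 3 * P) := by fun_prop
    exact (this.tendsto 0).mono_left nhdsWithin_le_nhds
  have hδ : 0 < l₀ / l₁ - 1 := by
    rw [sub_pos, one_lt_div hl0]
    exact h10
  have h := ge_of_tendsto hlim (by
    filter_upwards [Ioo_mem_nhdsGT hδ] with ε hε
    apply key ε hε.1
    have := hε.2
    have h3 : ε + 1 < l₀ / l₁ := by linarith
    rw [lt_div_iff₀ hl0] at h3
    linarith)
  simpa using h

/-- **A limit argument: closeness to simplices at all ratios gives a simplex.** -/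
theorem near_one_of_all {K : Set E3} (hK : IsCompact K) {z : E3} (hz : z ∈ interior K) {Λ : ℝ}
    (hΛ : 1 < Λ) (hall : ∀ l, 1 < l → l ≤ Λ → Near K z l) : Near K z 1 := by
  let lev : ℕ → ℝ := fun n => 1 + (Λ - 1) * (1 / ((n : ℝ) + 1))
  have hlev1 : ∀ n, 1 < lev n := by
    intro n
    have h1 : 0 < (Λ - 1) * (1 / ((n : ℝ) + 1)) := mul_pos (by linarith) (by positivity)
    simp only [lev]
    linarith
  have hlevΛ : ∀ n, lev n ≤ Λ := by
    intro n
    have h1 : 1 / ((n : ℝ) + 1) ≤ 1 := by
      rw [div_le_one (by positivity)]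
      have : (0:ℝ) ≤ n := Nat.cast_nonneg n
      linarith
    have h2 : (Λ - 1) * (1 / ((n : ℝ) + 1)) ≤ (Λ - 1) * 1 :=
      mul_le_mul_of_nonneg_left h1 (by linarith)
    simp only [lev]
    linarith
  have hlevanti : Antitone lev := by
    intro m n hmn
    have h1 : ((m : ℝ) + 1) ≤ (n : ℝ) + 1 := by
      have : (m : ℝ) ≤ n := by exact_mod_cast hmn
      linarith
    have h2 : 1 / ((n : ℝ) + 1) ≤ 1 / ((m : ℝ) + 1) :=
      one_div_le_one_div_of_le (by positivity) h1
    have h3 := mul_le_mul_of_nonneg_left h2 (by linarith : 0 ≤ Λ - 1)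
    simp only [lev]
    linarith
  let A : ℕ → Set ((Fin 4 → E3) × (Fin 4 → E3)) := fun n => {p | Rel p.1 p.2 ∧ (∀ i, z + p.1 i ∈ K) ∧
    ∀ x ∈ K, ∀ j, ip (p.2 j) (x - z) ≤ lev n}
  have hAne : ∀ n, (A n).Nonempty := by
    intro n
    obtain ⟨u, y, h1, h2, h3⟩ := hall (lev n) (hlev1 n) (hlevΛ n)
    exact ⟨(u, y), h1, h2, h3⟩
  have hAanti : ∀ n, A (n + 1) ⊆ A n := by
    rintro n p ⟨h1, h2, h3⟩
    exact ⟨h1, h2, fun x hx j => (h3 x hx j).trans (hlevanti (Nat.le_succ n))⟩
  have hip : ∀ (i j : Fin 4), Continuous (fun p : (Fin 4 → E3) × (Fin 4 → E3) => ip (p.2 j) (p.1 i)) := by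
    intro i j
    simp only [ip]
    fun_prop
  have hAcl : ∀ n, IsClosed (A n) := by
    intro n
    have h1 : IsClosed {p : (Fin 4 → E3) × (Fin 4 → E3) | Rel p.1 p.2} := by
      simp only [Rel, ofPred_forall]
      exact isClosed_iInter fun i => isClosed_iInter fun j =>
        isClosed_eq (hip i j) continuous_const
    have h2 : IsClosed {p : (Fin 4 → E3) × (Fin 4 → E3) | ∀ i, z + p.1 i ∈ K} := by
      simp only [ofPred_forall]
      exact isClosed_iInter fun i => hK.isClosed.preimage (by fun_prop)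
    have h3 : IsClosed {p : (Fin 4 → E3) × (Fin 4 → E3) | ∀ x ∈ K, ∀ j, ip (p.2 j) (x - z) ≤ lev n} := by
      simp only [ofPred_forall]
      refine isClosed_iInter fun x => isClosed_iInter fun _ => isClosed_iInter fun j =>
        isClosed_le ?_ continuous_const
      simp only [ip]
      fun_prop
    exact h1.inter (h2.inter h3)
  -- compactness
  have hA0 : IsCompact (A 0) := by
    have hpol := polar_compact hz
    have hc1 : IsCompact (Set.pi univ fun _ : Fin 4 => (fun x => z + x) ⁻¹' K) :=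
      isCompact_univ_pi fun _ => (Homeomorph.addLeft z).isCompact_preimage.2 hK
    have hc2 : IsCompact (Set.pi univ fun _ : Fin 4 => (lev 0) • polarAt K z) :=
      isCompact_univ_pi fun _ => hpol.smul _
    refine (hc1.prod hc2).of_isClosed_subset (hAcl 0) ?_
    rintro ⟨u, y⟩ ⟨h1, h2, h3⟩
    refine ⟨fun i _ => h2 i, fun j _ => ?_⟩
    have hl := hlev1 0
    have hl0 : 0 < lev 0 := by linarith
    refine ⟨(lev 0)⁻¹ • y j, ?_, ?_⟩
    · rw [mem_polar_iff]
      intro x hx
      rw [smul_ip, smul_ip, ← mul_sub, ← ip_sub]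
      calc (lev 0)⁻¹ * ip (y j) (x - z) ≤ (lev 0)⁻¹ * lev 0 :=
            mul_le_mul_of_nonneg_left (h3 x hx j) (inv_nonneg.2 hl0.le)
        _ = 1 := inv_mul_cancel₀ hl0.ne'
    · show lev 0 • (lev 0)⁻¹ • y j = y j
      rw [smul_smul, mul_inv_cancel₀ hl0.ne', one_smul]
  obtain ⟨p, hp⟩ := IsCompact.nonempty_iInter_of_sequence_nonempty_isCompact_isClosed A hAanti hAne hA0 hAcl
  have hpA := mem_iInter.1 hp
  refine ⟨p.1, p.2, (hpA 0).1, (hpA 0).2.1, ?_⟩
  intro x hx j
  have hT : Tendsto lev atTop (𝓝 (1 + (Λ - 1) * 0)) :=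
    tendsto_const_nhds.add (tendsto_const_nhds.mul tendsto_one_div_add_atTop_nhds_zero_nat)
  have : ip (p.2 j) (x - z) ≤ 1 + (Λ - 1) * 0 :=
    ge_of_tendsto' hT fun n => (hpA n).2.2 x hx j
  simpa using this

/-- **Mahler's inequality in dimension three with its equality cases.** -/
theorem mahler3_equality {K : Set E3} (hK : IsCompact K) (hc : Convex ℝ K) {z : E3} (hz : z ∈ interior K) :
    (64 / 9 : ℝ) ≤ (volume K).toReal * (volume (polarAt K z)).toReal ∧
      ((volume K).toReal * (volume (polarAt K z)).toReal = 64 / 9 ↔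
        ∃ v : Fin 4 → E3, K = convexHull ℝ (range v) ∧ z = (1 / 4 : ℝ) • ∑ i, v i) := by
  refine ⟨mahler3 hK hc hz, ?_, ?_⟩
  · intro heq
    have hall : ∀ l, 1 < l → l ≤ 1 + 1 / 100000000000000 → Near K z l := by
      intro l hl hl2
      by_contra hnot
      have h1 : 1 < (1 + l) / 2 := by linarith
      have h2 : (1 + l) / 2 < l := by linarith
      have := body_bound hK hc hz h1 h2 hl2 h2 hnot
      rw [heq] at this
      linarith [Mm_gt h1]
    have hone := near_one_of_all hK hz (Λ := 1 + 1 / 100000000000000) (by norm_num) hall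
    exact hone.one_eq hc
  · rintro ⟨v, hv, hzv⟩
    have e : K = hull (Finset.univ.image v) := by
      rw [hv, hull]
      simp
    rw [e] at hz ⊢
    rw [hzv]
    exact prod_simplex ⟨z, hz⟩

/-- An interior point has a small chord in every direction around it. -/
lemma chord_dir {A : Set E3} {z : E3} (hz : z ∈ interior A) (e : E3) :
    ∃ ε : ℝ, 0 < ε ∧ z + ε • e ∈ A ∧ z + (-ε) • e ∈ A := by
  have hcont : Continuous (fun ε : ℝ => z + ε • e) := by fun_prop
  have hopn := (isOpen_interior (s := A)).preimage hcont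
  have h0 : (0 : ℝ) ∈ (fun ε : ℝ => z + ε • e) ⁻¹' interior A := by
    simpa using hz
  obtain ⟨δ, hδ, hball⟩ := Metric.isOpen_iff.1 hopn 0 h0
  have h1 : δ / 2 ∈ Metric.ball (0 : ℝ) δ := by
    rw [Metric.mem_ball, Real.dist_eq, sub_zero, abs_of_pos (by positivity)]
    linarith
  have h2 : -(δ / 2) ∈ Metric.ball (0 : ℝ) δ := by
    rw [Metric.mem_ball, Real.dist_eq, sub_zero, abs_neg, abs_of_pos (by positivity)]
    linarith
  exact ⟨δ / 2, by positivity, interior_subset (hball h1), interior_subset (hball h2)⟩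

/-- The same limit argument with a variable centre. -/
theorem nearBody_one_of_all {K : Set E3} (hK : IsCompact K) (hc : Convex ℝ K)
    (hi : (interior K).Nonempty) {Λ : ℝ} (hΛ : 1 < Λ) (hall : ∀ l, 1 < l → l ≤ Λ → NearBody K l) :
    NearBody K 1 := by
  let lev : ℕ → ℝ := fun n => 1 + (Λ - 1) * (1 / ((n : ℝ) + 1))
  have hlev1 : ∀ n, 1 < lev n := by
    intro n
    have h1 : 0 < (Λ - 1) * (1 / ((n : ℝ) + 1)) := mul_pos (by linarith) (by positivity)
    simp only [lev]
    linarith
  have hlevΛ : ∀ n, lev n ≤ Λ := by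
    intro n
    have h1 : 1 / ((n : ℝ) + 1) ≤ 1 := by
      rw [div_le_one (by positivity)]
      have : (0:ℝ) ≤ n := Nat.cast_nonneg n
      linarith
    have h2 : (Λ - 1) * (1 / ((n : ℝ) + 1)) ≤ (Λ - 1) * 1 :=
      mul_le_mul_of_nonneg_left h1 (by linarith)
    simp only [lev]
    linarith
  have hlevanti : Antitone lev := by
    intro m n hmn
    have h1 : ((m : ℝ) + 1) ≤ (n : ℝ) + 1 := by
      have : (m : ℝ) ≤ n := by exact_mod_cast hmn
      linarith
    have h2 : 1 / ((n : ℝ) + 1) ≤ 1 / ((m : ℝ) + 1) :=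
      one_div_le_one_div_of_le (by positivity) h1
    have h3 := mul_le_mul_of_nonneg_left h2 (by linarith : 0 ≤ Λ - 1)
    simp only [lev]
    linarith
  let A : ℕ → Set (E3 × (Fin 4 → E3) × (Fin 4 → E3)) := fun n =>
    {p | Rel p.2.1 p.2.2 ∧ (∀ i, p.1 + p.2.1 i ∈ K) ∧ ∀ x ∈ K, ∀ j, ip (p.2.2 j) (x - p.1) ≤ lev n}
  have hAne : ∀ n, (A n).Nonempty := by
    intro n
    obtain ⟨z, u, y, h1, h2, h3⟩ := hall (lev n) (hlev1 n) (hlevΛ n)
    exact ⟨(z, u, y), h1, h2, h3⟩
  have hAanti : ∀ n, A (n + 1) ⊆ A n := by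
    rintro n p ⟨h1, h2, h3⟩
    exact ⟨h1, h2, fun x hx j => (h3 x hx j).trans (hlevanti (Nat.le_succ n))⟩
  have hAcl : ∀ n, IsClosed (A n) := by
    intro n
    have h1 : IsClosed {p : E3 × (Fin 4 → E3) × (Fin 4 → E3) | Rel p.2.1 p.2.2} := by
      simp only [Rel, ofPred_forall]
      refine isClosed_iInter fun i => isClosed_iInter fun j => isClosed_eq ?_ continuous_const
      simp only [ip]
      fun_prop
    have h2 : IsClosed {p : E3 × (Fin 4 → E3) × (Fin 4 → E3) | ∀ i, p.1 + p.2.1 i ∈ K} := by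
      simp only [ofPred_forall]
      exact isClosed_iInter fun i => hK.isClosed.preimage (by fun_prop)
    have h3 : IsClosed {p : E3 × (Fin 4 → E3) × (Fin 4 → E3) |
        ∀ x ∈ K, ∀ j, ip (p.2.2 j) (x - p.1) ≤ lev n} := by
      simp only [ofPred_forall]
      refine isClosed_iInter fun x => isClosed_iInter fun _ => isClosed_iInter fun j =>
        isClosed_le ?_ continuous_const
      simp only [ip, Pi.sub_apply]
      fun_prop
    exact h1.inter (h2.inter h3)
  obtain ⟨c, hcint⟩ := hi
  have hr : ∀ i : Fin 3, ∃ r : ℝ, 0 < r ∧ c + r • (Pi.single i 1 : E3) ∈ K ∧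
      c + (-r) • (Pi.single i 1 : E3) ∈ K := fun i => chord_dir hcint _
  choose r hr0 hr1 hr2 using hr
  have hM : ∀ (z : E3) (y : E3) (l : ℝ), (∀ x ∈ K, ip y (x - z) ≤ l) → - (3 * l) ≤ ip y (c - z) →
      ∀ i, |y i| ≤ 4 * l / r i := by
    intro z y l h1 h2 i
    have e1 : ∀ t : ℝ, ip y (c + t • (Pi.single i 1 : E3) - z) = ip y (c - z) + t * y i := by
      intro t
      rw [add_sub_right_comm, ip_add, ip_smul]
      congr 2
      fin_cases i <;> simp [ip]
    have a1 := h1 _ (hr1 i)
    have a2 := h1 _ (hr2 i)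
    rw [e1] at a1 a2
    rw [abs_le, le_div_iff₀ (hr0 i)]
    have hr3 := hr0 i
    constructor
    · have : - y i ≤ 4 * l / r i := by
        rw [le_div_iff₀ hr3]
        nlinarith
      linarith
    · nlinarith
  have hA0 : IsCompact (A 0) := by
    have hc1 : IsCompact ((fun q : E3 × E3 => q.1 - q.2) '' (K ×ˢ K)) :=
      (hK.prod hK).image (by fun_prop)
    have hc2 : IsCompact (Set.pi univ fun _ : Fin 4 => (fun q : E3 × E3 => q.1 - q.2) '' (K ×ˢ K)) :=
      isCompact_univ_pi fun _ => hc1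
    have hc3 : IsCompact (Set.pi univ fun _ : Fin 4 => Set.pi univ fun i : Fin 3 =>
        Icc (-(4 * lev 0 / r i)) (4 * lev 0 / r i)) :=
      isCompact_univ_pi fun _ => isCompact_univ_pi fun _ => isCompact_Icc
    refine (hK.prod (hc2.prod hc3)).of_isClosed_subset (hAcl 0) ?_
    rintro ⟨z, u, y⟩ ⟨h1, h2, h3⟩
    have hzK : z ∈ K := by
      have hs := hc.sum_mem (t := Finset.univ) (w := fun _ : Fin 4 => (1 / 4 : ℝ))
        (z := fun i => z + u i) (fun _ _ => by norm_num) (by simp [Fin.sum_univ_four])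
        (fun i _ => h2 i)
      have e : ∑ i : Fin 4, (1 / 4 : ℝ) • (z + u i) = z := by
        rw [← Finset.smul_sum, Finset.sum_add_distrib, h1.sum_u, add_zero]
        ext k
        simp
      rw [e] at hs
      exact hs
    refine ⟨hzK, fun i _ => ?_, fun j _ i _ => ?_⟩
    · exact ⟨(z + u i, z), ⟨h2 i, hzK⟩, by simp⟩
    · have hb := hM z (y j) (lev 0) (fun x hx => h3 x hx j)
        (near_lower h1 h3 (interior_subset hcint) j) i
      exact abs_le.1 hb
  obtain ⟨p, hp⟩ := IsCompact.nonempty_iInter_of_sequence_nonempty_isCompact_isClosed A hAanti hAne hA0 hAcl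
  have hpA := mem_iInter.1 hp
  refine ⟨p.1, p.2.1, p.2.2, (hpA 0).1, (hpA 0).2.1, ?_⟩
  intro x hx j
  have hT : Tendsto lev atTop (𝓝 (1 + (Λ - 1) * 0)) :=
    tendsto_const_nhds.add (tendsto_const_nhds.mul tendsto_one_div_add_atTop_nhds_zero_nat)
  have : ip (p.2.2 j) (x - p.1) ≤ 1 + (Λ - 1) * 0 :=
    ge_of_tendsto' hT fun n => (hpA n).2.2 x hx j
  simpa using this

/-- **The full statement for the general Mahler problem in dimension three.** -/
theorem mahler3_full {K : Set E3} (hK : IsCompact K) (hc : Convex ℝ K) (hi : (interior K).Nonempty) :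
    (64 / 9 : ℝ) ≤ sInf ((fun z => (volume K).toReal * (volume (polarAt K z)).toReal) '' interior K) ∧
    (sInf ((fun z => (volume K).toReal * (volume (polarAt K z)).toReal) '' interior K) = 64 / 9 ↔
      ∃ v : Fin 4 → E3, K = convexHull ℝ (range v)) := by
  have hbelow : BddBelow ((fun z => (volume K).toReal * (volume (polarAt K z)).toReal) '' interior K) := by
    refine ⟨64 / 9, ?_⟩
    rintro _ ⟨z, hz, rfl⟩
    exact mahler3 hK hc hz
  have hne : ((fun z => (volume K).toReal * (volume (polarAt K z)).toReal) '' interior K).Nonempty :=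
    hi.image _
  have hlb : (64 / 9 : ℝ) ≤ sInf ((fun z => (volume K).toReal * (volume (polarAt K z)).toReal) '' interior K) := by
    apply le_csInf hne
    rintro _ ⟨z, hz, rfl⟩
    exact mahler3 hK hc hz
  refine ⟨hlb, ?_, ?_⟩
  · intro heq
    have hall : ∀ l, 1 < l → l ≤ 1 + 1 / 100000000000000 → NearBody K l := by
      intro l hl hl2
      by_contra hnot
      have h1 : 1 < (1 + l) / 2 := by linarith
      have h2 : (1 + l) / 2 < l := by linarith
      have h3 : Mm ((1 + l) / 2) ≤ sInf ((fun z => (volume K).toReal * (volume (polarAt K z)).toReal) '' interior K) := by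
        apply le_csInf hne
        rintro _ ⟨z, hz, rfl⟩
        exact body_bound hK hc hz h1 h2 hl2 h2 (fun hn => hnot ⟨z, hn⟩)
      rw [heq] at h3
      linarith [Mm_gt h1]
    obtain ⟨z, hz⟩ := nearBody_one_of_all hK hc hi (Λ := 1 + 1 / 100000000000000) (by norm_num) hall
    obtain ⟨v, hv, -⟩ := hz.one_eq hc
    exact ⟨v, hv⟩
  · rintro ⟨v, hv⟩
    have e : K = hull (Finset.univ.image v) := by
      rw [hv, hull]
      simp
    apply le_antisymm _ hlb
    rw [e] at hi ⊢
    have hprod := prod_simplex hi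
    have hz : (1 / 4 : ℝ) • ∑ i, v i ∈ interior (hull (Finset.univ.image v)) := by
      have hn := near_simplex hi
      have ev : (1 / 4 : ℝ) • ∑ i, v i = Lm (Mf v) cen + v 0 := by
        ext i
        rw [Fin.sum_univ_four]
        simp only [Pi.add_apply, Lm_apply, Pi.smul_apply, smul_eq_mul, Mf, Matrix.of_apply, cen]
        simp
        ring
      rw [ev]
      exact hn.mem_interior (hull_convex _)
    have hb2 : BddBelow ((fun z => (volume (hull (Finset.univ.image v))).toReal *
        (volume (polarAt (hull (Finset.univ.image v)) z)).toReal) '' interior (hull (Finset.univ.image v))) := by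
      rw [← e]
      exact hbelow
    refine (csInf_le hb2 ⟨_, hz, rfl⟩).trans ?_
    exact hprod.le

end Vale.Agent.Lib.P248
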