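import Vale.Agent.Lib.P248.Eq1

open MeasureTheory Set Function Filter
open scoped ENNReal Pointwise Topology

namespace Vale.Agent.Lib.P248

/-- Barycentric coordinates for the standard simplex. -/
def lam (i : Fin 4) (x : E3) : ℝ := (![1 - x 0 - x 1 - x 2, x 0, x 1, x 2] : Fin 4 → ℝ) i

/-- The vertices of the standard simplex. -/
def vtx (i : Fin 4) : E3 := (![![0, 0, 0], ![1, 0, 0], ![0, 1, 0], ![0, 0, 1]] : Fin 4 → E3) i

lemma lam_0 (x : E3) : lam 0 x = 1 - x 0 - x 1 - x 2 := rfl
lemma lam_1 (x : E3) : lam 1 x = x 0 := rfl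
lemma lam_2 (x : E3) : lam 2 x = x 1 := rfl
lemma lam_3 (x : E3) : lam 3 x = x 2 := rfl

lemma lam_sum (x : E3) : ∑ i, lam i x = 1 := by
  rw [Fin.sum_univ_four, lam_0, lam_1, lam_2, lam_3]
  ring

lemma lam_vtx (i k : Fin 4) : lam i (vtx k) = if i = k then 1 else 0 := by
  fin_cases i <;> fin_cases k <;> simp [lam, vtx]

lemma lam_combo (i : Fin 4) (x y : E3) {a b : ℝ} (hab : a + b = 1) :
    lam i (a • x + b • y) = a * lam i x + b * lam i y := by
  fin_cases i
  · show lam 0 _ = a * lam 0 x + b * lam 0 y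
    simp only [lam_0, Pi.add_apply, Pi.smul_apply, smul_eq_mul]
    have : b = 1 - a := by linarith
    subst this
    ring
  · show lam 1 _ = a * lam 1 x + b * lam 1 y
    simp only [lam_1, Pi.add_apply, Pi.smul_apply, smul_eq_mul]
  · show lam 2 _ = a * lam 2 x + b * lam 2 y
    simp only [lam_2, Pi.add_apply, Pi.smul_apply, smul_eq_mul]
  · show lam 3 _ = a * lam 3 x + b * lam 3 y
    simp only [lam_3, Pi.add_apply, Pi.smul_apply, smul_eq_mul]

lemma lam_continuous (i : Fin 4) : Continuous (lam i) := by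
  fin_cases i
  · show Continuous (lam 0)
    have : lam 0 = fun x : E3 => 1 - x 0 - x 1 - x 2 := rfl
    rw [this]
    fun_prop
  · show Continuous (lam 1)
    have : lam 1 = fun x : E3 => x 0 := rfl
    rw [this]
    fun_prop
  · show Continuous (lam 2)
    have : lam 2 = fun x : E3 => x 1 := rfl
    rw [this]
    fun_prop
  · show Continuous (lam 3)
    have : lam 3 = fun x : E3 => x 2 := rfl
    rw [this]
    fun_prop

lemma ext_lam {x y : E3} (h : ∀ i, lam i x = lam i y) : x = y := by
  apply ext3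
  · exact h 1
  · exact h 2
  · exact h 3

lemma mem_T3_iff {x : E3} : x ∈ T3 ↔ ∀ i, 0 ≤ lam i x := by
  constructor
  · rintro ⟨h1, h2⟩ i
    fin_cases i
    · show 0 ≤ lam 0 x
      rw [lam_0]
      linarith
    · exact h1 0
    · exact h1 1
    · exact h1 2
  · intro h
    refine ⟨?_, ?_⟩
    · intro i
      fin_cases i
      · exact h 1
      · exact h 2
      · exact h 3
    · have := h 0
      rw [lam_0] at this
      linarith

lemma vtx_mem_T3 (k : Fin 4) : vtx k ∈ T3 := by
  rw [mem_T3_iff]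
  intro i
  rw [lam_vtx]
  split_ifs <;> norm_num

/-- The linear gradient of a barycentric coordinate. -/
def gr (i : Fin 4) : E3 := (![![-1, -1, -1], ![1, 0, 0], ![0, 1, 0], ![0, 0, 1]] : Fin 4 → E3) i

lemma lam_sub (i : Fin 4) (x x' : E3) : lam i x - lam i x' = ip (gr i) (x - x') := by
  fin_cases i <;> simp [lam, gr, ip]
  ring

/-- The dual coordinates. -/
def sk (w : E3) (k : Fin 4) (y : E3) : ℝ := 1 - ip y (vtx k - w)

lemma sk_identity (w x y : E3) : 1 - ip y (x - w) = ∑ k, lam k x * sk w k y := by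
  rw [Fin.sum_univ_four, lam_0, lam_1, lam_2, lam_3]
  simp only [sk, ip, vtx, Pi.sub_apply]
  simp
  ring

lemma sk_sum (w y : E3) : ∑ k, lam k w * sk w k y = 1 := by
  rw [← sk_identity]
  simp [ip]

/-- The point of `polarAt` criterion in barycentric form. -/
lemma mem_polar_iff_sk {A : Set E3} {w y : E3} :
    y ∈ polarAt A w ↔ ∀ x ∈ A, 0 ≤ ∑ k, lam k x * sk w k y := by
  rw [mem_polar_iff]
  constructor
  · intro h x hx
    have := h x hx
    rw [← sk_identity, ip_sub]
    linarith
  · intro h x hx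
    have := h x hx
    rw [← sk_identity, ip_sub] at this
    linarith

/-- The polar of the standard simplex. -/
lemma mem_polar_T3 {w y : E3} : y ∈ polarAt T3 w ↔ ∀ k, 0 ≤ sk w k y := by
  rw [mem_polar_iff_sk]
  constructor
  · intro h k
    have := h (vtx k) (vtx_mem_T3 k)
    simpa [lam_vtx] using this
  · intro h x hx
    exact Finset.sum_nonneg fun k _ => mul_nonneg (mem_T3_iff.1 hx k) (h k)

/-- The chart of the polar given by three of the dual coordinates. -/
def Th (w : E3) (a : Fin 4) (y : E3) : E3 := fun l => sk w (a.succAbove l) y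

/-- The matrix of the chart. -/
def Am (w : E3) (a : Fin 4) : Matrix (Fin 3) (Fin 3) ℝ :=
  Matrix.of fun l j => w j - vtx (a.succAbove l) j

lemma Th_eq (w : E3) (a : Fin 4) (y : E3) : Th w a y = Lm (Am w a) y + fun _ => 1 := by
  funext l
  simp only [Th, sk, Pi.add_apply, Lm_apply, Am, Matrix.of_apply, ip, Pi.sub_apply]
  ring

lemma sa00 : (0 : Fin 4).succAbove (0 : Fin 3) = 1 := rfl
lemma sa01 : (0 : Fin 4).succAbove (1 : Fin 3) = 2 := rfl
lemma sa02 : (0 : Fin 4).succAbove (2 : Fin 3) = 3 := rfl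
lemma sa10 : (1 : Fin 4).succAbove (0 : Fin 3) = 0 := rfl
lemma sa11 : (1 : Fin 4).succAbove (1 : Fin 3) = 2 := rfl
lemma sa12 : (1 : Fin 4).succAbove (2 : Fin 3) = 3 := rfl
lemma sa20 : (2 : Fin 4).succAbove (0 : Fin 3) = 0 := rfl
lemma sa21 : (2 : Fin 4).succAbove (1 : Fin 3) = 1 := rfl
lemma sa22 : (2 : Fin 4).succAbove (2 : Fin 3) = 3 := rfl
lemma sa30 : (3 : Fin 4).succAbove (0 : Fin 3) = 0 := rfl
lemma sa31 : (3 : Fin 4).succAbove (1 : Fin 3) = 1 := rfl
lemma sa32 : (3 : Fin 4).succAbove (2 : Fin 3) = 2 := rfl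

lemma det_Am (w : E3) (a : Fin 4) : |(Am w a).det| = |lam a w| := by
  rw [Matrix.det_fin_three]
  fin_cases a
  · show |_| = |lam 0 w|
    simp only [Am, Matrix.of_apply]
    have e : (⟨0, by norm_num⟩ : Fin 4) = 0 := rfl
    simp only [e, sa00, sa01, sa02, lam_0]
    simp [vtx]
    rw [← abs_neg]
    congr 1
    ring
  · show |_| = |lam 1 w|
    simp only [Am, Matrix.of_apply]
    have e : (⟨1, by norm_num⟩ : Fin 4) = 1 := rfl
    simp only [e, sa10, sa11, sa12, lam_1]
    simp [vtx]
    congr 1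
    ring
  · show |_| = |lam 2 w|
    simp only [Am, Matrix.of_apply]
    have e : (⟨2, by norm_num⟩ : Fin 4) = 2 := rfl
    simp only [e, sa20, sa21, sa22, lam_2]
    simp [vtx]
    rw [← abs_neg]
    congr 1
    ring
  · show |_| = |lam 3 w|
    simp only [Am, Matrix.of_apply]
    have e : (⟨3, by norm_num⟩ : Fin 4) = 3 := rfl
    simp only [e, sa30, sa31, sa32, lam_3]
    simp [vtx]
    congr 1
    ring

/-- The volume of a preimage under the chart. -/
lemma vol_Th (w : E3) {a : Fin 4} (ha : lam a w ≠ 0) (Ω : Set E3) :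
    volume (Th w a ⁻¹' Ω) = ENNReal.ofReal (|lam a w|)⁻¹ * volume Ω := by
  have e : Th w a ⁻¹' Ω = (Lm (Am w a)) ⁻¹' ((fun x => x + fun _ => (1:ℝ)) ⁻¹' Ω) := by
    ext y
    simp only [mem_preimage, Th_eq]
  have h1 : LinearMap.det (Lm (Am w a)) = (Am w a).det := LinearMap.det_toLin' _
  have h2 : (Am w a).det ≠ 0 := by
    rw [← abs_ne_zero, det_Am, abs_ne_zero]
    exact ha
  rw [e, Measure.addHaar_preimage_linearMap _ (by rw [h1]; exact h2), measure_preimage_add_right,
    h1, abs_inv, det_Am]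

/-- The volume of a preimage of the standard simplex under a matrix. -/
lemma vol_preimage_T3 {N : Matrix (Fin 3) (Fin 3) ℝ} (hN : N.det ≠ 0) :
    volume ((Lm N) ⁻¹' T3) = ENNReal.ofReal (|N.det|⁻¹ * (1 / 6)) := by
  have h1 : LinearMap.det (Lm N) = N.det := LinearMap.det_toLin' _
  rw [Measure.addHaar_preimage_linearMap _ (by rw [h1]; exact hN), h1, vol_T3,
    ← ENNReal.ofReal_mul (by positivity), abs_inv]

lemma sk_chart (w y : E3) (a : Fin 4) :
    lam a w * sk w a y = 1 - ∑ l, lam (a.succAbove l) w * Th w a y l := by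
  have := sk_sum w y
  rw [Fin.sum_univ_succAbove _ a] at this
  simp only [Th]
  linarith

/-- The polar of the simplex in the chart of the coordinate `0`. -/
lemma polar_T3_chart (w : E3) (hw : ∀ k, 0 < lam k w) :
    polarAt T3 w = Th w 0 ⁻¹' ((Lm (Matrix.diagonal fun l : Fin 3 => lam (Fin.succAbove 0 l) w)) ⁻¹' T3) := by
  ext y
  rw [mem_polar_T3, mem_preimage, mem_preimage, mem_T3_iff]
  have hL : ∀ l : Fin 3, Lm (Matrix.diagonal fun l : Fin 3 => lam (Fin.succAbove 0 l) w) (Th w 0 y) l
      = lam (Fin.succAbove 0 l) w * Th w 0 y l := by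
    intro l
    simp [Matrix.toLin'_apply, Matrix.mulVec_diagonal]
  have hL0 : ∀ i, lam i (Lm (Matrix.diagonal fun l : Fin 3 => lam (Fin.succAbove 0 l) w) (Th w 0 y)) =
      lam i w * sk w i y := by
    intro i
    have h0 := sk_chart w y 0
    rw [Fin.sum_univ_three] at h0
    fin_cases i
    · show lam 0 _ = _
      rw [lam_0, hL, hL, hL]
      show _ = lam 0 w * sk w 0 y
      rw [h0]
      ring
    · show lam 1 _ = _
      rw [lam_1, hL]
      rfl
    · show lam 2 _ = _
      rw [lam_2, hL]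
      rfl
    · show lam 3 _ = _
      rw [lam_3, hL]
      rfl
  constructor
  · intro h i
    rw [hL0]
    exact mul_nonneg (hw _).le (h _)
  · intro h k
    have := h k
    rw [hL0] at this
    exact nonneg_of_mul_nonneg_right this (hw _)

/-- The product of the four barycentric coordinates. -/
noncomputable def pm (w : E3) : ℝ := ∏ k, lam k w

lemma pm_pos {w : E3} (hw : ∀ k, 0 < lam k w) : 0 < pm w :=
  Finset.prod_pos fun k _ => hw k

lemma pm_succAbove (w : E3) (a : Fin 4) : pm w = lam a w * ∏ l, lam (a.succAbove l) w :=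
  Fin.prod_univ_succAbove _ a

/-- **The volume of the polar of the standard simplex.** -/
theorem vol_polar_T3 {w : E3} (hw : ∀ k, 0 < lam k w) :
    volume (polarAt T3 w) = ENNReal.ofReal ((1 / 6) / pm w) := by
  have hpm := pm_pos hw
  have hdet : (Matrix.diagonal fun l : Fin 3 => lam (Fin.succAbove 0 l) w).det ≠ 0 := by
    rw [Matrix.det_diagonal]
    exact (Finset.prod_pos fun l _ => hw _).ne'
  rw [polar_T3_chart w hw, vol_Th w (hw 0).ne', vol_preimage_T3 hdet, ← ENNReal.ofReal_mul (by positivity)]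
  congr 1
  rw [Matrix.det_diagonal, abs_of_pos (hw 0), abs_of_pos (Finset.prod_pos fun l _ => hw _),
    pm_succAbove w 0]
  have h1 := (hw 0).ne'
  have h2 : (∏ l : Fin 3, lam (Fin.succAbove 0 l) w) ≠ 0 := (Finset.prod_pos fun l _ => hw _).ne'
  field_simp

/-- The volume product of the standard simplex at a general point. -/
theorem prod_T3 {w : E3} (hw : ∀ k, 0 < lam k w) :
    (volume T3).toReal * (volume (polarAt T3 w)).toReal = 1 / (36 * pm w) := by
  have hpm := pm_pos hw
  rw [volReal_T3, vol_polar_T3 hw, ENNReal.toReal_ofReal (by positivity)]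
  field_simp
  norm_num

/-- The centroid of the standard simplex. -/
noncomputable def cen : E3 := fun _ => 1 / 4

lemma lam_cen (k : Fin 4) : lam k cen = 1 / 4 := by
  fin_cases k <;> simp [lam, cen]
  norm_num

lemma prod_T3_cen : (volume T3).toReal * (volume (polarAt T3 cen)).toReal = 64 / 9 := by
  rw [prod_T3 (fun k => by rw [lam_cen]; norm_num)]
  simp only [pm, Fin.prod_univ_four, lam_cen]
  norm_num

lemma interior_T3 {x : E3} (h : ∀ i, 0 < lam i x) : x ∈ interior T3 := by
  have ho : IsOpen {x : E3 | ∀ i, 0 < lam i x} := by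
    simp only [ofPred_forall]
    exact isOpen_iInter_of_finite fun i => isOpen_lt continuous_const (lam_continuous i)
  apply interior_maximal _ ho h
  intro x hx
  exact mem_T3_iff.2 fun i => (hx i).le

end Vale.Agent.Lib.P248
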