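import Vale.Agent.Lib.P248.Eq2

open MeasureTheory Set Function Filter
open scoped ENNReal Pointwise Topology

namespace Vale.Agent.Lib.P248

/-- The relation between the vertices of a simplex centred at the origin and the normals of its
facets. -/
def Rel (u y : Fin 4 → E3) : Prop := ∀ i j, ip (y j) (u i) = if i = j then -3 else 1

/-- `K` is `l`-close to a simplex with centroid `z`: it contains the simplex and it is contained in
its dilate of ratio `l` about `z`. -/
def Near (K : Set E3) (z : E3) (l : ℝ) : Prop :=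
  ∃ u y : Fin 4 → E3, Rel u y ∧ (∀ i, z + u i ∈ K) ∧ ∀ x ∈ K, ∀ j, ip (y j) (x - z) ≤ l

/-- Closeness to a simplex with an arbitrary centroid. -/
def NearBody (K : Set E3) (l : ℝ) : Prop := ∃ z, Near K z l

lemma Near.mono {K : Set E3} {z : E3} {l l' : ℝ} (h : Near K z l) (hl : l ≤ l') : Near K z l' := by
  obtain ⟨u, y, h1, h2, h3⟩ := h
  exact ⟨u, y, h1, h2, fun x hx j => (h3 x hx j).trans hl⟩

lemma NearBody.mono {K : Set E3} {l l' : ℝ} (h : NearBody K l) (hl : l ≤ l') : NearBody K l' := by
  obtain ⟨z, hz⟩ := h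
  exact ⟨z, hz.mono hl⟩

lemma Rel.symm {u y : Fin 4 → E3} (h : Rel u y) : Rel y u := by
  intro i j
  rw [ip_comm, h j i]
  by_cases hij : i = j
  · subst hij; simp
  · simp [hij, Ne.symm hij]

/-- The normals of a simplex separate points. -/
lemma Rel.inj {u y : Fin 4 → E3} (h : Rel u y) {v : E3} (hv : ∀ j, ip (y j) v = 0) : v = 0 := by
  let U : Matrix (Fin 3) (Fin 3) ℝ := Matrix.of fun r c => u (Fin.castSucc c) r
  let Y : Matrix (Fin 3) (Fin 3) ℝ := Matrix.of fun r c => y (Fin.castSucc r) c
  have hYU : Y * U = !![-3, 1, 1; 1, -3, 1; 1, 1, -3] := by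
    ext r c
    have := h (Fin.castSucc c) (Fin.castSucc r)
    simp only [ip] at this
    simp only [Matrix.mul_apply, Fin.sum_univ_three, Y, U, Matrix.of_apply]
    rw [this]
    fin_cases r <;> fin_cases c <;> simp
  have hdet : Y.det ≠ 0 := by
    intro h0
    have h1 := congrArg Matrix.det hYU
    rw [Matrix.det_mul, h0, zero_mul, Matrix.det_fin_three] at h1
    simp at h1
    norm_num at h1
  have hmv : Y.mulVec v = 0 := by
    funext r
    have := hv (Fin.castSucc r)
    simp only [ip] at this
    simp only [Matrix.mulVec, dotProduct, Fin.sum_univ_three, Y, Matrix.of_apply, Pi.zero_apply]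
    exact this
  exact Matrix.eq_zero_of_mulVec_eq_zero hdet hmv

lemma Rel.sum_u {u y : Fin 4 → E3} (h : Rel u y) : ∑ i, u i = 0 := by
  apply h.inj
  intro j
  have e : ∑ i, u i = ∑ i, (1 : ℝ) • u i := by simp
  rw [e, ip_sum]
  simp only [one_mul, h _ j]
  fin_cases j <;> simp [Fin.sum_univ_four]
  all_goals norm_num

lemma Rel.sum_y {u y : Fin 4 → E3} (h : Rel u y) : ∑ i, y i = 0 := h.symm.sum_u

/-- The expansion of a vector on the vertices. -/
lemma Rel.expand {u y : Fin 4 → E3} (h : Rel u y) (x : E3) :
    ∑ i, ip (y i) x • u i = (-4 : ℝ) • x := by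
  have key : ∑ i, ip (y i) x • u i + (4 : ℝ) • x = 0 := by
    apply h.inj
    intro j
    rw [ip_add, ip_sum, ip_smul]
    have e : ∑ i, ip (y i) x * ip (y j) (u i) = -4 * ip (y j) x := by
      have e1 : ∀ i, ip (y i) x * ip (y j) (u i) = ip (y i) x + (if i = j then -4 * ip (y j) x else 0) := by
        intro i
        rw [h i j]
        by_cases hij : i = j
        · subst hij
          simp
          ring
        · simp [hij]
      simp only [e1]
      rw [Finset.sum_add_distrib]
      simp only [Finset.sum_ite_eq', Finset.mem_univ, if_true]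
      have e2 : ∑ i, ip (y i) x = ip (∑ i, y i) x := by
        have := sum_ip x Finset.univ (fun _ : Fin 4 => (1:ℝ)) y
        simp only [one_smul, one_mul] at this
        exact this.symm
      rw [e2, h.sum_y]
      simp [ip]
    rw [e]
    ring
  have : ∑ i, ip (y i) x • u i = -((4 : ℝ) • x) := eq_neg_of_add_eq_zero_left key
  rw [this]
  simp

/-- Barycentric coordinates for a dilate of the simplex. -/
lemma Rel.bary {u y : Fin 4 → E3} (h : Rel u y) {l : ℝ} (hl : 0 < l) {x : E3}
    (hx : ∀ j, ip (y j) x ≤ l) :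
    ∃ b : Fin 4 → ℝ, (∀ i, 0 ≤ b i) ∧ ∑ i, b i = 1 ∧ x = l • ∑ i, b i • u i := by
  refine ⟨fun i => (l - ip (y i) x) / (4 * l), ?_, ?_, ?_⟩
  · intro i
    exact div_nonneg (by linarith [hx i]) (by positivity)
  · rw [← Finset.sum_div, Finset.sum_sub_distrib]
    have e2 : ∑ i, ip (y i) x = ip (∑ i, y i) x := by
      have := sum_ip x Finset.univ (fun _ : Fin 4 => (1:ℝ)) y
      simp only [one_smul, one_mul] at this
      exact this.symm
    have e3 : ip (0 : E3) x = 0 := by simp [ip]
    rw [e2, h.sum_y, e3]
    simp only [Finset.sum_const, Finset.card_univ, Fintype.card_fin, nsmul_eq_mul]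
    push_cast
    field_simp
    norm_num
  · have e1 : ∀ i, ((l - ip (y i) x) / (4 * l)) • u i =
        (1 / 4 : ℝ) • u i - ((4 * l)⁻¹) • (ip (y i) x • u i) := by
      intro i
      rw [smul_smul, ← sub_smul]
      congr 1
      field_simp
    simp only [e1]
    rw [Finset.sum_sub_distrib, ← Finset.smul_sum, ← Finset.smul_sum, h.sum_u, h.expand]
    simp only [smul_zero, zero_sub, smul_neg, smul_smul]
    have : -(l * ((4 * l)⁻¹ * (-4))) = 1 := by
      field_simp
    rw [← neg_smul, this, one_smul]

/-- A vector on the good side of all the facets lies in the simplex. -/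
lemma Rel.mem_of_le {u y : Fin 4 → E3} (h : Rel u y) {K : Set E3} (hK : Convex ℝ K) {z : E3}
    (hu : ∀ i, z + u i ∈ K) {x : E3} (hx : ∀ j, ip (y j) x ≤ 1) : z + x ∈ K := by
  obtain ⟨b, hb0, hb1, e⟩ := h.bary one_pos hx
  have := hK.sum_mem (t := Finset.univ) (w := b) (z := fun i => z + u i)
    (fun i _ => hb0 i) hb1 (fun i _ => hu i)
  have e2 : z + x = ∑ i, b i • (z + u i) := by
    simp only [smul_add]
    rw [Finset.sum_add_distrib, ← Finset.sum_smul, hb1, one_smul, e, one_smul]
  rw [e2]
  exact this

/-- The centre of a near simplex is an interior point. -/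
lemma Near.mem_interior {K : Set E3} (hK : Convex ℝ K) {z : E3} {l : ℝ} (h : Near K z l) :
    z ∈ interior K := by
  obtain ⟨u, y, h1, h2, -⟩ := h
  have ho : IsOpen {x : E3 | ∀ j, ip (y j) (x - z) < 1} := by
    simp only [ofPred_forall]
    refine isOpen_iInter_of_finite fun j => isOpen_lt ?_ continuous_const
    simp only [ip, Pi.sub_apply]
    fun_prop
  apply interior_maximal _ ho
  · intro j
    simp [ip]
  · intro x hx
    have := h1.mem_of_le hK h2 (x := x - z) (fun j => (hx j).le)
    simpa using this

/-- The polar of a near simplex is a near simplex. -/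
lemma Near.polar {K : Set E3} {z : E3} {l : ℝ} (hl : 0 < l) (h : Near K z l) :
    Near (polarAt K z) 0 l := by
  obtain ⟨u, y, h1, h2, h3⟩ := h
  refine ⟨fun i => l⁻¹ • y i, fun j => l • u j, ?_, ?_, ?_⟩
  · intro i j
    simp only [smul_ip, ip_smul]
    have := h1.symm i j
    rw [this, ← mul_assoc, inv_mul_cancel₀ hl.ne', one_mul]
  · intro i
    rw [mem_polar_iff]
    intro x hx
    have := h3 x hx i
    rw [ip_sub] at this
    simp only [zero_add, smul_ip]
    rw [← mul_sub]
    calc l⁻¹ * (ip (y i) x - ip (y i) z) ≤ l⁻¹ * l :=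
          mul_le_mul_of_nonneg_left this (by positivity)
      _ = 1 := inv_mul_cancel₀ hl.ne'
  · intro p hp j
    have := (mem_polar_iff.1 hp) _ (h2 j)
    rw [ip_add] at this
    simp only [sub_zero, smul_ip]
    rw [ip_comm]
    have e : ip p (u j) ≤ 1 := by linarith
    calc l * ip p (u j) ≤ l * 1 := mul_le_mul_of_nonneg_left e hl.le
      _ = l := mul_one l

/-- Translations. -/
lemma Near.translate_iff {K : Set E3} {z t : E3} {l : ℝ} :
    Near ((fun x => x + t) ⁻¹' K) z l ↔ Near K (z + t) l := by
  constructor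
  · rintro ⟨u, y, h1, h2, h3⟩
    refine ⟨u, y, h1, ?_, ?_⟩
    · intro i
      have := h2 i
      simp only [mem_preimage] at this
      convert this using 1
      abel
    · intro x hx j
      have := h3 (x - t) (by simpa using hx) j
      convert this using 2
      abel
  · rintro ⟨u, y, h1, h2, h3⟩
    refine ⟨u, y, h1, ?_, ?_⟩
    · intro i
      simp only [mem_preimage]
      convert h2 i using 1
      abel
    · intro x hx j
      have := h3 (x + t) hx j
      convert this using 2
      abel

/-- Invertible linear maps. -/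
lemma Near.image {m : Matrix (Fin 3) (Fin 3) ℝ} (hm : m.det ≠ 0) {K : Set E3} {z : E3} {l : ℝ}
    (h : Near K z l) : Near (Lm m '' K) (Lm m z) l := by
  obtain ⟨u, y, h1, h2, h3⟩ := h
  have hu : IsUnit m.det := isUnit_iff_ne_zero.2 hm
  have hT : (m.transpose)⁻¹.transpose = m⁻¹ := by
    rw [Matrix.transpose_nonsing_inv, Matrix.transpose_transpose]
  have key : ∀ (a x : E3), ip (Lm (m.transpose)⁻¹ a) (Lm m x) = ip a x := by
    intro a x
    rw [ip_Lm]
    have : Lm m.transpose (Lm (m.transpose)⁻¹ a) = a := by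
      have hu' : IsUnit (m.transpose).det := by rw [Matrix.det_transpose]; exact hu
      simp [Matrix.toLin'_apply, Matrix.mulVec_mulVec, Matrix.mul_nonsing_inv _ hu']
    rw [this]
  refine ⟨fun i => Lm m (u i), fun j => Lm (m.transpose)⁻¹ (y j), ?_, ?_, ?_⟩
  · intro i j
    rw [key]
    exact h1 i j
  · intro i
    rw [← map_add]
    exact mem_image_of_mem _ (h2 i)
  · rintro _ ⟨x, hx, rfl⟩ j
    rw [← map_sub, key]
    exact h3 x hx j

lemma Near.image_iff {m : Matrix (Fin 3) (Fin 3) ℝ} (hm : m.det ≠ 0) {K : Set E3} {z : E3} {l : ℝ} :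
    Near (Lm m '' K) (Lm m z) l ↔ Near K z l := by
  refine ⟨fun h => ?_, fun h => h.image hm⟩
  have hu : IsUnit m.det := isUnit_iff_ne_zero.2 hm
  have hd : (m⁻¹).det ≠ 0 := by
    rw [Matrix.det_nonsing_inv]
    simp [hm]
  have := h.image hd
  have e : ∀ x, Lm m⁻¹ (Lm m x) = x := by
    intro x
    simp [Matrix.toLin'_apply, Matrix.mulVec_mulVec, Matrix.nonsing_inv_mul _ hu]
  rw [e, image_image] at this
  simp only [e, image_id'] at this
  exact this

/-- The standard simplex is near at its centroid. -/
lemma Near_T3 : Near T3 cen 1 := by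
  refine ⟨fun i => vtx i - cen, fun j => (-4 : ℝ) • gr j, ?_, ?_, ?_⟩
  · intro i j
    rw [smul_ip, ← lam_sub, lam_vtx, lam_cen]
    by_cases hij : i = j
    · subst hij
      simp
      norm_num
    · simp [hij, Ne.symm hij]
  · intro i
    simpa using vtx_mem_T3 i
  · intro x hx j
    rw [smul_ip, ← lam_sub, lam_cen]
    have := mem_T3_iff.1 hx j
    linarith

/-- A near simplex with ratio one is a simplex with its centroid at the centre. -/
lemma Near.one_eq {K : Set E3} (hK : Convex ℝ K) {z : E3} (h : Near K z 1) :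
    ∃ v : Fin 4 → E3, K = convexHull ℝ (range v) ∧ z = (1 / 4 : ℝ) • ∑ i, v i := by
  obtain ⟨u, y, h1, h2, h3⟩ := h
  refine ⟨fun i => z + u i, ?_, ?_⟩
  · apply Subset.antisymm
    · intro x hx
      obtain ⟨b, hb0, hb1, e⟩ := h1.bary one_pos (h3 x hx)
      rw [one_smul] at e
      have e2 : x = ∑ i, b i • (z + u i) := by
        simp only [smul_add]
        rw [Finset.sum_add_distrib, ← Finset.sum_smul, hb1, one_smul, ← e]
        simp
      rw [e2]
      exact (convex_convexHull ℝ _).sum_mem (fun i _ => hb0 i) hb1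
        (fun i _ => subset_convexHull ℝ _ (mem_range_self i))
    · apply convexHull_min _ hK
      rintro _ ⟨i, rfl⟩
      exact h2 i
  · rw [Finset.sum_add_distrib, h1.sum_u, add_zero]
    ext k
    simp

/-- The matrix of four points. -/
def Mf (f : Fin 4 → E3) : Matrix (Fin 3) (Fin 3) ℝ := Matrix.of fun i j : Fin 3 => f j.succ i - f 0 i

lemma Mf_det_ne {f : Fin 4 → E3} (hi : (interior (hull (Finset.univ.image f))).Nonempty) :
    (Mf f).det ≠ 0 := by
  intro h0
  obtain ⟨a, ha, hv⟩ := Matrix.exists_vecMul_eq_zero_iff.2 h0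
  apply not_all_on_plane hi (a := a) (b := ip a (f 0)) ha
  have key : ∀ j : Fin 3, ip a (f j.succ) = ip a (f 0) := by
    intro j
    have := congrFun hv j
    simp only [Matrix.vecMul, dotProduct, Fin.sum_univ_three, Pi.zero_apply, Mf, Matrix.of_apply] at this
    simp only [ip]
    linarith
  intro v hv'
  obtain ⟨i, -, rfl⟩ := Finset.mem_image.1 hv'
  refine Fin.cases rfl key i

/-- The hull of four points is an affine image of the standard simplex. -/
lemma hull_fin4 (f : Fin 4 → E3) :
    (fun x => x + f 0) ⁻¹' hull (Finset.univ.image f) = Lm (Mf f) '' T3 := by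
  apply Subset.antisymm
  · intro y hy
    have hconv : Convex ℝ ((fun x => x + (-f 0)) ⁻¹' (Lm (Mf f) '' T3)) :=
      (T3_convex.linear_image (Lm (Mf f))).translate_preimage_left (-f 0)
    have hsub : hull (Finset.univ.image f) ⊆ (fun x => x + (-f 0)) ⁻¹' (Lm (Mf f) '' T3) := by
      apply convexHull_min _ hconv
      intro x hx
      have hx' : x ∈ Finset.univ.image f := hx
      obtain ⟨i, -, rfl⟩ := Finset.mem_image.1 hx'
      refine Fin.cases ?_ (fun j => ?_) i
      · refine ⟨0, ⟨fun _ => le_rfl, by norm_num⟩, ?_⟩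
        simp
      · refine ⟨Pi.single j 1, ⟨?_, ?_⟩, ?_⟩
        · intro k
          by_cases hk : k = j
          · subst hk; simp
          · simp [Pi.single_apply, hk]
        · fin_cases j <;> simp [Pi.single_apply]
        · ext i
          rw [Lm_apply]
          fin_cases j <;> simp [Pi.single_apply, Mf, sub_eq_add_neg]
    have := hsub hy
    simpa using this
  · rintro y ⟨x, ⟨hx, hx'⟩, rfl⟩
    have hc := hull_convex (Finset.univ.image f)
    have hw := hc.sum_mem (t := Finset.univ) (w := ![1 - x 0 - x 1 - x 2, x 0, x 1, x 2]) (z := f)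
      (by
        intro i _
        have h0 := hx 0
        have h1 := hx 1
        have h2 := hx 2
        fin_cases i <;> simp <;> linarith)
      (by simp [Fin.sum_univ_four]; ring)
      (by
        intro i _
        exact mem_hull_self (Finset.mem_image_of_mem _ (Finset.mem_univ i)))
    have e : (Lm (Mf f) x + f 0) = ∑ i, (![1 - x 0 - x 1 - x 2, x 0, x 1, x 2] : Fin 4 → ℝ) i • f i := by
      ext i
      rw [Fin.sum_univ_four]
      simp only [Pi.add_apply, Lm_apply, Pi.smul_apply, smul_eq_mul, Mf, Matrix.of_apply]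
      simp
      ring
    rw [mem_preimage, e]
    exact hw

/-- The product at a point does not change under translations. -/
lemma prod_translate (K : Set E3) (t z : E3) :
    (volume ((fun x => x + t) ⁻¹' K)).toReal * (volume (polarAt ((fun x => x + t) ⁻¹' K) z)).toReal =
      (volume K).toReal * (volume (polarAt K (z + t))).toReal := by
  rw [polar_translate, measure_preimage_add_right]

/-- The volume product of a simplex at its centroid. -/
lemma prod_simplex {f : Fin 4 → E3} (hi : (interior (hull (Finset.univ.image f))).Nonempty) :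
    (volume (hull (Finset.univ.image f))).toReal *
      (volume (polarAt (hull (Finset.univ.image f)) ((1 / 4 : ℝ) • ∑ i, f i))).toReal = 64 / 9 := by
  have e : (1 / 4 : ℝ) • ∑ i, f i = Lm (Mf f) cen + f 0 := by
    ext i
    rw [Fin.sum_univ_four]
    simp only [Pi.add_apply, Lm_apply, Pi.smul_apply, smul_eq_mul, Mf, Matrix.of_apply, cen, Finset.sum_apply]
    simp
    ring
  rw [e, ← prod_translate, hull_fin4, prod_image (Mf_det_ne hi)]
  exact prod_T3_cen

/-- A simplex is near at its centroid. -/
lemma near_simplex {f : Fin 4 → E3} (hi : (interior (hull (Finset.univ.image f))).Nonempty) :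
    Near (hull (Finset.univ.image f)) (Lm (Mf f) cen + f 0) 1 := by
  rw [← Near.translate_iff, hull_fin4]
  exact Near_T3.image (Mf_det_ne hi)

/-- Polytopes with at most four vertices are near simplices. -/
lemma nearBody_small {V : Finset E3} (hV : IsPoly V) (h4 : V.card ≤ 4) : NearBody (hull V) 1 := by
  classical
  have hne : V.Nonempty := by
    rcases V.eq_empty_or_nonempty with rfl | h
    · obtain ⟨z, hz⟩ := hV.2
      have h6 := interior_subset hz
      rw [show hull (∅ : Finset E3) = ∅ by simp [hull]] at h6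
      exact absurd h6 (Set.notMem_empty _)
    · exact h
  obtain ⟨v₀, hv₀⟩ := hne
  have hf : ∃ f : Fin 4 → E3, V = Finset.univ.image f := by
    let g := V.equivFin.symm
    refine ⟨fun i => if h : i.1 < V.card then (g ⟨i.1, h⟩ : E3) else v₀, ?_⟩
    ext x
    simp only [Finset.mem_image, Finset.mem_univ, true_and]
    constructor
    · intro hx
      refine ⟨⟨(V.equivFin ⟨x, hx⟩).1, by have := (V.equivFin ⟨x, hx⟩).2; omega⟩, ?_⟩
      have h5 := (V.equivFin ⟨x, hx⟩).2
      simp only [h5, dite_true]
      have : g (V.equivFin ⟨x, hx⟩) = ⟨x, hx⟩ := by simp [g]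
      exact congrArg Subtype.val this
    · rintro ⟨i, rfl⟩
      by_cases h : i.1 < V.card
      · simp only [h, dite_true]
        exact (g ⟨i.1, h⟩).2
      · simp only [h, dite_false]
        exact hv₀
  obtain ⟨f, rfl⟩ := hf
  exact ⟨_, near_simplex hV.2⟩

end Vale.Agent.Lib.P248
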