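import Vale.Agent.Lib.P248.Eq3

open MeasureTheory Set Function Filter
open scoped ENNReal Pointwise Topology

namespace Vale.Agent.Lib.P248

/-- The gradients adapted to the facet opposite to the vertex `i`. -/
def Gm (i : Fin 4) : Matrix (Fin 3) (Fin 3) ℝ :=
  Matrix.of fun r c => (![gr (i.succAbove 1), gr (i.succAbove 2), gr i] : Fin 3 → E3) r c

lemma det_Gm (i : Fin 4) : |(Gm i).det| = 1 := by
  rw [Matrix.det_fin_three]
  fin_cases i
  · simp [Gm, gr, sa01, sa02, show ((⟨0, by norm_num⟩ : Fin 4)) = 0 from rfl]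
  · simp [Gm, gr, sa11, sa12, show ((⟨1, by norm_num⟩ : Fin 4)) = 1 from rfl]
  · simp [Gm, gr, sa21, sa22, show ((⟨2, by norm_num⟩ : Fin 4)) = 2 from rfl]
  · simp [Gm, gr, sa31, sa32, show ((⟨3, by norm_num⟩ : Fin 4)) = 3 from rfl]

lemma lam_add_dd (k i : Fin 4) (a : Fin 4) (x : E3) (τ : ℝ) :
    lam k (x + τ • (vtx a - vtx i)) = lam k x + τ * (lam k (vtx a) - lam k (vtx i)) := by
  have h1 := lam_sub k (x + τ • (vtx a - vtx i)) x
  rw [add_sub_cancel_left, ip_smul, ip_sub] at h1
  have h2 := lam_sub k (vtx a) 0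
  have h3 := lam_sub k (vtx i) 0
  rw [sub_zero] at h2 h3
  have h4 : ip (gr k) (vtx a) - ip (gr k) (vtx i) = lam k (vtx a) - lam k (vtx i) := by
    rw [← h2, ← h3]
    ring
  rw [h4] at h1
  linarith

lemma lam_eq_ip (i : Fin 4) (x : E3) : lam i x = lam i 0 + ip (gr i) x := by
  have := lam_sub i x 0
  rw [sub_zero] at this
  linarith

lemma lam_combo3 (i : Fin 4) (a b c : E3) {C D E : ℝ} (h : C + D + E = 1) :
    lam i (C • a + D • b + E • c) = C * lam i a + D * lam i b + E * lam i c := by
  rw [lam_eq_ip i (C • a + D • b + E • c), ip_add, ip_add, ip_smul, ip_smul, ip_smul,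
    lam_eq_ip i a, lam_eq_ip i b, lam_eq_ip i c]
  have : C = 1 - D - E := by linarith
  subst this
  ring

/-- The determinant attached to three tops over a facet. -/
def Dt (i : Fin 4) (X : Fin 3 → E3) : ℝ :=
  (lam (i.succAbove 1) (X 1) - lam (i.succAbove 1) (X 0)) *
      (lam (i.succAbove 2) (X 2) - lam (i.succAbove 2) (X 0)) -
    (lam (i.succAbove 1) (X 2) - lam (i.succAbove 1) (X 0)) *
      (lam (i.succAbove 2) (X 1) - lam (i.succAbove 2) (X 0))

/-- The part of a body beyond the facet opposite to the vertex `i`. -/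
def Bi (L : Set E3) (i : Fin 4) : Set E3 := {x | x ∈ L ∧ lam i x ≤ 0 ∧ ∀ k, k ≠ i → 0 ≤ lam k x}

lemma succAbove_ne_self (i : Fin 4) (l : Fin 3) : i.succAbove l ≠ i := Fin.succAbove_ne i l

lemma succAbove_inj (i : Fin 4) {l l' : Fin 3} (h : l ≠ l') : i.succAbove l ≠ i.succAbove l' :=
  fun e => h (Fin.succAbove_right_injective e)

/-- **The volume over a facet under three tops.** -/
theorem facet_gain {L : Set E3} (hc : Convex ℝ L) (hT : T3 ⊆ L) (i : Fin 4) (X : Fin 3 → E3)
    (hX : ∀ l, X l ∈ L) (a : Fin 3 → ℝ) (ha : ∀ l, lam i (X l) = - a l) (ha0 : ∀ l, 0 ≤ a l)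
    (h0 : ∀ l, a l ≤ lam (i.succAbove 0) (X l)) (h1 : ∀ l, 0 ≤ lam (i.succAbove 1) (X l))
    (h2 : ∀ l, 0 ≤ lam (i.succAbove 2) (X l)) :
    ENNReal.ofReal (|Dt i X| * ((a 0 + a 1 + a 2) / 6)) ≤ volume (Bi L i) := by
  set dd : E3 := vtx (i.succAbove 0) - vtx i with hdd
  have n01 : i.succAbove 0 ≠ i.succAbove 1 := succAbove_inj i (by decide)
  have n02 : i.succAbove 0 ≠ i.succAbove 2 := succAbove_inj i (by decide)
  have n0i : i.succAbove 0 ≠ i := succAbove_ne_self i 0
  have n1i : i.succAbove 1 ≠ i := succAbove_ne_self i 1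
  have n2i : i.succAbove 2 ≠ i := succAbove_ne_self i 2
  -- the effect of the vertical direction
  have ld0 : ∀ (x : E3) (τ : ℝ), lam (i.succAbove 0) (x + τ • dd) = lam (i.succAbove 0) x + τ := by
    intro x τ
    rw [hdd, lam_add_dd, lam_vtx, lam_vtx, if_pos rfl, if_neg n0i]
    ring
  have ld1 : ∀ (x : E3) (τ : ℝ), lam (i.succAbove 1) (x + τ • dd) = lam (i.succAbove 1) x := by
    intro x τ
    rw [hdd, lam_add_dd, lam_vtx, lam_vtx, if_neg n01.symm, if_neg n1i]
    ring
  have ld2 : ∀ (x : E3) (τ : ℝ), lam (i.succAbove 2) (x + τ • dd) = lam (i.succAbove 2) x := by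
    intro x τ
    rw [hdd, lam_add_dd, lam_vtx, lam_vtx, if_neg n02.symm, if_neg n2i]
    ring
  have ldi : ∀ (x : E3) (τ : ℝ), lam i (x + τ • dd) = lam i x - τ := by
    intro x τ
    rw [hdd, lam_add_dd, lam_vtx, lam_vtx, if_neg n0i.symm, if_pos rfl]
    ring
  -- the base points
  let Y : Fin 3 → E3 := fun l => X l + (- a l) • dd
  have hY : ∀ l, Y l ∈ T3 := by
    intro l
    rw [mem_T3_iff]
    intro k
    by_cases hk : k = i
    · subst hk
      simp only [Y]
      rw [ldi, ha]
      linarith
    · obtain ⟨m, rfl⟩ := Fin.exists_succAbove_eq hk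
      fin_cases m
      · show 0 ≤ lam (i.succAbove 0) _
        simp only [Y]
        rw [ld0]
        linarith [h0 l]
      · show 0 ≤ lam (i.succAbove 1) _
        simp only [Y]
        rw [ld1]
        exact h1 l
      · show 0 ≤ lam (i.succAbove 2) _
        simp only [Y]
        rw [ld2]
        exact h2 l
  -- the linear map
  let c : Fin 3 → E3 := ![Y 1 - Y 0, Y 2 - Y 0, dd]
  let M : Matrix (Fin 3) (Fin 3) ℝ := Matrix.of fun j k => c k j
  have hLm : ∀ x : E3, Lm M x = x 0 • (Y 1 - Y 0) + x 1 • (Y 2 - Y 0) + x 2 • dd := by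
    intro x
    ext j
    rw [Lm_apply]
    simp only [M, c, Matrix.of_apply, Pi.add_apply, Pi.smul_apply, smul_eq_mul]
    simp
    ring
  have hdet : |M.det| = |Dt i X| := by
    have hGM : Gm i * M = !![lam (i.succAbove 1) (X 1) - lam (i.succAbove 1) (X 0),
        lam (i.succAbove 1) (X 2) - lam (i.succAbove 1) (X 0), 0;
        lam (i.succAbove 2) (X 1) - lam (i.succAbove 2) (X 0),
        lam (i.succAbove 2) (X 2) - lam (i.succAbove 2) (X 0), 0;
        0, 0, -1] := by
      have e : ∀ (g v : E3), g 0 * v 0 + g 1 * v 1 + g 2 * v 2 = ip g v := fun _ _ => rfl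
      ext r s
      simp only [Matrix.mul_apply, Fin.sum_univ_three, Gm, M, Matrix.of_apply, e]
      fin_cases r <;> fin_cases s
      · show ip (gr (i.succAbove 1)) (Y 1 - Y 0) = _
        rw [← lam_sub]
        simp only [Y]
        rw [ld1, ld1]
        rfl
      · show ip (gr (i.succAbove 1)) (Y 2 - Y 0) = _
        rw [← lam_sub]
        simp only [Y]
        rw [ld1, ld1]
        rfl
      · show ip (gr (i.succAbove 1)) dd = _
        rw [hdd, ← lam_sub, lam_vtx, lam_vtx, if_neg n01.symm, if_neg n1i]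
        simp
      · show ip (gr (i.succAbove 2)) (Y 1 - Y 0) = _
        rw [← lam_sub]
        simp only [Y]
        rw [ld2, ld2]
        rfl
      · show ip (gr (i.succAbove 2)) (Y 2 - Y 0) = _
        rw [← lam_sub]
        simp only [Y]
        rw [ld2, ld2]
        rfl
      · show ip (gr (i.succAbove 2)) dd = _
        rw [hdd, ← lam_sub, lam_vtx, lam_vtx, if_neg n02.symm, if_neg n2i]
        simp
      · show ip (gr i) (Y 1 - Y 0) = _
        rw [← lam_sub]
        simp only [Y]
        rw [ldi, ldi, ha, ha]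
        simp
      · show ip (gr i) (Y 2 - Y 0) = _
        rw [← lam_sub]
        simp only [Y]
        rw [ldi, ldi, ha, ha]
        simp
      · show ip (gr i) dd = _
        rw [hdd, ← lam_sub, lam_vtx, lam_vtx, if_neg n0i.symm, if_pos rfl]
        simp
    have h3 := congrArg Matrix.det hGM
    rw [Matrix.det_mul, Matrix.det_fin_three (A := !![_, _, _; _, _, _; _, _, _])] at h3
    have h4 := congrArg abs h3
    rw [abs_mul, det_Gm, one_mul] at h4
    rw [h4, Dt, ← abs_neg]
    congr 1
    simp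
    ring
  -- the image of the prism lies in the region
  have hsub : (fun x => x + Y 0) '' (Lm M '' Prism (a 0) (a 1) (a 2)) ⊆ Bi L i := by
    rintro _ ⟨_, ⟨x, ⟨hx0, hx1, hx2, hx3, hx4⟩, rfl⟩, rfl⟩
    rw [hLm]
    set C : ℝ := 1 - x 0 - x 1 with hC
    have hC0 : 0 ≤ C := by rw [hC]; linarith
    -- the base point
    let B : E3 := C • Y 0 + x 0 • Y 1 + x 1 • Y 2
    have hB : B ∈ T3 := by
      have := T3_convex.sum_mem (t := Finset.univ) (w := ![C, x 0, x 1]) (z := Y)
        (by
          intro j _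
          fin_cases j
          · exact hC0
          · exact hx0
          · exact hx1)
        (by simp [Fin.sum_univ_three, hC]; ring) (fun j _ => hY j)
      simpa [Fin.sum_univ_three, B] using this
    set A : ℝ := a 0 * C + a 1 * x 0 + a 2 * x 1 with hA
    have hx4' : x 2 ≤ A := by
      rw [hA, hC]
      linarith
    have eT : C • X 0 + x 0 • X 1 + x 1 • X 2 = B + A • dd := by
      ext j
      simp only [B, Y, hA, Pi.add_apply, Pi.smul_apply, smul_eq_mul]
      ring
    have hTT : B + A • dd ∈ L := by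
      rw [← eT]
      have := hc.sum_mem (t := Finset.univ) (w := ![C, x 0, x 1]) (z := X)
        (by
          intro j _
          fin_cases j
          · exact hC0
          · exact hx0
          · exact hx1)
        (by simp [Fin.sum_univ_three, hC]; ring) (fun j _ => hX j)
      simpa [Fin.sum_univ_three] using this
    have eP : x 0 • (Y 1 - Y 0) + x 1 • (Y 2 - Y 0) + x 2 • dd + Y 0 = B + x 2 • dd := by
      ext j
      simp only [B, hC, Pi.add_apply, Pi.smul_apply, Pi.sub_apply, smul_eq_mul]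
      ring
    show x 0 • (Y 1 - Y 0) + x 1 • (Y 2 - Y 0) + x 2 • dd + Y 0 ∈ Bi L i
    rw [eP]
    have hBm : ∀ k, 0 ≤ lam k B := mem_T3_iff.1 hB
    refine ⟨?_, ?_, ?_⟩
    · rcases hx3.eq_or_lt with h | h
      · rw [← h, zero_smul, add_zero]
        exact hT hB
      · have hA0 : 0 < A := lt_of_lt_of_le h hx4'
        have e : B + x 2 • dd = (1 - x 2 / A) • B + (x 2 / A) • (B + A • dd) := by
          ext j
          simp only [Pi.add_apply, Pi.smul_apply, smul_eq_mul]
          field_simp
          ring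
        rw [e]
        apply hc (hT hB) hTT
        · have : x 2 / A ≤ 1 := (div_le_one hA0).2 hx4'
          linarith
        · positivity
        · ring
    · rw [ldi]
      have := hBm i
      have e : lam i B = 0 := by
        have eY : ∀ l, lam i (Y l) = 0 := by
          intro l
          simp only [Y]
          rw [ldi, ha]
          ring
        simp only [B]
        rw [lam_combo3 i _ _ _ (by rw [hC]; ring), eY, eY, eY]
        ring
      linarith
    · intro k hk
      obtain ⟨m, rfl⟩ := Fin.exists_succAbove_eq hk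
      fin_cases m
      · show 0 ≤ lam (i.succAbove 0) _
        rw [ld0]
        have := hBm (i.succAbove 0)
        linarith
      · show 0 ≤ lam (i.succAbove 1) _
        rw [ld1]
        exact hBm _
      · show 0 ≤ lam (i.succAbove 2) _
        rw [ld2]
        exact hBm _
  refine le_trans ?_ (measure_mono hsub)
  rw [show (fun x : E3 => x + Y 0) '' (Lm M '' Prism (a 0) (a 1) (a 2)) =
    (fun x : E3 => x + (- Y 0)) ⁻¹' (Lm M '' Prism (a 0) (a 1) (a 2)) by
      rw [image_add_right], measure_preimage_add_right, Measure.addHaar_image_linearMap,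
    vol_Prism (ha0 0) (ha0 1) (ha0 2), LinearMap.det_toLin', hdet,
    ← ENNReal.ofReal_mul (abs_nonneg _)]

end Vale.Agent.Lib.P248
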