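import Vale.Agent.Lib.P248.Eq4

open MeasureTheory Set Function Filter
open scoped ENNReal Pointwise Topology

namespace Vale.Agent.Lib.P248

/-- Hyperplanes are null sets. -/
lemma vol_hyper {a : E3} (ha : a ≠ 0) (b : ℝ) : volume {x : E3 | ip a x = b} = 0 := by
  have hpos := ip_self_pos ha
  let x₀ : E3 := (b / ip a a) • a
  have hx₀ : ip a x₀ = b := by
    simp only [x₀, ip_smul]
    field_simp
  have hS : LinearMap.ker (ipL a) ≠ ⊤ := by
    intro h
    have h1 : a ∈ LinearMap.ker (ipL a) := by rw [h]; trivial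
    have h2 : ip a a = 0 := h1
    linarith
  have e : {x : E3 | ip a x = b} = (fun x => x + (-x₀)) ⁻¹' (LinearMap.ker (ipL a) : Set E3) := by
    ext x
    simp only [mem_ofPred_eq, mem_preimage, SetLike.mem_coe, LinearMap.mem_ker]
    show _ ↔ ip a (x + -x₀) = 0
    rw [ip_add]
    have e1 : ip a (-x₀) = - ip a x₀ := by
      simp [ip]
      ring
    rw [e1, hx₀]
    constructor <;> intro h <;> linarith
  rw [e, measure_preimage_add_right]
  exact Measure.addHaar_submodule _ _ hS

lemma gr_ne (i : Fin 4) : gr i ≠ 0 := by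
  intro h
  fin_cases i
  · have := congrFun h 0
    simp [gr] at this
  · have := congrFun h 0
    simp [gr] at this
  · have := congrFun h 1
    simp [gr] at this
  · have := congrFun h 2
    simp [gr] at this

lemma vol_lam_zero (i : Fin 4) : volume {x : E3 | lam i x = 0} = 0 := by
  have e : {x : E3 | lam i x = 0} = {x : E3 | ip (gr i) x = - lam i 0} := by
    ext x
    simp only [mem_ofPred_eq]
    rw [lam_eq_ip i x]
    constructor <;> intro h <;> linarith
  rw [e]
  exact vol_hyper (gr_ne i) _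

/-- The strict part of the region beyond a facet. -/
def Bs (L : Set E3) (i : Fin 4) : Set E3 := {x | x ∈ L ∧ lam i x < 0 ∧ ∀ k, k ≠ i → 0 ≤ lam k x}

lemma Bs_measurable {L : Set E3} (hL : MeasurableSet L) (i : Fin 4) : MeasurableSet (Bs L i) := by
  have h1 : MeasurableSet {x : E3 | lam i x < 0} :=
    (isOpen_lt (lam_continuous i) continuous_const).measurableSet
  have h2 : MeasurableSet {x : E3 | ∀ k, k ≠ i → 0 ≤ lam k x} := by
    have : IsClosed {x : E3 | ∀ k, k ≠ i → 0 ≤ lam k x} := by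
      simp only [ofPred_forall]
      exact isClosed_iInter fun k => isClosed_iInter fun _ =>
        isClosed_le continuous_const (lam_continuous k)
    exact this.measurableSet
  exact hL.inter (h1.inter h2)

lemma vol_Bi_le (L : Set E3) (i : Fin 4) : volume (Bi L i) ≤ volume (Bs L i) := by
  have hsub : Bi L i ⊆ Bs L i ∪ {x : E3 | lam i x = 0} := by
    rintro x ⟨h1, h2, h3⟩
    rcases h2.eq_or_lt with h | h
    · exact Or.inr h
    · exact Or.inl ⟨h1, h, h3⟩
  calc volume (Bi L i) ≤ volume (Bs L i ∪ {x : E3 | lam i x = 0}) := measure_mono hsub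
    _ ≤ volume (Bs L i) + volume {x : E3 | lam i x = 0} := measure_union_le _ _
    _ = volume (Bs L i) := by rw [vol_lam_zero, add_zero]

/-- The volume of a body is at least the sum of the volume of the simplex and the regions beyond
the facets. -/
lemma vol_sum_le {L : Set E3} (hL : MeasurableSet L) (hT : T3 ⊆ L) :
    volume T3 + ∑ i, volume (Bi L i) ≤ volume L := by
  have hdis : Pairwise (Function.onFun Disjoint (Bs L)) := by
    intro i j hij
    rw [Function.onFun, Set.disjoint_left]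
    rintro x ⟨-, h2, -⟩ ⟨-, -, h3⟩
    have := h3 i hij
    linarith
  have hU : volume (⋃ i, Bs L i) = ∑ i, volume (Bs L i) := by
    rw [measure_iUnion hdis (fun i => Bs_measurable hL i), tsum_fintype]
  have hdis2 : Disjoint T3 (⋃ i, Bs L i) := by
    rw [Set.disjoint_left]
    intro x hx hx2
    obtain ⟨i, -, h2, -⟩ := mem_iUnion.1 hx2
    have := mem_T3_iff.1 hx i
    linarith
  have hm : MeasurableSet (⋃ i, Bs L i) := MeasurableSet.iUnion fun i => Bs_measurable hL i
  calc volume T3 + ∑ i, volume (Bi L i) ≤ volume T3 + ∑ i, volume (Bs L i) := by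
        exact add_le_add le_rfl (Finset.sum_le_sum fun i _ => vol_Bi_le L i)
    _ = volume (T3 ∪ ⋃ i, Bs L i) := by
        rw [measure_union hdis2 hm, hU]
    _ ≤ volume L := by
        apply measure_mono
        apply union_subset hT
        apply iUnion_subset
        rintro i x ⟨h1, -, -⟩
        exact h1

/-- The same inequality for real numbers. -/
lemma vol_sum_le_real {L : Set E3} (hL : IsCompact L) (hT : T3 ⊆ L) :
    1 / 6 + ∑ i, (volume (Bi L i)).toReal ≤ (volume L).toReal := by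
  have h := vol_sum_le hL.isClosed.measurableSet hT
  have hf : volume L ≠ ⊤ := hL.measure_lt_top.ne
  have hfB : ∀ i, volume (Bi L i) ≠ ⊤ := by
    intro i
    apply ne_top_of_le_ne_top hf
    exact measure_mono fun x hx => hx.1
  have hf3 : volume T3 ≠ ⊤ := T3_compact.measure_lt_top.ne
  have h2 := ENNReal.toReal_mono hf h
  rw [ENNReal.toReal_add hf3 (ENNReal.sum_ne_top.2 fun i _ => hfB i),
    ENNReal.toReal_sum (fun i _ => hfB i), volReal_T3] at h2
  exact h2

/-- A normalised body: the volume of the standard simplex is maximal among the simplices inside. -/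
structure NormBody (L : Set E3) (h : ℝ) : Prop where
  cvx : Convex ℝ L
  cpt : IsCompact L
  sub : T3 ⊆ L
  le_one : ∀ x ∈ L, ∀ i, lam i x ≤ 1
  ge_neg : ∀ x ∈ L, ∀ i, - h ≤ lam i x
  h_nonneg : 0 ≤ h

/-- The elementary bound on the other coordinates near a vertex. -/
lemma sum4_le (f : Fin 4 → ℝ) (hs : ∑ i, f i = 1) {h ξ : ℝ} (hh : ∀ j, - h ≤ f j) {a k : Fin 4}
    (hk : k ≠ a) (ha : 1 - ξ ≤ f a) : f k ≤ ξ + 2 * h := by
  rw [Fin.sum_univ_four] at hs
  have h0 := hh 0
  have h1 := hh 1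
  have h2 := hh 2
  have h3 := hh 3
  fin_cases a <;> fin_cases k <;>
    first
    | exact absurd rfl hk
    | (simp only [Fin.zero_eta, Fin.mk_one, Fin.reduceFinMk] at *; linarith)

/-- The heights near the vertices, with witnesses. -/
lemma exists_hgt {L : Set E3} {h : ℝ} (hL : NormBody L h) (ξ : ℝ) (hξ : 0 ≤ ξ) :
    ∃ (H : Fin 4 → Fin 4 → ℝ) (W : Fin 4 → Fin 4 → E3), ∀ a k, k ≠ a →
      W a k ∈ L ∧ 1 - ξ ≤ lam a (W a k) ∧ - lam k (W a k) = H a k ∧ 0 ≤ H a k ∧ H a k ≤ h ∧
        ∀ x ∈ L, 1 - ξ ≤ lam a x → - lam k x ≤ H a k := by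
  have key : ∀ a k : Fin 4, ∃ (H : ℝ) (W : E3), k ≠ a →
      W ∈ L ∧ 1 - ξ ≤ lam a W ∧ - lam k W = H ∧ 0 ≤ H ∧ H ≤ h ∧
        ∀ x ∈ L, 1 - ξ ≤ lam a x → - lam k x ≤ H := by
    intro a k
    let C : Set E3 := L ∩ {x | 1 - ξ ≤ lam a x}
    have hC : IsCompact C := hL.cpt.inter_right (isClosed_le continuous_const (lam_continuous a))
    have hva : vtx a ∈ C := by
      refine ⟨hL.sub (vtx_mem_T3 a), ?_⟩
      show 1 - ξ ≤ lam a (vtx a)
      rw [lam_vtx, if_pos rfl]
      linarith
    obtain ⟨W, hW, hmax⟩ := hC.exists_isMaxOn ⟨_, hva⟩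
      (f := fun x => - lam k x) (lam_continuous k).neg.continuousOn
    refine ⟨- lam k W, W, fun hk => ⟨hW.1, hW.2, rfl, ?_, ?_, ?_⟩⟩
    · have := hmax hva
      simp only [mem_ofPred_eq] at this
      rw [lam_vtx, if_neg hk] at this
      simpa using this
    · linarith [hL.ge_neg W hW.1 k]
    · intro x hx hx2
      exact hmax ⟨hx, hx2⟩
  choose H W hHW using key
  exact ⟨H, W, hHW⟩

/-- The centre of a facet. -/
noncomputable def qq (i : Fin 4) : E3 := (1 / 3 : ℝ) • ∑ l, vtx (i.succAbove l)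

lemma lam_qq_self (i : Fin 4) : lam i (qq i) = 0 := by
  fin_cases i <;> simp [qq, lam, vtx, Fin.sum_univ_three, sa00, sa01, sa02, sa10, sa11, sa12,
    sa20, sa21, sa22, sa30, sa31, sa32] <;> norm_num

lemma lam_qq (i : Fin 4) (l : Fin 3) : lam (i.succAbove l) (qq i) = 1 / 3 := by
  fin_cases i <;> fin_cases l <;> simp [qq, lam, vtx, Fin.sum_univ_three, sa00, sa01, sa02, sa10, sa11, sa12,
    sa20, sa21, sa22, sa30, sa31, sa32] <;> norm_num

lemma qq_mem (i : Fin 4) : qq i ∈ T3 := by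
  rw [mem_T3_iff]
  intro k
  by_cases hk : k = i
  · subst hk
    rw [lam_qq_self]
  · obtain ⟨m, rfl⟩ := Fin.exists_succAbove_eq hk
    rw [lam_qq]
    norm_num

lemma Dt_shift (i : Fin 4) (Z : Fin 3 → E3) {s t : ℝ} (hst : s + t = 1) :
    Dt i (fun l => s • Z l + t • qq i) = s ^ 2 * Dt i Z := by
  simp only [Dt]
  rw [lam_combo _ _ _ hst, lam_combo _ _ _ hst, lam_combo _ _ _ hst, lam_combo _ _ _ hst,
    lam_combo _ _ _ hst, lam_combo _ _ _ hst]
  ring

/-- **Tops over a facet, shifted inside.** -/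
theorem facet_gain2 {L : Set E3} {h : ℝ} (hL : NormBody L h) (i : Fin 4) (Z : Fin 3 → E3)
    (hZ : ∀ l, Z l ∈ L) (b : Fin 3 → ℝ) (hb : ∀ l, lam i (Z l) = - b l) (hb0 : ∀ l, 0 ≤ b l)
    (hbh : ∀ l, b l ≤ h) :
    (1 / (1 + 6 * h)) ^ 3 * |Dt i Z| * ((b 0 + b 1 + b 2) / 6) ≤ (volume (Bi L i)).toReal := by
  have hh := hL.h_nonneg
  set s : ℝ := 1 / (1 + 6 * h) with hs
  have hs0 : 0 < s := by positivity
  set t : ℝ := 1 - s with ht
  have hst : s + t = 1 := by rw [ht]; ring
  have hs1 : s ≤ 1 := by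
    rw [hs, div_le_one (by positivity)]
    linarith
  have ht0 : 0 ≤ t := by rw [ht]; linarith
  have ht3 : t / 3 = 2 * h * s := by
    rw [ht, hs]
    field_simp
    ring
  let X : Fin 3 → E3 := fun l => s • Z l + t • qq i
  have hX : ∀ l, X l ∈ L := fun l => hL.cvx (hZ l) (hL.sub (qq_mem i)) hs0.le ht0 hst
  have lX : ∀ l m, lam (i.succAbove m) (X l) = s * lam (i.succAbove m) (Z l) + t * (1 / 3) := by
    intro l m
    simp only [X]
    rw [lam_combo _ _ _ hst, lam_qq]
  have lXi : ∀ l, lam i (X l) = - (s * b l) := by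
    intro l
    simp only [X]
    rw [lam_combo _ _ _ hst, lam_qq_self, hb]
    ring
  have hpos : ∀ l m, s * h ≤ lam (i.succAbove m) (X l) := by
    intro l m
    rw [lX]
    have := hL.ge_neg _ (hZ l) (i.succAbove m)
    have h2 : s * (- h) ≤ s * lam (i.succAbove m) (Z l) := mul_le_mul_of_nonneg_left this hs0.le
    have h3 : t * (1 / 3) = 2 * h * s := by rw [← ht3]; ring
    rw [h3]
    linarith
  have key := facet_gain hL.cvx hL.sub i X hX (fun l => s * b l) lXi
    (fun l => mul_nonneg hs0.le (hb0 l))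
    (fun l => le_trans (mul_le_mul_of_nonneg_left (hbh l) hs0.le) (hpos l 0))
    (fun l => le_trans (by positivity) (hpos l 1))
    (fun l => le_trans (by positivity) (hpos l 2))
  have hf : volume (Bi L i) ≠ ⊤ := by
    apply ne_top_of_le_ne_top (hL.cpt.measure_lt_top (μ := volume)).ne
    exact measure_mono fun x hx => hx.1
  have h5 := ENNReal.toReal_mono hf key
  rw [ENNReal.toReal_ofReal (by
    have h0 := hb0 0
    have h1 := hb0 1
    have h2 := hb0 2
    positivity)] at h5
  have e : Dt i X = s ^ 2 * Dt i Z := Dt_shift i Z hst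
  rw [e, abs_mul, abs_of_pos (by positivity : 0 < s ^ 2)] at h5
  calc s ^ 3 * |Dt i Z| * ((b 0 + b 1 + b 2) / 6)
      = s ^ 2 * |Dt i Z| * ((s * b 0 + s * b 1 + s * b 2) / 6) := by ring
    _ ≤ _ := h5

/-- **The gain from the largest excursion.** -/
theorem gain_h {L : Set E3} {h : ℝ} (hL : NormBody L h) {i : Fin 4} {x : E3} (hx : x ∈ L)
    (hxi : lam i x = - h) :
    1 / 6 + (1 / (1 + 6 * h)) ^ 3 * (4 / 9) * (h / 6) ≤ (volume L).toReal := by
  have hh := hL.h_nonneg
  let Z : Fin 3 → E3 := fun l => (2 / 3 : ℝ) • vtx (i.succAbove l) + (1 / 3 : ℝ) • x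
  have hs : (2 / 3 : ℝ) + 1 / 3 = 1 := by norm_num
  have hZ : ∀ l, Z l ∈ L := fun l =>
    hL.cvx (hL.sub (vtx_mem_T3 _)) hx (by norm_num) (by norm_num) hs
  have lZ : ∀ k l, lam k (Z l) = (2 / 3) * lam k (vtx (i.succAbove l)) + (1 / 3) * lam k x := by
    intro k l
    simp only [Z]
    rw [lam_combo _ _ _ hs]
  have hb : ∀ l, lam i (Z l) = - (h / 3) := by
    intro l
    rw [lZ, lam_vtx, if_neg (succAbove_ne_self i l).symm, hxi]
    ring
  have hD : Dt i Z = 4 / 9 := by
    simp only [Dt]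
    rw [lZ, lZ, lZ, lZ, lZ, lZ]
    have n10 : i.succAbove 1 ≠ i.succAbove 0 := succAbove_inj i (by decide)
    have n20 : i.succAbove 2 ≠ i.succAbove 0 := succAbove_inj i (by decide)
    have n12 : i.succAbove 1 ≠ i.succAbove 2 := succAbove_inj i (by decide)
    have n21 : i.succAbove 2 ≠ i.succAbove 1 := succAbove_inj i (by decide)
    simp only [lam_vtx, if_true, n10, n20, n12, n21, if_false]
    norm_num
  have key := facet_gain2 hL i Z hZ (fun _ => h / 3) hb (fun _ => by positivity)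
    (fun _ => by linarith)
  rw [hD] at key
  have hsum := vol_sum_le_real hL.cpt hL.sub
  have hn : ∀ k, 0 ≤ (volume (Bi L k)).toReal := fun k => ENNReal.toReal_nonneg
  have hle : (volume (Bi L i)).toReal ≤ ∑ k, (volume (Bi L k)).toReal :=
    Finset.single_le_sum (fun k _ => hn k) (Finset.mem_univ i)
  have e : (1 / (1 + 6 * h)) ^ 3 * |(4 / 9 : ℝ)| * ((h / 3 + h / 3 + h / 3) / 6) =
      (1 / (1 + 6 * h)) ^ 3 * (4 / 9) * (h / 6) := by
    rw [abs_of_pos (by norm_num)]
    ring
  rw [e] at key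
  linarith

/-- The sum of the heights. -/
noncomputable def Sg (H : Fin 4 → Fin 4 → ℝ) : ℝ := ∑ i, ∑ l, H (i.succAbove l) i

/-- **The gain from the heights.** -/
theorem gain_S {L : Set E3} {h : ℝ} (hL : NormBody L h) (hsmall : h ≤ 1 / 1000000)
    {H : Fin 4 → Fin 4 → ℝ} {W : Fin 4 → Fin 4 → E3}
    (hHW : ∀ a k, k ≠ a →
      W a k ∈ L ∧ 1 - (1 / 100 : ℝ) ≤ lam a (W a k) ∧ - lam k (W a k) = H a k ∧ 0 ≤ H a k ∧ H a k ≤ h ∧
        ∀ x ∈ L, 1 - (1 / 100 : ℝ) ≤ lam a x → - lam k x ≤ H a k) :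
    1 / 6 + (9 / 10) * (Sg H / 6) ≤ (volume L).toReal := by
  have hh := hL.h_nonneg
  have key : ∀ i, (9 / 10) * ((∑ l, H (i.succAbove l) i) / 6) ≤ (volume (Bi L i)).toReal := by
    intro i
    let Z : Fin 3 → E3 := fun l => W (i.succAbove l) i
    have hZ := fun l => hHW (i.succAbove l) i (succAbove_ne_self i l).symm
    have hg := facet_gain2 hL i Z (fun l => (hZ l).1) (fun l => H (i.succAbove l) i)
      (fun l => by simp only [Z]; linarith [(hZ l).2.2.1]) (fun l => (hZ l).2.2.2.1)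
      (fun l => (hZ l).2.2.2.2.1)
    have hf : ∀ l m, l ≠ m → lam (i.succAbove m) (Z l) ≤ 1 / 100 + 2 * h := by
      intro l m hlm
      exact sum4_le (fun k => lam k (Z l)) (lam_sum _) (fun j => hL.ge_neg _ (hZ l).1 j)
        (succAbove_inj i hlm.symm) (hZ l).2.1
    have hd : ∀ l, 1 - 1 / 100 ≤ lam (i.succAbove l) (Z l) := fun l => (hZ l).2.1
    have hg1 : ∀ l m, - h ≤ lam (i.succAbove m) (Z l) := fun l m => hL.ge_neg _ (hZ l).1 _
    have hDt : (94 / 100 : ℝ) ≤ Dt i Z := by
      simp only [Dt]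
      have a1 := hd 1
      have a2 := hd 2
      have b1 := hf 0 1 (by decide)
      have b2 := hf 0 2 (by decide)
      have b3 := hf 2 1 (by decide)
      have b4 := hf 1 2 (by decide)
      have c1 := hg1 0 1
      have c2 := hg1 0 2
      have c3 := hg1 2 1
      have c4 := hg1 1 2
      set α := lam (i.succAbove 1) (Z 1) - lam (i.succAbove 1) (Z 0) with hα
      set δ := lam (i.succAbove 2) (Z 2) - lam (i.succAbove 2) (Z 0) with hδ
      set β := lam (i.succAbove 1) (Z 2) - lam (i.succAbove 1) (Z 0) with hβ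
      set γ := lam (i.succAbove 2) (Z 1) - lam (i.succAbove 2) (Z 0) with hγ
      have h1 : (97 / 100 : ℝ) ≤ α := by rw [hα]; linarith
      have h2 : (97 / 100 : ℝ) ≤ δ := by rw [hδ]; linarith
      have h3 : |β| ≤ 1 / 50 := by rw [hβ, abs_le]; constructor <;> linarith
      have h4 : |γ| ≤ 1 / 50 := by rw [hγ, abs_le]; constructor <;> linarith
      have h5 : β * γ ≤ 1 / 2500 := by
        have := abs_le.1 (show |β * γ| ≤ 1 / 2500 by
          rw [abs_mul]
          calc |β| * |γ| ≤ (1 / 50) * (1 / 50) :=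
                mul_le_mul h3 h4 (abs_nonneg _) (by norm_num)
            _ = 1 / 2500 := by norm_num)
        exact this.2
      have h6 : (97 / 100 : ℝ) * (97 / 100) ≤ α * δ :=
        mul_le_mul h1 h2 (by norm_num) (by linarith)
      norm_num at h6 ⊢
      linarith
    have hs : (99 / 100 : ℝ) ≤ (1 / (1 + 6 * h)) ^ 3 := by
      have h1 : (999 / 1000 : ℝ) ≤ 1 / (1 + 6 * h) := by
        rw [le_div_iff₀ (by positivity)]
        nlinarith
      calc (99 / 100 : ℝ) ≤ (999 / 1000) ^ 3 := by norm_num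
        _ ≤ _ := pow_le_pow_left₀ (by norm_num) h1 3
    have hb : 0 ≤ H (i.succAbove 0) i + H (i.succAbove 1) i + H (i.succAbove 2) i := by
      have := (hZ 0).2.2.2.1
      have := (hZ 1).2.2.2.1
      have := (hZ 2).2.2.2.1
      positivity
    have hD2 : (9 / 10 : ℝ) ≤ (1 / (1 + 6 * h)) ^ 3 * |Dt i Z| := by
      rw [abs_of_pos (by linarith)]
      calc (9 / 10 : ℝ) ≤ (99 / 100) * (94 / 100) := by norm_num
        _ ≤ _ := mul_le_mul hs hDt (by norm_num) (by positivity)
    rw [Fin.sum_univ_three]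
    refine le_trans ?_ hg
    exact mul_le_mul_of_nonneg_right hD2 (by positivity)
  have hsum := vol_sum_le_real hL.cpt hL.sub
  have hS : (9 / 10) * (Sg H / 6) ≤ ∑ i, (volume (Bi L i)).toReal := by
    have : (9 / 10) * (Sg H / 6) = ∑ i, (9 / 10) * ((∑ l, H (i.succAbove l) i) / 6) := by
      simp only [Sg]
      rw [← Finset.mul_sum, ← Finset.sum_div]
    rw [this]
    exact Finset.sum_le_sum fun i _ => key i
  linarith

end Vale.Agent.Lib.P248
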