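import Vale.Agent.Lib.P248.Eq5

open MeasureTheory Set Function Filter
open scoped ENNReal Pointwise Topology

namespace Vale.Agent.Lib.P248

/-- A piece of the retained set. -/
def Sl (f : Fin 3 → ℝ) (F : ℝ) (l : Fin 3) : Set E3 :=
  {ρ | 0 ≤ ρ l ∧ (∀ i, ρ l ≤ ρ i) ∧ ∑ i, f i * (ρ i - ρ l) + F * ρ l ≤ 1}

/-- The matrices of the pieces. -/
def Nl (f : Fin 3 → ℝ) (F : ℝ) : Fin 3 → Matrix (Fin 3) (Fin 3) ℝ :=
  ![!![F, 0, 0; -f 1, f 1, 0; -f 2, 0, f 2],
    !![f 0, -f 0, 0; 0, F, 0; 0, -f 2, f 2],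
    !![f 0, 0, -f 0; 0, f 1, -f 1; 0, 0, F]]

lemma mem_T3_three (x : E3) : x ∈ T3 ↔ 0 ≤ x 0 ∧ 0 ≤ x 1 ∧ 0 ≤ x 2 ∧ x 0 + x 1 + x 2 ≤ 1 := by
  simp only [T3, mem_ofPred_eq, Fin.forall_fin_succ]
  simp
  tauto

lemma forall_fin3 {P : Fin 3 → Prop} : (∀ i, P i) ↔ P 0 ∧ P 1 ∧ P 2 := by
  constructor
  · intro h
    exact ⟨h 0, h 1, h 2⟩
  · rintro ⟨h0, h1, h2⟩ i
    fin_cases i
    · exact h0
    · exact h1
    · exact h2

lemma Sl_eq {f : Fin 3 → ℝ} {F : ℝ} (hf : ∀ i, 0 < f i) (hF : 0 < F) (l : Fin 3) :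
    Sl f F l = (Lm (Nl f F l)) ⁻¹' T3 := by
  have f0 := hf 0
  have f1 := hf 1
  have f2 := hf 2
  ext ρ
  rw [mem_preimage, mem_T3_three]
  simp only [Sl, mem_ofPred_eq, Fin.sum_univ_three, Lm_apply, forall_fin3]
  fin_cases l
  · have e : ((fun i : Fin 3 => i) ⟨0, by norm_num⟩) = 0 := rfl
    simp only [e, Nl]
    simp only [Matrix.cons_val]
    simp
    constructor
    · rintro ⟨h1, ⟨h2, h3⟩, h4⟩
      exact ⟨by positivity, mul_le_mul_of_nonneg_left h2 f1.le, mul_le_mul_of_nonneg_left h3 f2.le,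
        by linarith⟩
    · rintro ⟨h1, h2, h3, h4⟩
      exact ⟨nonneg_of_mul_nonneg_right h1 hF, ⟨le_of_mul_le_mul_left h2 f1,
        le_of_mul_le_mul_left h3 f2⟩, by linarith⟩
  · have e : ((fun i : Fin 3 => i) ⟨1, by norm_num⟩) = 1 := rfl
    simp only [e, Nl]
    simp only [Matrix.cons_val]
    simp
    constructor
    · rintro ⟨h1, ⟨h2, h3⟩, h4⟩
      exact ⟨mul_le_mul_of_nonneg_left h2 f0.le, by positivity, mul_le_mul_of_nonneg_left h3 f2.le,
        by linarith⟩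
    · rintro ⟨h2, h1, h3, h4⟩
      exact ⟨nonneg_of_mul_nonneg_right h1 hF, ⟨le_of_mul_le_mul_left h2 f0,
        le_of_mul_le_mul_left h3 f2⟩, by linarith⟩
  · have e : ((fun i : Fin 3 => i) ⟨2, by norm_num⟩) = 2 := rfl
    simp only [e, Nl]
    simp only [Matrix.cons_val]
    simp
    constructor
    · rintro ⟨h1, ⟨h2, h3⟩, h4⟩
      exact ⟨mul_le_mul_of_nonneg_left h2 f0.le, mul_le_mul_of_nonneg_left h3 f1.le, by positivity,
        by linarith⟩
    · rintro ⟨h2, h3, h1, h4⟩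
      exact ⟨nonneg_of_mul_nonneg_right h1 hF, ⟨le_of_mul_le_mul_left h2 f0,
        le_of_mul_le_mul_left h3 f1⟩, by linarith⟩

/-- The determinants of the pieces. -/
lemma det_Nl0 (f : Fin 3 → ℝ) (F : ℝ) : (Nl f F 0).det = F * f 1 * f 2 := by
  rw [Matrix.det_fin_three]
  simp [Nl]

lemma det_Nl1 (f : Fin 3 → ℝ) (F : ℝ) : (Nl f F 1).det = f 0 * F * f 2 := by
  rw [Matrix.det_fin_three]
  simp [Nl]

lemma det_Nl2 (f : Fin 3 → ℝ) (F : ℝ) : (Nl f F 2).det = f 0 * f 1 * F := by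
  rw [Matrix.det_fin_three]
  simp [Nl]

lemma vol_eq_coord {l l' : Fin 3} (h : l ≠ l') : volume {ρ : E3 | ρ l = ρ l'} = 0 := by
  let a : E3 := fun i => (if i = l then 1 else 0) - (if i = l' then 1 else 0)
  have ha : a ≠ 0 := by
    intro h0
    have := congrFun h0 l
    simp [a, h] at this
  have e : {ρ : E3 | ρ l = ρ l'} = {ρ : E3 | ip a ρ = 0} := by
    ext ρ
    simp only [mem_ofPred_eq, ip, a]
    fin_cases l <;> fin_cases l' <;> first | exact absurd rfl h | (simp; constructor <;> intro h <;> linarith)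
  rw [e]
  exact vol_hyper ha 0

/-- The retained set in the chart. -/
def Zc (f : Fin 3 → ℝ) (F : ℝ) : Set E3 := ⋃ l, Sl f F l

/-- The volume of the retained set in the chart. -/
lemma vol_Zc {f : Fin 3 → ℝ} {F : ℝ} (hf : ∀ i, 0 < f i) (hF : 0 < F) :
    volume (Zc f F) = ENNReal.ofReal ((1 / 6) * (1 / (F * f 1 * f 2) + 1 / (f 0 * F * f 2) + 1 / (f 0 * f 1 * F))) := by
  have f0 := hf 0
  have f1 := hf 1
  have f2 := hf 2
  have hd : Pairwise (Function.onFun (AEDisjoint volume) (Sl f F)) := by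
    intro l l' hll
    show volume (Sl f F l ∩ Sl f F l') = 0
    apply measure_mono_null _ (vol_eq_coord hll)
    rintro ρ ⟨⟨-, h1, -⟩, ⟨-, h2, -⟩⟩
    exact le_antisymm (h1 l') (h2 l)
  have hm : ∀ l, MeasurableSet (Sl f F l) := by
    intro l
    rw [Sl_eq hf hF]
    exact T3_compact.isClosed.measurableSet.preimage (LinearMap.continuous_of_finiteDimensional _).measurable
  have hdet0 : (Nl f F 0).det ≠ 0 := by rw [det_Nl0]; positivity
  have hdet1 : (Nl f F 1).det ≠ 0 := by rw [det_Nl1]; positivity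
  have hdet2 : (Nl f F 2).det ≠ 0 := by rw [det_Nl2]; positivity
  rw [Zc, measure_iUnion₀ hd (fun l => (hm l).nullMeasurableSet), tsum_fintype, Fin.sum_univ_three,
    Sl_eq hf hF, Sl_eq hf hF, Sl_eq hf hF, vol_preimage_T3 hdet0, vol_preimage_T3 hdet1,
    vol_preimage_T3 hdet2, det_Nl0, det_Nl1, det_Nl2, abs_of_pos (by positivity),
    abs_of_pos (by positivity), abs_of_pos (by positivity),
    ← ENNReal.ofReal_add (by positivity) (by positivity),
    ← ENNReal.ofReal_add (by positivity) (by positivity)]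
  congr 1
  field_simp

/-- The data of the retained set at the vertex `a`. -/
noncomputable def fa (w : E3) (a : Fin 4) (H : Fin 3 → ℝ) (l : Fin 3) : ℝ :=
  lam (a.succAbove l) w + (lam a w / (99 / 100)) * H l

/-- The sum of the coordinates other than `a`. -/
noncomputable def Fa (w : E3) (a : Fin 4) : ℝ := ∑ l, lam (a.succAbove l) w

/-- **The points of the retained set are not cut off.** -/
lemma retained {w y : E3} {a : Fin 4} {H : Fin 3 → ℝ} (hw : 0 < lam a w) (hH : ∀ l, 0 ≤ H l) {l : Fin 3}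
    (hy : Th w a y ∈ Sl (fa w a H) (Fa w a) l) :
    (∀ k, 0 ≤ sk w k y) ∧ ∀ x : E3, 99 / 100 ≤ lam a x → lam a x ≤ 1 →
      (∀ l', - H l' ≤ lam (a.succAbove l') x) → 0 ≤ ∑ k, lam k x * sk w k y := by
  obtain ⟨h0, hmin, hsum⟩ := hy
  set ρ := Th w a y with hρ
  set γ := ρ l with hγ
  have hd : ∀ i, 0 ≤ ρ i - γ := fun i => sub_nonneg.2 (hmin i)
  have hch := sk_chart w y a
  rw [← hρ] at hch
  have hS0 : 0 ≤ ∑ i, H i * (ρ i - γ) := Finset.sum_nonneg fun i _ => mul_nonneg (hH i) (hd i)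
  have e1 : ∑ i, fa w a H i * (ρ i - γ) + Fa w a * γ =
      ∑ i, lam (a.succAbove i) w * ρ i + (lam a w / (99 / 100)) * ∑ i, H i * (ρ i - γ) := by
    simp only [fa, Fa, Fin.sum_univ_three]
    ring
  rw [e1] at hsum
  have h1 : (lam a w / (99 / 100)) * ∑ i, H i * (ρ i - γ) ≤ lam a w * sk w a y := by
    rw [hch]
    linarith
  have h2 : ∑ i, H i * (ρ i - γ) ≤ (99 / 100) * sk w a y := by
    have : lam a w * ∑ i, H i * (ρ i - γ) ≤ lam a w * ((99 / 100) * sk w a y) := by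
      have e : lam a w * ∑ i, H i * (ρ i - γ) = (99 / 100) * ((lam a w / (99 / 100)) * ∑ i, H i * (ρ i - γ)) := by
        field_simp
      rw [e]
      nlinarith
    exact le_of_mul_le_mul_left this hw
  have hsa : 0 ≤ sk w a y := by linarith
  refine ⟨?_, ?_⟩
  · intro k
    by_cases hk : k = a
    · rw [hk]
      exact hsa
    · obtain ⟨m, rfl⟩ := Fin.exists_succAbove_eq hk
      have := hd m
      have e : sk w (a.succAbove m) y = ρ m := rfl
      rw [e]
      linarith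
  · intro x hx1 hx2 hx3
    rw [Fin.sum_univ_succAbove _ a]
    have e : ∑ i, lam (a.succAbove i) x * sk w (a.succAbove i) y =
        ∑ i, lam (a.succAbove i) x * (ρ i - γ) + γ * (1 - lam a x) := by
      have hs := lam_sum x
      rw [Fin.sum_univ_succAbove _ a] at hs
      have e2 : 1 - lam a x = ∑ i, lam (a.succAbove i) x := by linarith
      rw [e2, Finset.mul_sum, ← Finset.sum_add_distrib]
      apply Finset.sum_congr rfl
      intro i _
      have e3 : sk w (a.succAbove i) y = ρ i := rfl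
      rw [e3]
      ring
    rw [e]
    have h3 : - ∑ i, H i * (ρ i - γ) ≤ ∑ i, lam (a.succAbove i) x * (ρ i - γ) := by
      rw [← Finset.sum_neg_distrib]
      apply Finset.sum_le_sum
      intro i _
      have := mul_le_mul_of_nonneg_right (hx3 i) (hd i)
      linarith
    have h4 : 0 ≤ γ * (1 - lam a x) := mul_nonneg h0 (by linarith)
    have h5 : (99 / 100) * sk w a y ≤ lam a x * sk w a y := mul_le_mul_of_nonneg_right hx1 hsa
    linarith

/-- The retained set at the vertex `a`. -/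
def Za (w : E3) (a : Fin 4) (H : Fin 3 → ℝ) : Set E3 := Th w a ⁻¹' Zc (fa w a H) (Fa w a)

/-- An elementary inequality. -/
lemma rr_le {t₁ t₂ : ℝ} (h₁ : 0 ≤ t₁) (h₂ : 0 ≤ t₂) : 1 - t₁ - t₂ ≤ 1 / ((1 + t₁) * (1 + t₂)) := by
  rw [le_div_iff₀ (by positivity)]
  nlinarith [mul_nonneg h₁ h₂, mul_nonneg (mul_nonneg h₁ h₂) h₁, mul_nonneg (mul_nonneg h₁ h₂) h₂,
    sq_nonneg t₁, sq_nonneg t₂, sq_nonneg (t₁ + t₂)]

lemma coef_le {μ m q : ℝ} (h1 : 49 / 200 ≤ m) (h2 : 0 ≤ q) (h3 : q ≤ 51 / 100) (h4 : μ ≤ 51 / 200)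
    (h5 : 0 ≤ μ) : μ * q ≤ (18 / 25) * (99 / 100) * m * (m + q) := by
  have a1 : μ * q ≤ (51 / 200) * q := mul_le_mul_of_nonneg_right h4 h2
  have a2 : (49 / 200) * ((49 / 200) + q) ≤ m * (m + q) :=
    mul_le_mul h1 (by linarith) (by positivity) (by linarith)
  nlinarith

/-- **The real inequality for the retained volume.** -/
lemma retention_real {μ m₀ m₁ m₂ H₀ H₁ H₂ : ℝ} (hμ0 : 0 < μ) (hμ : μ ≤ 51 / 200)
    (h₀ : 49 / 200 ≤ m₀) (h₁ : 49 / 200 ≤ m₁) (h₂ : 49 / 200 ≤ m₂)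
    (h₀' : m₀ ≤ 51 / 200) (h₁' : m₁ ≤ 51 / 200) (h₂' : m₂ ≤ 51 / 200)
    (H0 : 0 ≤ H₀) (H1 : 0 ≤ H₁) (H2 : 0 ≤ H₂) :
    ((1 / 6) / (μ * (m₀ * m₁ * m₂))) * (1 - (18 / 25) * (H₀ + H₁ + H₂)) ≤
      μ⁻¹ * ((1 / 6) * (1 / ((m₀ + m₁ + m₂) * (m₁ + (μ / (99 / 100)) * H₁) * (m₂ + (μ / (99 / 100)) * H₂)) +
        1 / ((m₀ + (μ / (99 / 100)) * H₀) * (m₀ + m₁ + m₂) * (m₂ + (μ / (99 / 100)) * H₂)) +
        1 / ((m₀ + (μ / (99 / 100)) * H₀) * (m₁ + (μ / (99 / 100)) * H₁) * (m₀ + m₁ + m₂)))) := by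
  have hm0 : 0 < m₀ := by linarith
  have hm1 : 0 < m₁ := by linarith
  have hm2 : 0 < m₂ := by linarith
  set κ := μ / (99 / 100) with hκ
  have hκ0 : 0 < κ := by positivity
  set F := m₀ + m₁ + m₂ with hF
  have hF0 : 0 < F := by positivity
  set t₀ := κ * H₀ / m₀ with ht₀
  set t₁ := κ * H₁ / m₁ with ht₁
  set t₂ := κ * H₂ / m₂ with ht₂
  have t0 : 0 ≤ t₀ := by positivity
  have t1 : 0 ≤ t₁ := by positivity
  have t2 : 0 ≤ t₂ := by positivity
  have e₀ : m₀ + κ * H₀ = m₀ * (1 + t₀) := by rw [ht₀]; field_simp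
  have e₁ : m₁ + κ * H₁ = m₁ * (1 + t₁) := by rw [ht₁]; field_simp
  have e₂ : m₂ + κ * H₂ = m₂ * (1 + t₂) := by rw [ht₂]; field_simp
  rw [e₀, e₁, e₂]
  set c := (1 / 6) / (μ * (m₀ * m₁ * m₂)) with hc
  have hc0 : 0 < c := by positivity
  have eR : μ⁻¹ * ((1 / 6) * (1 / (F * (m₁ * (1 + t₁)) * (m₂ * (1 + t₂))) +
        1 / ((m₀ * (1 + t₀)) * F * (m₂ * (1 + t₂))) +
        1 / ((m₀ * (1 + t₀)) * (m₁ * (1 + t₁)) * F))) =
      c * ((m₀ * (1 / ((1 + t₁) * (1 + t₂))) + m₁ * (1 / ((1 + t₀) * (1 + t₂))) +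
        m₂ * (1 / ((1 + t₀) * (1 + t₁)))) / F) := by
    rw [hc]
    field_simp
  rw [eR]
  apply mul_le_mul_of_nonneg_left _ hc0.le
  rw [le_div_iff₀ hF0]
  have r1 := mul_le_mul_of_nonneg_left (rr_le t1 t2) hm0.le
  have r2 := mul_le_mul_of_nonneg_left (rr_le t0 t2) hm1.le
  have r3 := mul_le_mul_of_nonneg_left (rr_le t0 t1) hm2.le
  -- the coefficients
  have c0 : t₀ * (m₁ + m₂) ≤ (18 / 25) * H₀ * F := by
    have := coef_le (μ := μ) (m := m₀) (q := m₁ + m₂) h₀ (by positivity) (by linarith) hμ hμ0.le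
    rw [ht₀, hκ, div_mul_eq_mul_div, div_mul_eq_mul_div, div_le_iff₀ hm0, hF]
    have e : μ * H₀ / (99 / 100) * (m₁ + m₂) = H₀ * ((μ * (m₁ + m₂)) / (99 / 100)) := by ring
    rw [e]
    have h3 : (μ * (m₁ + m₂)) / (99 / 100) ≤ (18 / 25) * m₀ * (m₀ + (m₁ + m₂)) := by
      rw [div_le_iff₀ (by norm_num)]
      linarith
    have h4 := mul_le_mul_of_nonneg_left h3 H0
    calc _ ≤ _ := h4
      _ = _ := by ring
  have c1 : t₁ * (m₀ + m₂) ≤ (18 / 25) * H₁ * F := by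
    have := coef_le (μ := μ) (m := m₁) (q := m₀ + m₂) h₁ (by positivity) (by linarith) hμ hμ0.le
    rw [ht₁, hκ, div_mul_eq_mul_div, div_mul_eq_mul_div, div_le_iff₀ hm1, hF]
    have e : μ * H₁ / (99 / 100) * (m₀ + m₂) = H₁ * ((μ * (m₀ + m₂)) / (99 / 100)) := by ring
    rw [e]
    have h3 : (μ * (m₀ + m₂)) / (99 / 100) ≤ (18 / 25) * m₁ * (m₁ + (m₀ + m₂)) := by
      rw [div_le_iff₀ (by norm_num)]
      linarith
    have h4 := mul_le_mul_of_nonneg_left h3 H1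
    calc _ ≤ _ := h4
      _ = _ := by ring
  have c2 : t₂ * (m₀ + m₁) ≤ (18 / 25) * H₂ * F := by
    have := coef_le (μ := μ) (m := m₂) (q := m₀ + m₁) h₂ (by positivity) (by linarith) hμ hμ0.le
    rw [ht₂, hκ, div_mul_eq_mul_div, div_mul_eq_mul_div, div_le_iff₀ hm2, hF]
    have e : μ * H₂ / (99 / 100) * (m₀ + m₁) = H₂ * ((μ * (m₀ + m₁)) / (99 / 100)) := by ring
    rw [e]
    have h3 : (μ * (m₀ + m₁)) / (99 / 100) ≤ (18 / 25) * m₂ * (m₂ + (m₀ + m₁)) := by
      rw [div_le_iff₀ (by norm_num)]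
      linarith
    have h4 := mul_le_mul_of_nonneg_left h3 H2
    calc _ ≤ _ := h4
      _ = _ := by ring
  have : (1 - (18 / 25) * (H₀ + H₁ + H₂)) * F = F - ((18 / 25) * H₀ * F + (18 / 25) * H₁ * F + (18 / 25) * H₂ * F) := by
    ring
  rw [this]
  have e2 : F = m₀ + m₁ + m₂ := hF
  nlinarith

/-- Bounded coordinates on the polar of the simplex. -/
lemma sk_le_eight {w y : E3} (hw : ∀ k, 1 / 8 ≤ lam k w) (hy : ∀ k, 0 ≤ sk w k y) (k : Fin 4) :
    sk w k y ≤ 8 := by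
  have h := sk_sum w y
  have h1 : lam k w * sk w k y ≤ ∑ k, lam k w * sk w k y :=
    Finset.single_le_sum (f := fun k => lam k w * sk w k y)
      (fun j _ => mul_nonneg (by linarith [hw j]) (hy j)) (Finset.mem_univ k)
  rw [h] at h1
  have h2 := mul_le_mul_of_nonneg_right (hw k) (hy k)
  linarith

/-- A sum of four terms bounded below. -/
lemma sum4_two (T : Fin 4 → ℝ) {c : ℝ} (hT : ∀ k, - c ≤ T k) {a b : Fin 4} (hab : a ≠ b) :
    T a + T b - 2 * c ≤ ∑ k, T k := by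
  rw [Fin.sum_univ_four]
  have h0 := hT 0
  have h1 := hT 1
  have h2 := hT 2
  have h3 := hT 3
  fin_cases a <;> fin_cases b <;>
    first
    | exact absurd rfl hab
    | (simp only [Fin.zero_eta, Fin.mk_one, Fin.reduceFinMk]; linarith)

/-- **Points far from the vertices only cut off a small part.** -/
lemma far_case {x : E3} {s : Fin 4 → ℝ} {h : ℝ} (hsum : ∑ k, lam k x * s k < 0) (hs0 : ∀ k, 0 ≤ s k)
    (hs8 : ∀ k, s k ≤ 8) (hh : 0 ≤ h) (hge : ∀ k, - h ≤ lam k x) (hlt : ∀ a, lam a x < 1 - 1 / 100) :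
    ∃ a l, s a < 4800 * h ∧ s (a.succAbove l) < 4800 * h := by
  obtain ⟨a, -, hmax⟩ := Finset.exists_max_image Finset.univ (fun k => lam k x) ⟨0, Finset.mem_univ 0⟩
  have hs := lam_sum x
  have ha : 1 / 4 ≤ lam a x := by
    have : ∑ k, lam k x ≤ ∑ _k : Fin 4, lam a x := Finset.sum_le_sum fun k hk => hmax k hk
    rw [hs] at this
    simp at this
    linarith
  rw [Fin.sum_univ_succAbove _ a] at hs
  have hb : ∃ l, 1 / 300 ≤ lam (a.succAbove l) x := by
    by_contra hcon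
    push Not at hcon
    have h3 : ∑ l, lam (a.succAbove l) x ≤ ∑ _l : Fin 3, (1 / 300 : ℝ) :=
      Finset.sum_le_sum fun l _ => (hcon l).le
    simp at h3
    linarith [hlt a]
  obtain ⟨l, hl⟩ := hb
  refine ⟨a, l, ?_⟩
  have hT : ∀ k, - (8 * h) ≤ lam k x * s k := by
    intro k
    have h1 := hge k
    have h2 := hs0 k
    have h3 := hs8 k
    nlinarith
  have hab : a ≠ a.succAbove l := (Fin.succAbove_ne a l).symm
  have key := sum4_two (fun k => lam k x * s k) hT hab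
  have h1 : (1 / 4) * s a ≤ lam a x * s a := mul_le_mul_of_nonneg_right ha (hs0 a)
  have h2 : (1 / 300) * s (a.succAbove l) ≤ lam (a.succAbove l) x * s (a.succAbove l) :=
    mul_le_mul_of_nonneg_right hl (hs0 _)
  have h3 := hs0 a
  have h4 := hs0 (a.succAbove l)
  constructor <;> linarith

/-- The box in the chart. -/
def Bx (l₃ : Fin 3) (c : ℝ) : Set E3 := Icc 0 (fun l => if l = l₃ then 8 else c)

lemma vol_Bx (l₃ : Fin 3) {c : ℝ} (hc : 0 ≤ c) : volume (Bx l₃ c) = ENNReal.ofReal (8 * c ^ 2) := by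
  rw [Bx, Real.volume_Icc_pi]
  have : ∀ l : Fin 3, ENNReal.ofReal ((if l = l₃ then (8:ℝ) else c) - (0 : E3) l) =
      ENNReal.ofReal (if l = l₃ then (8:ℝ) else c) := by
    intro l
    simp
  simp_rw [this]
  rw [← ENNReal.ofReal_prod_of_nonneg (by
    intro l _
    split_ifs
    · norm_num
    · exact hc)]
  congr 1
  rw [Fin.prod_univ_three]
  fin_cases l₃ <;> simp <;> ring

/-- A third vertex. -/
lemma exists_third : ∀ a : Fin 4, ∀ b : Fin 3, ∃ (d : Fin 4) (l₃ : Fin 3),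
    d ≠ a ∧ d ≠ a.succAbove b ∧ ∀ l, l ≠ l₃ → d.succAbove l = a ∨ d.succAbove l = a.succAbove b := by
  decide

/-- The part cut off by points far from the vertices. -/
def Ea (w : E3) (c : ℝ) (a : Fin 4) (l : Fin 3) : Set E3 :=
  {y | (∀ k, 0 ≤ sk w k y) ∧ sk w a y < c ∧ sk w (a.succAbove l) y < c}

lemma vol_Ea {w : E3} (hw : ∀ k, 1 / 8 ≤ lam k w) (hw1 : ∀ k, lam k w ≤ 51 / 200) {c : ℝ} (hc : 0 ≤ c)
    (a : Fin 4) (l : Fin 3) :
    (volume (Ea w c a l)).toReal ≤ ((1 / 6) / pm w) * ((4 / 5) * c ^ 2) := by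
  have hw0 : ∀ k, 0 < lam k w := fun k => by linarith [hw k]
  obtain ⟨d, l₃, -, -, hd⟩ := exists_third a l
  have hsub : Ea w c a l ⊆ Th w d ⁻¹' Bx l₃ c := by
    rintro y ⟨h1, h2, h3⟩
    show Th w d y ∈ Bx l₃ c
    constructor
    · intro i
      exact h1 _
    · intro i
      by_cases hi : i = l₃
      · simp only [hi, if_true]
        rw [← hi]
        exact sk_le_eight hw h1 _
      · simp only [hi, if_false]
        rcases hd i hi with e | e
        · show sk w (d.succAbove i) y ≤ c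
          rw [e]
          exact h2.le
        · show sk w (d.succAbove i) y ≤ c
          rw [e]
          exact h3.le
  have h1 : volume (Ea w c a l) ≤ ENNReal.ofReal (|lam d w|)⁻¹ * ENNReal.ofReal (8 * c ^ 2) := by
    rw [← vol_Bx l₃ hc, ← vol_Th w (hw0 d).ne']
    exact measure_mono hsub
  have h2 := ENNReal.toReal_mono (ENNReal.mul_ne_top ENNReal.ofReal_ne_top ENNReal.ofReal_ne_top) h1
  rw [← ENNReal.ofReal_mul (by positivity), ENNReal.toReal_ofReal (by positivity), abs_of_pos (hw0 d)] at h2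
  refine h2.trans ?_
  rw [pm_succAbove w d]
  set Q := ∏ l, lam (d.succAbove l) w with hQ
  have hQ0 : 0 < Q := Finset.prod_pos fun l _ => hw0 _
  have hQ1 : Q ≤ (51 / 200) ^ 3 := by
    rw [hQ, Fin.prod_univ_three]
    have a0 := hw1 (d.succAbove 0)
    have a1 := hw1 (d.succAbove 1)
    have a2 := hw1 (d.succAbove 2)
    have b0 := hw0 (d.succAbove 0)
    have b1 := hw0 (d.succAbove 1)
    have b2 := hw0 (d.succAbove 2)
    calc _ ≤ (51 / 200 : ℝ) * (51 / 200) * (51 / 200) :=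
          mul_le_mul (mul_le_mul a0 a1 b1.le (by norm_num)) a2 b2.le (by positivity)
      _ = _ := by norm_num
  have hd0 := hw0 d
  have e : ((1 / 6) / (lam d w * Q)) * ((4 / 5) * c ^ 2) = (lam d w)⁻¹ * (8 * c ^ 2) * ((1 / 60) / Q) := by
    field_simp
    ring
  rw [e]
  have h5 : (1 : ℝ) ≤ (1 / 60) / Q := by
    rw [le_div_iff₀ hQ0]
    norm_num at hQ1 ⊢
    linarith
  have h6 : 0 ≤ (lam d w)⁻¹ * (8 * c ^ 2) := by positivity
  nlinarith

lemma Th_continuous (w : E3) (a : Fin 4) : Continuous (Th w a) := by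
  have : Th w a = fun y => Lm (Am w a) y + fun _ => 1 := by
    funext y
    exact Th_eq w a y
  rw [this]
  exact (LinearMap.continuous_of_finiteDimensional _).add continuous_const

lemma Sg_eq (H : Fin 4 → Fin 4 → ℝ) : Sg H = ∑ a, ∑ l, H a (a.succAbove l) := by
  simp only [Sg, Fin.sum_univ_four, Fin.sum_univ_three, sa00, sa01, sa02, sa10, sa11, sa12, sa20,
    sa21, sa22, sa30, sa31, sa32]
  ring

/-- **The loss in the volume of the polar.** -/
theorem polar_loss {L : Set E3} {h : ℝ} (hL : NormBody L h)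
    {H : Fin 4 → Fin 4 → ℝ} {W : Fin 4 → Fin 4 → E3}
    (hHW : ∀ a k, k ≠ a →
      W a k ∈ L ∧ 1 - (1 / 100 : ℝ) ≤ lam a (W a k) ∧ - lam k (W a k) = H a k ∧ 0 ≤ H a k ∧ H a k ≤ h ∧
        ∀ x ∈ L, 1 - (1 / 100 : ℝ) ≤ lam a x → - lam k x ≤ H a k)
    {w : E3} (hw : ∀ k, |lam k w - 1 / 4| ≤ 1 / 200) :
    ((1 / 6) / pm w) * (1 - (18 / 25) * Sg H - 300000000 * h ^ 2) ≤ (volume (polarAt L w)).toReal := by
  have hh := hL.h_nonneg
  have hw1 : ∀ k, 49 / 200 ≤ lam k w := by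
    intro k
    have := (abs_le.1 (hw k)).1
    linarith
  have hw2 : ∀ k, lam k w ≤ 51 / 200 := by
    intro k
    have := (abs_le.1 (hw k)).2
    linarith
  have hw0 : ∀ k, 0 < lam k w := fun k => by linarith [hw1 k]
  have hw8 : ∀ k, 1 / 8 ≤ lam k w := fun k => by linarith [hw1 k]
  have hpm := pm_pos hw0
  set V₀ : ℝ := (1 / 6) / pm w with hV₀
  have hV₀0 : 0 < V₀ := by positivity
  let Hl : Fin 4 → Fin 3 → ℝ := fun a l => H a (a.succAbove l)
  have hHl : ∀ a l, 0 ≤ Hl a l := fun a l => (hHW a _ (succAbove_ne_self a l)).2.2.2.1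
  let Z : Fin 4 → Set E3 := fun a => Za w a (Hl a)
  set Ts := polarAt T3 w with hTs
  have hTsv : volume Ts = ENNReal.ofReal V₀ := vol_polar_T3 hw0
  have hTsf : volume Ts ≠ ⊤ := by rw [hTsv]; exact ENNReal.ofReal_ne_top
  have hfa : ∀ a i, 0 < fa w a (Hl a) i := by
    intro a i
    have := hw0 (a.succAbove i)
    have h2 := hHl a i
    have h3 := hw0 a
    simp only [fa]
    positivity
  have hFa : ∀ a, 0 < Fa w a := fun a => Finset.sum_pos (fun l _ => hw0 _) ⟨0, Finset.mem_univ 0⟩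
  have hZsub : ∀ a, Z a ⊆ Ts := by
    intro a y hy
    obtain ⟨l, hl⟩ := mem_iUnion.1 (show Th w a y ∈ Zc _ _ from hy)
    exact mem_polar_T3.2 (retained (hw0 a) (hHl a) hl).1
  have hZm : ∀ a, MeasurableSet (Z a) := by
    intro a
    apply (Th_continuous w a).measurable
    apply MeasurableSet.iUnion
    intro l
    rw [Sl_eq (hfa a) (hFa a)]
    exact T3_compact.isClosed.measurableSet.preimage (LinearMap.continuous_of_finiteDimensional _).measurable
  have hZv : ∀ a, volume (Z a) = ENNReal.ofReal (|lam a w|)⁻¹ * ENNReal.ofReal ((1 / 6) * (1 / (Fa w a * fa w a (Hl a) 1 * fa w a (Hl a) 2) +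
      1 / (fa w a (Hl a) 0 * Fa w a * fa w a (Hl a) 2) + 1 / (fa w a (Hl a) 0 * fa w a (Hl a) 1 * Fa w a))) := by
    intro a
    rw [← vol_Zc (hfa a) (hFa a)]
    exact vol_Th w (hw0 a).ne' _
  -- the retained volume
  have hZr : ∀ a, V₀ - (volume (Z a)).toReal ≤ V₀ * ((18 / 25) * ∑ l, Hl a l) := by
    intro a
    have h1 := retention_real (hw0 a) (hw2 a) (hw1 (a.succAbove 0)) (hw1 (a.succAbove 1)) (hw1 (a.succAbove 2))
      (hw2 (a.succAbove 0)) (hw2 (a.succAbove 1)) (hw2 (a.succAbove 2)) (hHl a 0) (hHl a 1) (hHl a 2)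
    have e1 : pm w = lam a w * (lam (a.succAbove 0) w * lam (a.succAbove 1) w * lam (a.succAbove 2) w) := by
      rw [pm_succAbove w a, Fin.prod_univ_three]
    rw [← e1, ← hV₀] at h1
    have e2 : ∀ l, lam (a.succAbove l) w + lam a w / (99 / 100) * Hl a l = fa w a (Hl a) l := fun l => rfl
    simp only [e2] at h1
    have e3 : lam (a.succAbove 0) w + lam (a.succAbove 1) w + lam (a.succAbove 2) w = Fa w a := by
      simp only [Fa, Fin.sum_univ_three]
    rw [e3] at h1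
    rw [hZv a, ← ENNReal.ofReal_mul (by positivity), ENNReal.toReal_ofReal (by
      have f0 := hfa a 0
      have f1 := hfa a 1
      have f2 := hfa a 2
      have F0 := hFa a
      positivity), abs_of_pos (hw0 a), Fin.sum_univ_three]
    linarith
  have hEr : ∀ a l, (volume (Ea w (4800 * h) a l)).toReal ≤ V₀ * ((4 / 5) * (4800 * h) ^ 2) :=
    fun a l => vol_Ea hw8 hw2 (by positivity) a l
  -- the covering
  have hcover : Ts ⊆ polarAt L w ∪ ((⋃ a, Ts \ Z a) ∪ ⋃ a, ⋃ l, Ea w (4800 * h) a l) := by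
    intro y hy
    by_cases hyL : y ∈ polarAt L w
    · exact Or.inl hyL
    right
    have hs0 := mem_polar_T3.1 hy
    rw [mem_polar_iff_sk] at hyL
    push Not at hyL
    obtain ⟨x, hx, hxy⟩ := hyL
    by_cases ha : ∃ a, 99 / 100 ≤ lam a x
    · left
      obtain ⟨a, ha⟩ := ha
      refine mem_iUnion.2 ⟨a, hy, ?_⟩
      intro hyZ
      obtain ⟨l, hl⟩ := mem_iUnion.1 (show Th w a y ∈ Zc _ _ from hyZ)
      have := (retained (hw0 a) (hHl a) hl).2 x ha (hL.le_one x hx a) (fun l' => by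
        have := (hHW a _ (succAbove_ne_self a l')).2.2.2.2.2 x hx (by linarith)
        simp only [Hl]
        linarith)
      linarith
    · right
      push Not at ha
      obtain ⟨a, l, h1, h2⟩ := far_case hxy hs0 (sk_le_eight hw8 hs0) hh (hL.ge_neg x hx)
        (fun a => by linarith [ha a])
      exact mem_iUnion.2 ⟨a, mem_iUnion.2 ⟨l, hs0, h1, h2⟩⟩
  have hLsub : polarAt L w ⊆ Ts := polarAt_anti hL.sub w
  have hLf : volume (polarAt L w) ≠ ⊤ := ne_top_of_le_ne_top hTsf (measure_mono hLsub)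
  have hDf : ∀ a, volume (Ts \ Z a) ≠ ⊤ := fun a =>
    ne_top_of_le_ne_top hTsf (measure_mono diff_subset)
  have hEf : ∀ a l, volume (Ea w (4800 * h) a l) ≠ ⊤ := by
    intro a l
    apply ne_top_of_le_ne_top hTsf
    apply measure_mono
    rintro y ⟨hy, -, -⟩
    exact mem_polar_T3.2 hy
  have hmeas : volume Ts ≤ volume (polarAt L w) + (∑ a, volume (Ts \ Z a) +
      ∑ a, ∑ l, volume (Ea w (4800 * h) a l)) := by
    calc volume Ts ≤ volume (polarAt L w ∪ ((⋃ a, Ts \ Z a) ∪ ⋃ a, ⋃ l, Ea w (4800 * h) a l)) :=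
          measure_mono hcover
      _ ≤ volume (polarAt L w) + volume ((⋃ a, Ts \ Z a) ∪ ⋃ a, ⋃ l, Ea w (4800 * h) a l) :=
          measure_union_le _ _
      _ ≤ _ := by
          refine add_le_add le_rfl ?_
          refine (measure_union_le _ _).trans (add_le_add ?_ ?_)
          · exact measure_iUnion_fintype_le _ _
          · refine (measure_iUnion_fintype_le _ _).trans (Finset.sum_le_sum fun a _ => ?_)
            exact measure_iUnion_fintype_le _ _
  have hreal := ENNReal.toReal_mono (ENNReal.add_ne_top.2 ⟨hLf, ENNReal.add_ne_top.2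
    ⟨ENNReal.sum_ne_top.2 fun a _ => hDf a, ENNReal.sum_ne_top.2 fun a _ =>
      ENNReal.sum_ne_top.2 fun l _ => hEf a l⟩⟩) hmeas
  rw [ENNReal.toReal_add hLf (ENNReal.add_ne_top.2
    ⟨ENNReal.sum_ne_top.2 fun a _ => hDf a, ENNReal.sum_ne_top.2 fun a _ =>
      ENNReal.sum_ne_top.2 fun l _ => hEf a l⟩),
    ENNReal.toReal_add (ENNReal.sum_ne_top.2 fun a _ => hDf a) (ENNReal.sum_ne_top.2 fun a _ =>
      ENNReal.sum_ne_top.2 fun l _ => hEf a l),
    ENNReal.toReal_sum (fun a _ => hDf a), ENNReal.toReal_sum (fun a _ =>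
      ENNReal.sum_ne_top.2 fun l _ => hEf a l), hTsv, ENNReal.toReal_ofReal hV₀0.le] at hreal
  simp_rw [ENNReal.toReal_sum (fun l _ => hEf _ l)] at hreal
  have hD : ∀ a, (volume (Ts \ Z a)).toReal ≤ V₀ * ((18 / 25) * ∑ l, Hl a l) := by
    intro a
    rw [measure_diff (hZsub a) (hZm a).nullMeasurableSet (ne_top_of_le_ne_top hTsf (measure_mono (hZsub a))),
      ENNReal.toReal_sub_of_le (measure_mono (hZsub a)) hTsf, hTsv, ENNReal.toReal_ofReal hV₀0.le]
    exact hZr a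
  have hS1 : ∑ a, (volume (Ts \ Z a)).toReal ≤ V₀ * ((18 / 25) * Sg H) := by
    rw [Sg_eq, Finset.mul_sum, Finset.mul_sum]
    exact Finset.sum_le_sum fun a _ => hD a
  have hS2 : ∑ a, ∑ l, (volume (Ea w (4800 * h) a l)).toReal ≤ V₀ * (300000000 * h ^ 2) := by
    have h1 : ∑ a : Fin 4, ∑ l : Fin 3, (volume (Ea w (4800 * h) a l)).toReal ≤
        ∑ _a : Fin 4, ∑ _l : Fin 3, V₀ * ((4 / 5) * (4800 * h) ^ 2) :=
      Finset.sum_le_sum fun a _ => Finset.sum_le_sum fun l _ => hEr a l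
    refine h1.trans ?_
    simp only [Finset.sum_const, Finset.card_univ, Fintype.card_fin, nsmul_eq_mul]
    push_cast
    have : (0:ℝ) ≤ V₀ * h ^ 2 := by positivity
    nlinarith
  nlinarith

end Vale.Agent.Lib.P248
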