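import Vale.Agent.Lib.P248.Eq6

open MeasureTheory Set Function Filter
open scoped ENNReal Pointwise Topology

namespace Vale.Agent.Lib.P248

lemma amgm3 {a b c : ℝ} (ha : 0 ≤ a) (hb : 0 ≤ b) (hc : 0 ≤ c) :
    a * b * c ≤ ((a + b + c) / 3) ^ 3 := by
  nlinarith [mul_nonneg ha (sq_nonneg (b - c)), mul_nonneg hb (sq_nonneg (a - c)),
    mul_nonneg hc (sq_nonneg (a - b)), mul_nonneg ha (sq_nonneg (a - b)), mul_nonneg ha (sq_nonneg (a - c)),
    mul_nonneg hb (sq_nonneg (a - b)), mul_nonneg hb (sq_nonneg (b - c)), mul_nonneg hc (sq_nonneg (a - c)),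
    mul_nonneg hc (sq_nonneg (b - c))]

/-- The product of the barycentric coordinates is small if they are far from the centroid. -/
lemma pm_bound {w : E3} (hw : ∀ k, 0 < lam k w) (i : Fin 4) :
    256 * pm w ≤ 1 - (17 / 10) * (lam i w - 1 / 4) ^ 2 := by
  have hs := lam_sum w
  rw [Fin.sum_univ_succAbove _ i, Fin.sum_univ_three] at hs
  rw [pm_succAbove w i, Fin.prod_univ_three]
  set μ := lam i w with hμ
  set a := lam (i.succAbove 0) w with ha
  set b := lam (i.succAbove 1) w with hb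
  set c := lam (i.succAbove 2) w with hc
  have h0 : 0 < μ := hw i
  have h1 : 0 < a := hw _
  have h2 : 0 < b := hw _
  have h3 : 0 < c := hw _
  have h4 := amgm3 h1.le h2.le h3.le
  set ε := μ - 1 / 4 with hε
  have hμε : μ = 1 / 4 + ε := by rw [hε]; ring
  have habc : (a + b + c) / 3 = 1 / 4 - ε / 3 := by
    rw [hε]
    linarith
  rw [habc] at h4
  have hε1 : ε ≤ 3 / 4 := by
    rw [hε]
    linarith
  have hε2 : -1 / 4 < ε := by
    rw [hμε] at h0
    linarith
  have h5 : μ * (a * b * c) ≤ μ * (1 / 4 - ε / 3) ^ 3 := mul_le_mul_of_nonneg_left h4 h0.le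
  have key : 256 * (μ * (1 / 4 - ε / 3) ^ 3) ≤ 1 - (17 / 10) * ε ^ 2 := by
    rw [hμε]
    have e : 1 - (17 / 10) * ε ^ 2 - 256 * ((1 / 4 + ε) * (1 / 4 - ε / 3) ^ 3) =
        ε ^ 2 * (32 / 3 - 17 / 10 - (512 / 27) * ε + (256 / 27) * ε ^ 2) := by
      ring
    have h6 : 0 ≤ 32 / 3 - 17 / 10 - (512 / 27) * ε + (256 / 27) * ε ^ 2 := by
      nlinarith [mul_nonneg (sub_nonneg.2 hε1) (sub_nonneg.2 hε1)]
    have h7 := mul_nonneg (sq_nonneg ε) h6
    linarith
  have e : μ * (a * b * c) = μ * (a * b * c) := rfl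
  have e2 : 256 * (μ * (a * b * c)) ≤ 1 - (17 / 10) * ε ^ 2 := by linarith
  calc 256 * (μ * (a * b * c)) ≤ _ := e2
    _ = _ := rfl

/-- The bound on the sum of the heights. -/
lemma Sg_le {h : ℝ} {H : Fin 4 → Fin 4 → ℝ} (hH : ∀ a k, k ≠ a → H a k ≤ h) : Sg H ≤ 12 * h := by
  have : Sg H ≤ ∑ _i : Fin 4, ∑ _l : Fin 3, h := by
    simp only [Sg]
    exact Finset.sum_le_sum fun i _ => Finset.sum_le_sum fun l _ =>
      hH _ _ (succAbove_ne_self i l).symm
  refine this.trans ?_
  simp only [Finset.sum_const, Finset.card_univ, Fintype.card_fin, nsmul_eq_mul]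
  push_cast
  linarith

/-- **The core estimate near the centroid.** -/
theorem core_B2 {L : Set E3} {h : ℝ} (hL : NormBody L h) (hsm : h ≤ 1 / 10000000000) {i : Fin 4} {x : E3}
    (hx : x ∈ L) (hxi : lam i x = - h) {w : E3} (hw : ∀ k, |lam k w - 1 / 4| ≤ 1 / 200) :
    (1 / (36 * pm w)) * (1 + h / 30) ≤ (volume L).toReal * (volume (polarAt L w)).toReal := by
  have hh := hL.h_nonneg
  obtain ⟨H, W, hHW⟩ := exists_hgt hL (1 / 100) (by norm_num)
  have hw1 : ∀ k, 49 / 200 ≤ lam k w := by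
    intro k
    have := (abs_le.1 (hw k)).1
    linarith
  have hw0 : ∀ k, 0 < lam k w := fun k => by linarith [hw1 k]
  have hpm := pm_pos hw0
  have g1 := gain_h hL hx hxi
  have g2 := gain_S hL (by linarith) hHW
  have g3 := polar_loss hL hHW hw
  have hS0 : 0 ≤ Sg H := by
    simp only [Sg]
    exact Finset.sum_nonneg fun i _ => Finset.sum_nonneg fun l _ =>
      (hHW _ _ (succAbove_ne_self i l).symm).2.2.2.1
  have hS1 := Sg_le (h := h) (H := H) (fun a k hk => (hHW a k hk).2.2.2.2.1)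
  set S := Sg H with hS
  set V₀ := (1 / 6) / pm w with hV₀
  have hV₀0 : 0 < V₀ := by positivity
  have hs3 : (99 / 100 : ℝ) ≤ (1 / (1 + 6 * h)) ^ 3 := by
    have h1 : (999 / 1000 : ℝ) ≤ 1 / (1 + 6 * h) := by
      rw [le_div_iff₀ (by positivity)]
      nlinarith
    calc (99 / 100 : ℝ) ≤ (999 / 1000) ^ 3 := by norm_num
      _ ≤ _ := pow_le_pow_left₀ (by norm_num) h1 3
  have g1' : 1 / 6 + (11 / 25) * (h / 6) ≤ (volume L).toReal := by
    have : (11 / 25 : ℝ) ≤ (1 / (1 + 6 * h)) ^ 3 * (4 / 9) := by nlinarith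
    have h2 : (11 / 25 : ℝ) * (h / 6) ≤ (1 / (1 + 6 * h)) ^ 3 * (4 / 9) * (h / 6) :=
      mul_le_mul_of_nonneg_right this (by positivity)
    linarith
  set G := max ((9 / 10) * S) ((11 / 25) * h) with hG
  have hG1 : (9 / 10) * S ≤ G := le_max_left _ _
  have hG2 : (11 / 25) * h ≤ G := le_max_right _ _
  have hG3 : G ≤ 11 * h := max_le (by linarith) (by linarith)
  have hG0 : 0 ≤ G := by linarith [mul_nonneg (by norm_num : (0:ℝ) ≤ 11 / 25) hh]
  have hvol : (1 / 6) * (1 + G) ≤ (volume L).toReal := by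
    rw [hG]
    rcases max_cases ((9 / 10) * S) ((11 / 25) * h) with ⟨e, -⟩ | ⟨e, -⟩
    · rw [e]
      linarith
    · rw [e]
      linarith
  have hR : (18 / 25) * S + 300000000 * h ^ 2 ≤ (87 / 100) * G := by
    have a1 : (18 / 25) * S ≤ (8 / 10) * G := by linarith
    have a2 : 300000000 * h ^ 2 ≤ (3 / 100) * h := by nlinarith
    linarith
  have hpol : V₀ * (1 - (87 / 100) * G) ≤ (volume (polarAt L w)).toReal := by
    refine le_trans ?_ g3
    apply mul_le_mul_of_nonneg_left _ hV₀0.le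
    linarith
  have hGs : G ≤ 1 / 1000000 := by linarith
  have hpos : 0 ≤ V₀ * (1 - (87 / 100) * G) := by
    apply mul_nonneg hV₀0.le
    linarith
  have hprod : ((1 / 6) * (1 + G)) * (V₀ * (1 - (87 / 100) * G)) ≤
      (volume L).toReal * (volume (polarAt L w)).toReal :=
    mul_le_mul hvol hpol hpos ENNReal.toReal_nonneg
  refine le_trans ?_ hprod
  have e : 1 / (36 * pm w) = (1 / 6) * V₀ := by
    rw [hV₀]
    field_simp
    norm_num
  rw [e]
  have h3 : (1 + h / 30) ≤ (1 + G) * (1 - (87 / 100) * G) := by nlinarith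
  have h4 : 0 < (1 / 6) * V₀ := by positivity
  calc (1 / 6) * V₀ * (1 + h / 30) ≤ (1 / 6) * V₀ * ((1 + G) * (1 - (87 / 100) * G)) :=
        mul_le_mul_of_nonneg_left h3 h4.le
    _ = _ := by ring

lemma lam_add_ip (k : Fin 4) (x v : E3) : lam k (x + v) = lam k x + ip (gr k) v := by
  have := lam_sub k (x + v) x
  rw [add_sub_cancel_left] at this
  linarith

/-- A normalised body at a point near the centroid is near a simplex. -/
lemma near_gap {L : Set E3} {h : ℝ} (hL : NormBody L h) {w : E3} {θ : ℝ} (hθ : 0 ≤ θ) (hθ1 : θ < 1 / 4)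
    (hw : ∀ k, |lam k w - 1 / 4| ≤ θ) : Near L w ((1 + 4 * h + 4 * θ) / (1 - 4 * θ)) := by
  have hr : 0 < 1 - 4 * θ := by linarith
  refine ⟨fun i => (1 - 4 * θ) • (vtx i - cen), fun j => (-4 / (1 - 4 * θ)) • gr j, ?_, ?_, ?_⟩
  · intro i j
    rw [smul_ip, ip_smul, ← lam_sub, lam_vtx, lam_cen]
    by_cases hij : i = j
    · subst hij
      simp
      field_simp
      norm_num
    · simp only [if_neg (Ne.symm hij), if_neg hij]
      field_simp
      norm_num
  · intro i
    apply hL.sub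
    rw [mem_T3_iff]
    intro k
    rw [lam_add_ip, ip_smul, ← lam_sub, lam_vtx, lam_cen]
    have h1 := (abs_le.1 (hw k)).1
    have h2 : 0 ≤ (1 - 4 * θ) * (if k = i then (1:ℝ) else 0) := by
      apply mul_nonneg hr.le
      split_ifs <;> norm_num
    nlinarith
  · intro x hx j
    rw [smul_ip, ← lam_sub, div_mul_eq_mul_div, div_le_div_iff_of_pos_right hr]
    have h1 := (abs_le.1 (hw j)).2
    have h2 := hL.ge_neg x hx j
    linarith

lemma lt_of_interior_lam {L : Set E3} {h : ℝ} (hge : ∀ x ∈ L, ∀ i, - h ≤ lam i x) {w : E3}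
    (hw : w ∈ interior L) (k : Fin 4) : - h < lam k w := by
  have ha : - gr k ≠ 0 := neg_ne_zero.2 (gr_ne k)
  have e : ∀ x, ip (- gr k) x = lam k 0 - lam k x := by
    intro x
    rw [lam_eq_ip k x]
    simp [ip]
    ring
  have := ip_lt_of_interior (A := L) (a := - gr k) (b := lam k 0 + h) ha (fun x hx => by
    rw [e]
    linarith [hge x hx k]) hw
  rw [e] at this
  linarith

/-- **The estimate far from the centroid.** -/
theorem core_B1 {L : Set E3} {h : ℝ} (hL : NormBody L h) (hsm : h ≤ 1 / 10000000000) {w : E3}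
    (hwi : w ∈ interior L) {i : Fin 4} (hi : 1 / 200 ≤ |lam i w - 1 / 4|) :
    (64 / 9) * (1 + 3 / 100000) ≤ (volume L).toReal * (volume (polarAt L w)).toReal := by
  have hh := hL.h_nonneg
  set r : ℝ := 1 + 4 * h with hr
  have hr0 : 0 < r := by positivity
  let t : E3 := fun _ => - h
  let ψ : E3 → E3 := fun x => r⁻¹ • (x - t)
  have hψ : ∀ k x, lam k (ψ x) = (lam k x + h) / r := by
    intro k x
    fin_cases k
    · show lam 0 _ = (lam 0 x + h) / r
      simp only [lam_0, ψ, t, Pi.smul_apply, Pi.sub_apply, smul_eq_mul, hr]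
      field_simp
      ring
    · show lam 1 _ = (lam 1 x + h) / r
      simp only [lam_1, ψ, t, Pi.smul_apply, Pi.sub_apply, smul_eq_mul]
      field_simp
      ring
    · show lam 2 _ = (lam 2 x + h) / r
      simp only [lam_2, ψ, t, Pi.smul_apply, Pi.sub_apply, smul_eq_mul]
      field_simp
      ring
    · show lam 3 _ = (lam 3 x + h) / r
      simp only [lam_3, ψ, t, Pi.smul_apply, Pi.sub_apply, smul_eq_mul]
      field_simp
      ring
  set w' := ψ w with hw'
  have hw'0 : ∀ k, 0 < lam k w' := by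
    intro k
    rw [hψ]
    have := lt_of_interior_lam hL.ge_neg hwi k
    apply div_pos _ hr0
    linarith
  have hsub : (fun y : E3 => r • y) ⁻¹' polarAt T3 w' ⊆ polarAt L w := by
    intro y hy
    rw [mem_polar_iff]
    intro x hx
    have hxT : ψ x ∈ T3 := by
      rw [mem_T3_iff]
      intro k
      rw [hψ]
      apply div_nonneg _ hr0.le
      linarith [hL.ge_neg x hx k]
    have := (mem_polar_iff.1 hy) _ hxT
    have e : ip (r • y) (ψ x) - ip (r • y) w' = ip y x - ip y w := by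
      simp only [hw', ψ, smul_ip, ip_smul, ip_sub]
      field_simp
      ring
    linarith
  have hvol : 1 / 6 ≤ (volume L).toReal := by
    rw [← volReal_T3]
    exact ENNReal.toReal_mono hL.cpt.measure_lt_top.ne (measure_mono hL.sub)
  have hpolF : volume (polarAt L w) ≠ ⊤ := (polar_compact hwi).measure_lt_top.ne
  have hr3 : (r ^ 3)⁻¹ * ((1 / 6) / pm w') ≤ (volume (polarAt L w)).toReal := by
    have h1 : volume ((fun y : E3 => r • y) ⁻¹' polarAt T3 w') =
        ENNReal.ofReal ((r ^ 3)⁻¹ * ((1 / 6) / pm w')) := by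
      rw [Measure.addHaar_preimage_smul _ hr0.ne', vol_polar_T3 hw'0, Module.finrank_fin_fun,
        abs_of_pos (by positivity), ← ENNReal.ofReal_mul (by positivity)]
    have h2 := ENNReal.toReal_mono hpolF (measure_mono hsub)
    rw [h1, ENNReal.toReal_ofReal] at h2
    · exact h2
    · have := pm_pos hw'0
      positivity
  have hpm := pm_pos hw'0
  have hb := pm_bound hw'0 i
  have hε : (1 / 201 : ℝ) ≤ |lam i w' - 1 / 4| := by
    have e : lam i w' - 1 / 4 = (lam i w - 1 / 4) / r := by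
      rw [hψ, hr]
      field_simp
      ring
    rw [e, abs_div, abs_of_pos hr0, le_div_iff₀ hr0]
    have : r ≤ 201 / 200 := by rw [hr]; linarith
    nlinarith
  have hε2 : (1 / 201 : ℝ) ^ 2 ≤ (lam i w' - 1 / 4) ^ 2 := by
    rw [← sq_abs (lam i w' - 1 / 4)]
    exact pow_le_pow_left₀ (by norm_num) hε 2
  have hb2 : 256 * pm w' ≤ 1 - 1 / 24000 := by
    norm_num at hε2 ⊢
    nlinarith
  have hr3' : (1 - 1 / 100000000 : ℝ) ≤ (r ^ 3)⁻¹ := by
    rw [← one_div, le_div_iff₀ (by positivity)]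
    have h1 : r ^ 3 ≤ (1 + 4 * (1 / 10000000000)) ^ 3 :=
      pow_le_pow_left₀ hr0.le (by rw [hr]; linarith) 3
    calc (1 - 1 / 100000000 : ℝ) * r ^ 3 ≤ (1 - 1 / 100000000) * (1 + 4 * (1 / 10000000000)) ^ 3 :=
          mul_le_mul_of_nonneg_left h1 (by norm_num)
      _ ≤ 1 := by norm_num
  have hprod : (1 / 6) * ((r ^ 3)⁻¹ * ((1 / 6) / pm w')) ≤
      (volume L).toReal * (volume (polarAt L w)).toReal :=
    mul_le_mul hvol hr3 (by positivity) ENNReal.toReal_nonneg
  refine le_trans ?_ hprod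
  have e : (1 / 6) * ((r ^ 3)⁻¹ * ((1 / 6) / pm w')) = (r ^ 3)⁻¹ / (36 * pm w') := by
    field_simp
    norm_num
  rw [e, le_div_iff₀ (by positivity)]
  have h5 : (64 / 9) * (1 + 3 / 100000) * (36 * pm w') ≤ 1 - 1 / 100000000 := by
    have : (64 / 9) * (1 + 3 / 100000) * (36 * pm w') = (1 + 3 / 100000) * (256 * pm w') := by ring
    rw [this]
    calc (1 + 3 / 100000 : ℝ) * (256 * pm w') ≤ (1 + 3 / 100000) * (1 - 1 / 24000) :=
          mul_le_mul_of_nonneg_left hb2 (by norm_num)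
      _ ≤ _ := by norm_num
  linarith

end Vale.Agent.Lib.P248
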