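import Vale.Agent.Lib.P248.Eq7

open MeasureTheory Set Function Filter
open scoped ENNReal Pointwise Topology

namespace Vale.Agent.Lib.P248

/-- The signed volume of a tuple of four points. -/
noncomputable def D4 (p : Fin 4 → E3) : ℝ := (Mf p).det

lemma D4_update_vtx (i : Fin 4) (x : E3) : D4 (Function.update vtx i x) = lam i x := by
  simp only [D4, Mf, Matrix.det_fin_three, Matrix.of_apply]
  fin_cases i
  · simp [Function.update, vtx, lam, Fin.ext_iff]
    ring
  · simp [Function.update, vtx, lam, Fin.ext_iff]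
  · simp [Function.update, vtx, lam, Fin.ext_iff]
  · simp [Function.update, vtx, lam, Fin.ext_iff]

lemma Mf_comp (m : Matrix (Fin 3) (Fin 3) ℝ) (t : E3) (q : Fin 4 → E3) :
    Mf (fun i => Lm m (q i) + t) = m * Mf q := by
  ext i j
  simp only [Mf, Matrix.of_apply, Matrix.mul_apply, Fin.sum_univ_three, Pi.add_apply, Lm_apply]
  ring

lemma D4_comp (m : Matrix (Fin 3) (Fin 3) ℝ) (t : E3) (q : Fin 4 → E3) :
    D4 (fun i => Lm m (q i) + t) = m.det * D4 q := by
  simp only [D4]
  rw [Mf_comp, Matrix.det_mul]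

lemma D4_continuous : Continuous D4 := by
  have : D4 = fun p : Fin 4 → E3 => (p 1 0 - p 0 0) * (p 2 1 - p 0 1) * (p 3 2 - p 0 2) -
      (p 1 0 - p 0 0) * (p 3 1 - p 0 1) * (p 2 2 - p 0 2) -
      (p 2 0 - p 0 0) * (p 1 1 - p 0 1) * (p 3 2 - p 0 2) +
      (p 2 0 - p 0 0) * (p 3 1 - p 0 1) * (p 1 2 - p 0 2) +
      (p 3 0 - p 0 0) * (p 1 1 - p 0 1) * (p 2 2 - p 0 2) -
      (p 3 0 - p 0 0) * (p 2 1 - p 0 1) * (p 1 2 - p 0 2) := by
    funext p
    simp only [D4, Mf, Matrix.det_fin_three, Matrix.of_apply]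
    rfl
  rw [this]
  fun_prop

/-- The simplex of maximal volume in a compact set. -/
lemma exists_max_simplex {K : Set E3} (hK : IsCompact K) (hne : K.Nonempty) :
    ∃ p : Fin 4 → E3, (∀ i, p i ∈ K) ∧ ∀ q : Fin 4 → E3, (∀ i, q i ∈ K) → |D4 q| ≤ |D4 p| := by
  have hc : IsCompact (Set.pi univ fun _ : Fin 4 => K) := isCompact_univ_pi fun _ => hK
  obtain ⟨x, hx⟩ := hne
  obtain ⟨p, hp, hmax⟩ := hc.exists_isMaxOn ⟨fun _ => x, fun _ _ => hx⟩
    (f := fun q => |D4 q|) D4_continuous.abs.continuousOn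
  exact ⟨p, fun i => hp i (mem_univ i), fun q hq => hmax (fun i _ => hq i)⟩

/-- A body contains a nondegenerate tuple. -/
lemma exists_D4_ne {K : Set E3} (hi : (interior K).Nonempty) :
    ∃ q : Fin 4 → E3, (∀ i, q i ∈ K) ∧ D4 q ≠ 0 := by
  obtain ⟨z, hz⟩ := hi
  have hcont : Continuous (fun ε : ℝ => fun i : Fin 4 => z + ε • vtx i) := by fun_prop
  have hopn : IsOpen {ε : ℝ | ∀ i : Fin 4, z + ε • vtx i ∈ interior K} := by
    simp only [ofPred_forall]
    refine isOpen_iInter_of_finite fun i => isOpen_interior.preimage (by fun_prop)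
  have h0 : (0 : ℝ) ∈ {ε : ℝ | ∀ i : Fin 4, z + ε • vtx i ∈ interior K} := by
    intro i
    simpa using hz
  obtain ⟨δ, hδ, hball⟩ := Metric.isOpen_iff.1 hopn 0 h0
  have hε : δ / 2 ∈ Metric.ball (0 : ℝ) δ := by
    rw [Metric.mem_ball, Real.dist_eq, sub_zero, abs_of_pos (by positivity)]
    linarith
  have h1 := hball hε
  refine ⟨fun i => z + (δ / 2) • vtx i, fun i => interior_subset (h1 i), ?_⟩
  have e : D4 (fun i => z + (δ / 2) • vtx i) = (δ / 2) ^ 3 := by
    simp only [D4, Mf, Matrix.det_fin_three, Matrix.of_apply]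
    simp [vtx]
    ring
  rw [e]
  positivity

/-- A normal form for bodies. -/
lemma normal_form {K : Set E3} (hK : IsCompact K) (hc : Convex ℝ K) (hi : (interior K).Nonempty) :
    ∃ (m : Matrix (Fin 3) (Fin 3) ℝ) (t : E3), m.det ≠ 0 ∧
      T3 ⊆ (fun x => Lm m x + t) ⁻¹' K ∧
      ∀ q : Fin 4 → E3, (∀ i, q i ∈ (fun x => Lm m x + t) ⁻¹' K) → |D4 q| ≤ 1 := by
  have hne : K.Nonempty := hi.mono interior_subset
  obtain ⟨p, hp, hmax⟩ := exists_max_simplex hK hne
  have hD : D4 p ≠ 0 := by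
    obtain ⟨q, hq, hq0⟩ := exists_D4_ne hi
    intro h0
    have := hmax q hq
    rw [h0, abs_zero] at this
    exact hq0 (abs_nonpos_iff.1 this)
  refine ⟨Mf p, p 0, hD, ?_, ?_⟩
  · intro x hx
    have hh : hull (Finset.univ.image p) ⊆ K := by
      apply convexHull_min _ hc
      intro y hy
      have hy' : y ∈ Finset.univ.image p := hy
      obtain ⟨i, -, rfl⟩ := Finset.mem_image.1 hy'
      exact hp i
    have h1 : Lm (Mf p) x ∈ (fun x => x + p 0) ⁻¹' hull (Finset.univ.image p) := by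
      rw [hull_fin4]
      exact mem_image_of_mem _ hx
    exact hh h1
  · intro q hq
    have h1 := hmax (fun i => Lm (Mf p) (q i) + p 0) hq
    rw [D4_comp, abs_mul] at h1
    have h2 : 0 < |D4 p| := abs_pos.2 hD
    have h3 : |D4 p| * |D4 q| ≤ |D4 p| * 1 := by
      rw [mul_one]
      exact h1
    exact le_of_mul_le_mul_left h3 h2

/-- A normalised body: conclusions. -/
structure Normal (L : Set E3) : Prop where
  cvx : Convex ℝ L
  cpt : IsCompact L
  sub : T3 ⊆ L
  max : ∀ q : Fin 4 → E3, (∀ i, q i ∈ L) → |D4 q| ≤ 1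

lemma Normal.abs_lam {L : Set E3} (hL : Normal L) {x : E3} (hx : x ∈ L) (i : Fin 4) : |lam i x| ≤ 1 := by
  have := hL.max (Function.update vtx i x) (by
    intro k
    by_cases hk : k = i
    · subst hk
      simpa using hx
    · rw [Function.update_of_ne hk]
      exact hL.sub (vtx_mem_T3 k))
  rwa [D4_update_vtx] at this

/-- The exact value of the excursion. -/
lemma Normal.exists_norm {L : Set E3} (hL : Normal L) :
    ∃ (h : ℝ) (i : Fin 4) (x : E3), NormBody L h ∧ x ∈ L ∧ lam i x = - h ∧ h ≤ 1 := by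
  have hne : L.Nonempty := ⟨_, hL.sub (vtx_mem_T3 0)⟩
  have key : ∀ i : Fin 4, ∃ x ∈ L, ∀ y ∈ L, - lam i y ≤ - lam i x := by
    intro i
    obtain ⟨x, hx, hm⟩ := hL.cpt.exists_isMaxOn hne (f := fun y => - lam i y)
      (lam_continuous i).neg.continuousOn
    exact ⟨x, hx, fun y hy => hm hy⟩
  choose X hX hm using key
  obtain ⟨i, -, hi⟩ := Finset.exists_max_image Finset.univ (fun i => - lam i (X i)) ⟨0, Finset.mem_univ 0⟩
  refine ⟨- lam i (X i), i, X i, ?_, hX i, by ring, ?_⟩
  · refine ⟨hL.cvx, hL.cpt, hL.sub, fun x hx k => (abs_le.1 (hL.abs_lam hx k)).2, ?_, ?_⟩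
    · intro x hx k
      have h1 := hm k x hx
      have h2 : - lam k (X k) ≤ - lam i (X i) := hi k (Finset.mem_univ k)
      linarith
    · have h1 := hm i (vtx (i + 1)) (hL.sub (vtx_mem_T3 _))
      rw [lam_vtx, if_neg (by
        intro h
        have := congrArg (fun a : Fin 4 => a - i) h
        simp at this)] at h1
      simpa using h1
  · have := (abs_le.1 (hL.abs_lam (hX i) i)).1
    linarith

/-- The volume of a normalised body which is near a simplex. -/
lemma Normal.vol_le {L : Set E3} (hL : Normal L) {l : ℝ} (hl : 0 < l) (hn : NearBody L l) :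
    (volume L).toReal ≤ l ^ 3 / 6 := by
  obtain ⟨z, u, y, h1, h2, h3⟩ := hn
  let f : Fin 4 → E3 := fun i => z + l • u i
  have hsub : L ⊆ hull (Finset.univ.image f) := by
    intro x hx
    obtain ⟨b, hb0, hb1, e⟩ := h1.bary hl (x := x - z) (h3 x hx)
    have e2 : x = ∑ i, b i • f i := by
      simp only [f, smul_add]
      rw [Finset.sum_add_distrib, ← Finset.sum_smul, hb1, one_smul]
      have : ∑ i, b i • l • u i = l • ∑ i, b i • u i := by
        rw [Finset.smul_sum]
        apply Finset.sum_congr rfl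
        intro i _
        rw [smul_smul, smul_smul, mul_comm]
      rw [this, ← e]
      abel
    rw [e2]
    exact (hull_convex _).sum_mem (fun i _ => hb0 i) hb1
      (fun i _ => mem_hull_self (Finset.mem_image_of_mem _ (Finset.mem_univ i)))
  have hD : |D4 f| ≤ l ^ 3 := by
    have e : Mf f = l • Mf (fun i => z + u i) := by
      ext i j
      simp only [Mf, f, Matrix.of_apply, Matrix.smul_apply, Pi.add_apply, Pi.smul_apply, smul_eq_mul]
      ring
    have h4 := hL.max (fun i => z + u i) h2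
    simp only [D4] at h4 ⊢
    rw [e, Matrix.det_smul, Fintype.card_fin, abs_mul, abs_of_pos (by positivity : 0 < l ^ 3)]
    calc l ^ 3 * _ ≤ l ^ 3 * 1 := mul_le_mul_of_nonneg_left h4 (by positivity)
      _ = l ^ 3 := mul_one _
  have hv : volume (hull (Finset.univ.image f)) = ENNReal.ofReal (|D4 f| * (1 / 6)) := by
    rw [← measure_preimage_add_right volume (f 0), hull_fin4, Measure.addHaar_image_linearMap,
      vol_T3, LinearMap.det_toLin', ← ENNReal.ofReal_mul (abs_nonneg _)]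
    rfl
  have h5 : (volume L).toReal ≤ (volume (hull (Finset.univ.image f))).toReal :=
    ENNReal.toReal_mono (by rw [hv]; exact ENNReal.ofReal_ne_top) (measure_mono hsub)
  rw [hv, ENNReal.toReal_ofReal (by positivity)] at h5
  linarith

lemma Near.one_le {K : Set E3} {z : E3} {l : ℝ} (h : Near K z l) : 1 ≤ l := by
  obtain ⟨u, y, h1, h2, h3⟩ := h
  have := h3 _ (h2 0) 1
  rw [add_sub_cancel_left, h1 0 1] at this
  simpa using this

/-- The gap parameter. -/
noncomputable def eG (l : ℝ) : ℝ := (l - 1) / (8 + 4 * l)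

/-- The relative excess. -/
noncomputable def cG (l : ℝ) : ℝ := min (3 / 100000) (min ((17 / 10) * eG l ^ 2) (eG l / 30))

/-- The improved lower bound away from the simplices. -/
noncomputable def Mm (l : ℝ) : ℝ := (64 / 9) * (1 + cG l)

lemma eG_pos {l : ℝ} (hl : 1 < l) : 0 < eG l := by
  have : 0 < 8 + 4 * l := by linarith
  exact div_pos (by linarith) this

lemma cG_pos {l : ℝ} (hl : 1 < l) : 0 < cG l := by
  have := eG_pos hl
  simp only [cG]
  exact lt_min (by norm_num) (lt_min (by positivity) (by positivity))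

lemma Mm_gt {l : ℝ} (hl : 1 < l) : 64 / 9 < Mm l := by
  have := cG_pos hl
  simp only [Mm]
  linarith

/-- The bound near the simplices for normalised bodies. -/
theorem local_normal {L : Set E3} (hL : Normal L) {l₁ l₂ : ℝ} (h1 : 1 < l₁)
    (h2 : l₂ ≤ 1 + 1 / 100000000000000) (hn : NearBody L l₂) {w : E3} (hw : w ∈ interior L)
    (hnot : ¬ Near L w l₁) :
    Mm l₁ ≤ (volume L).toReal * (volume (polarAt L w)).toReal := by
  obtain ⟨h, i, x, hN, hx, hxi, hle1⟩ := hL.exists_norm
  have hh := hN.h_nonneg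
  have hl2 : 1 ≤ l₂ := by
    obtain ⟨z, hz⟩ := hn
    exact hz.one_le
  have hv := hL.vol_le (by linarith) hn
  have hg := gain_h hN hx hxi
  have hsm : h ≤ 1 / 10000000000 := by
    have hs : (1 / 7 : ℝ) ≤ 1 / (1 + 6 * h) := by
      rw [div_le_div_iff₀ (by norm_num) (by positivity)]
      linarith
    have hs3 : (1 / 7 : ℝ) ^ 3 ≤ (1 / (1 + 6 * h)) ^ 3 := pow_le_pow_left₀ (by norm_num) hs 3
    have h3 : l₂ ^ 3 ≤ (1 + 1 / 100000000000000) ^ 3 := pow_le_pow_left₀ (by linarith) h2 3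
    have h4 : (1 / 7 : ℝ) ^ 3 * (4 / 9) * (h / 6) ≤ (1 / (1 + 6 * h)) ^ 3 * (4 / 9) * (h / 6) := by
      apply mul_le_mul_of_nonneg_right _ (by positivity)
      apply mul_le_mul_of_nonneg_right hs3 (by norm_num)
    have h5 : (2 / 9261 : ℝ) * h = (1 / 7 : ℝ) ^ 3 * (4 / 9) * (h / 6) := by ring
    have h6 : l₂ ^ 3 ≤ 1 + 4 / 100000000000000 := h3.trans (by norm_num)
    linarith
  by_cases hB1 : ∃ i, 1 / 200 ≤ |lam i w - 1 / 4|
  · obtain ⟨i', hi'⟩ := hB1
    have := core_B1 hN hsm hw hi'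
    refine le_trans ?_ this
    simp only [Mm]
    have : cG l₁ ≤ 3 / 100000 := min_le_left _ _
    linarith
  · push Not at hB1
    have hw' : ∀ k, |lam k w - 1 / 4| ≤ 1 / 200 := fun k => (hB1 k).le
    have hcore := core_B2 hN hsm hx hxi hw'
    have hw1 : ∀ k, 49 / 200 ≤ lam k w := by
      intro k
      have := (abs_le.1 (hw' k)).1
      linarith
    have hw0 : ∀ k, 0 < lam k w := fun k => by linarith [hw1 k]
    have hpm := pm_pos hw0
    have hR : ∀ A : ℝ, 0 ≤ A → A ≤ 1 → 256 * pm w ≤ 1 - A → (64 / 9) * (1 + A) ≤ 1 / (36 * pm w) := by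
      intro A hA0 hA1 hA
      rw [le_div_iff₀ (by positivity)]
      have : (64 / 9) * (1 + A) * (36 * pm w) = (1 + A) * (256 * pm w) := by ring
      rw [this]
      calc (1 + A) * (256 * pm w) ≤ (1 + A) * (1 - A) := mul_le_mul_of_nonneg_left hA (by linarith)
        _ ≤ 1 := by nlinarith
    have hbase : (64 / 9) * (1 + 0) ≤ 1 / (36 * pm w) := by
      apply hR 0 le_rfl (by norm_num)
      have := pm_bound hw0 0
      nlinarith [sq_nonneg (lam 0 w - 1 / 4)]
    set e := eG l₁ with he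
    have he0 : 0 < e := eG_pos h1
    have hden : 0 < 8 + 4 * l₁ := by linarith
    have he1 : e < 1 / 4 := by
      rw [he, eG, div_lt_iff₀ hden]
      linarith
    have hlev : (1 + 4 * e + 4 * e) / (1 - 4 * e) = l₁ := by
      have hd : 0 < 1 - 4 * e := by linarith
      rw [div_eq_iff hd.ne', he, eG]
      field_simp
      ring
    have hcase : e ≤ h ∨ ∃ k, e ≤ |lam k w - 1 / 4| := by
      by_contra hcon
      push Not at hcon
      obtain ⟨c1, c2⟩ := hcon
      apply hnot
      have := near_gap hN he0.le he1 (fun k => (c2 k).le)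
      refine this.mono ?_
      rw [← hlev]
      apply div_le_div_of_nonneg_right _ (by linarith)
      linarith
    rcases hcase with hc | ⟨k, hk⟩
    · refine le_trans ?_ hcore
      simp only [Mm]
      have h5 : cG l₁ ≤ e / 30 := (min_le_right _ _).trans (min_le_right _ _)
      have h6 : 1 + cG l₁ ≤ 1 + h / 30 := by linarith
      calc (64 / 9) * (1 + cG l₁) ≤ (64 / 9) * (1 + h / 30) :=
            mul_le_mul_of_nonneg_left h6 (by norm_num)
        _ ≤ (1 / (36 * pm w)) * (1 + h / 30) :=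
            mul_le_mul_of_nonneg_right (by linarith) (by positivity)
    · refine le_trans ?_ hcore
      simp only [Mm]
      have h5 : cG l₁ ≤ (17 / 10) * e ^ 2 := (min_le_right _ _).trans (min_le_left _ _)
      have h7 : (17 / 10) * e ^ 2 ≤ 1 := by nlinarith
      have h8 := pm_bound hw0 k
      have h9 : e ^ 2 ≤ (lam k w - 1 / 4) ^ 2 := by
        rw [← sq_abs (lam k w - 1 / 4)]
        exact pow_le_pow_left₀ he0.le hk 2
      have h10 := hR ((17 / 10) * e ^ 2) (by positivity) h7 (by linarith)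
      calc (64 / 9) * (1 + cG l₁) ≤ (64 / 9) * (1 + (17 / 10) * e ^ 2) :=
            mul_le_mul_of_nonneg_left (by linarith) (by norm_num)
        _ ≤ 1 / (36 * pm w) := h10
        _ ≤ (1 / (36 * pm w)) * (1 + h / 30) := by
            have : 0 ≤ (1 / (36 * pm w)) * (h / 30) := by positivity
            nlinarith

/-- The transport of the notions under an affine map. -/
lemma affine_set {m : Matrix (Fin 3) (Fin 3) ℝ} (hm : m.det ≠ 0) (K : Set E3) (t : E3) :
    (fun x => x + t) ⁻¹' K = Lm m '' ((fun x => Lm m x + t) ⁻¹' K) := by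
  ext y
  constructor
  · intro hy
    have hu : IsUnit m.det := isUnit_iff_ne_zero.2 hm
    refine ⟨Lm m⁻¹ y, ?_, ?_⟩
    · have e : Lm m (Lm m⁻¹ y) = y := by
        simp [Matrix.toLin'_apply, Matrix.mulVec_mulVec, Matrix.mul_nonsing_inv _ hu]
      show Lm m (Lm m⁻¹ y) + t ∈ K
      rw [e]
      exact hy
    · simp [Matrix.toLin'_apply, Matrix.mulVec_mulVec, Matrix.mul_nonsing_inv _ hu]
  · rintro ⟨x, hx, rfl⟩
    exact hx

lemma affine_near {m : Matrix (Fin 3) (Fin 3) ℝ} (hm : m.det ≠ 0) (K : Set E3) (t z : E3) (l : ℝ) :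
    Near ((fun x => Lm m x + t) ⁻¹' K) z l ↔ Near K (Lm m z + t) l := by
  rw [← Near.translate_iff, affine_set hm K t, Near.image_iff hm]

lemma affine_prod {m : Matrix (Fin 3) (Fin 3) ℝ} (hm : m.det ≠ 0) (K : Set E3) (t z : E3) :
    (volume K).toReal * (volume (polarAt K (Lm m z + t))).toReal =
      (volume ((fun x => Lm m x + t) ⁻¹' K)).toReal *
        (volume (polarAt ((fun x => Lm m x + t) ⁻¹' K) z)).toReal := by
  rw [← prod_translate, affine_set hm K t, prod_image hm]

lemma affine_exists {m : Matrix (Fin 3) (Fin 3) ℝ} (hm : m.det ≠ 0) (t w : E3) :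
    ∃ z, Lm m z + t = w := by
  have hu : IsUnit m.det := isUnit_iff_ne_zero.2 hm
  refine ⟨Lm m⁻¹ (w - t), ?_⟩
  have e : Lm m (Lm m⁻¹ (w - t)) = w - t := by
    simp [Matrix.toLin'_apply, Matrix.mulVec_mulVec, Matrix.mul_nonsing_inv _ hu]
  rw [e]
  abel

lemma affine_continuous (m : Matrix (Fin 3) (Fin 3) ℝ) (t : E3) :
    Continuous (fun x => Lm m x + t) :=
  (LinearMap.continuous_of_finiteDimensional _).add continuous_const

lemma affine_normal {K : Set E3} (hK : IsCompact K) (hc : Convex ℝ K)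
    {m : Matrix (Fin 3) (Fin 3) ℝ} (hm : m.det ≠ 0) {t : E3}
    (hT : T3 ⊆ (fun x => Lm m x + t) ⁻¹' K)
    (hmax : ∀ q : Fin 4 → E3, (∀ i, q i ∈ (fun x => Lm m x + t) ⁻¹' K) → |D4 q| ≤ 1) :
    Normal ((fun x => Lm m x + t) ⁻¹' K) := by
  refine ⟨?_, ?_, hT, hmax⟩
  · have := hc.affine_preimage (AffineMap.mk' (fun x => Lm m x + t) (Lm m) 0 (fun x => by simp))
    exact this
  · have e : (fun x => Lm m x + t) ⁻¹' K = (Le m hm) ⁻¹' ((fun x => x + t) ⁻¹' K) := rfl
    rw [e]
    have h1 : IsCompact ((fun x => x + t) ⁻¹' K) :=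
      (Homeomorph.addRight t).isCompact_preimage.2 hK
    exact (Le m hm).toHomeomorph.isCompact_preimage.2 h1

/-- **The improved bound near simplices for all bodies.** -/
theorem local_main {K : Set E3} (hK : IsCompact K) (hc : Convex ℝ K) {w : E3} (hw : w ∈ interior K)
    {l₁ l₂ : ℝ} (h1 : 1 < l₁) (h2 : l₂ ≤ 1 + 1 / 100000000000000) (hn : NearBody K l₂)
    (hnot : ¬ Near K w l₁) :
    Mm l₁ ≤ (volume K).toReal * (volume (polarAt K w)).toReal := by
  obtain ⟨m, t, hm, hT, hmax⟩ := normal_form hK hc ⟨w, hw⟩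
  have hL := affine_normal hK hc hm hT hmax
  obtain ⟨z, rfl⟩ := affine_exists hm t w
  rw [affine_prod hm]
  refine local_normal hL h1 h2 ?_ ?_ ?_
  · obtain ⟨z', hz'⟩ := hn
    obtain ⟨z'', rfl⟩ := affine_exists hm t z'
    exact ⟨z'', (affine_near hm K t z'' l₂).2 hz'⟩
  · exact preimage_interior_subset_interior_preimage (affine_continuous m t) hw
  · rwa [affine_near hm]

end Vale.Agent.Lib.P248
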