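import Vale.Agent.Lib.P248.Eq8

open MeasureTheory Set Function Filter
open scoped ENNReal Pointwise Topology

namespace Vale.Agent.Lib.P248

/-- A vertical chord. -/
def Chord (K : Set E3) (ℓ : ℝ) : Prop := ∃ p, p ∈ K ∧ p + ℓ • e2 ∈ K

/-- The values of the facet functionals on a near simplex are bounded from below. -/
lemma near_lower {K : Set E3} {z : E3} {l : ℝ} {u y : Fin 4 → E3} (h1 : Rel u y)
    (h3 : ∀ x ∈ K, ∀ j, ip (y j) (x - z) ≤ l) {x : E3} (hx : x ∈ K) (j : Fin 4) :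
    - (3 * l) ≤ ip (y j) (x - z) := by
  have e2' : ∑ i, ip (y i) (x - z) = ip (∑ i, y i) (x - z) := by
    have := sum_ip (x - z) Finset.univ (fun _ : Fin 4 => (1:ℝ)) y
    simp only [one_smul, one_mul] at this
    exact this.symm
  have e3 : ip (0 : E3) (x - z) = 0 := by simp [ip]
  rw [h1.sum_y, e3, Fin.sum_univ_succAbove _ j, Fin.sum_univ_three] at e2'
  have a0 := h3 x hx (j.succAbove 0)
  have a1 := h3 x hx (j.succAbove 1)
  have a2 := h3 x hx (j.succAbove 2)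
  linarith

/-- The vertical direction is bounded on the normals of a near simplex with a long chord. -/
lemma near_e2_bound {K : Set E3} {z : E3} {l : ℝ} {u y : Fin 4 → E3} (h1 : Rel u y)
    (h3 : ∀ x ∈ K, ∀ j, ip (y j) (x - z) ≤ l) {ℓ : ℝ} (hℓ : 0 < ℓ) (hc : Chord K ℓ) (j : Fin 4) :
    |ip (y j) e2| ≤ 4 * l / ℓ := by
  obtain ⟨p, hp, hp'⟩ := hc
  have a1 := h3 p hp j
  have a2 := h3 _ hp' j
  have a3 := near_lower h1 h3 hp j
  have a4 := near_lower h1 h3 hp' j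
  have e : ip (y j) (p + ℓ • e2 - z) = ip (y j) (p - z) + ℓ * ip (y j) e2 := by
    rw [add_sub_right_comm, ip_add, ip_smul]
  rw [e] at a2 a4
  rw [abs_le]
  constructor
  · have : - ip (y j) e2 ≤ 4 * l / ℓ := by
      rw [le_div_iff₀ hℓ]
      nlinarith
    linarith
  · rw [le_div_iff₀ hℓ]
    nlinarith

/-- **Closeness to a simplex under a small vertical perturbation.** -/
lemma near_perturb {K K' : Set E3} (hc : Convex ℝ K) (hc' : Convex ℝ K') {z : E3} {l ε ℓ : ℝ} (hε : 0 ≤ ε) (hℓ : 0 < ℓ)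
    (hK : Near K z l) (hchord : Chord K ℓ) (hκ : ε * (4 * l / ℓ) < 1)
    (h1 : ∀ x ∈ K', ∃ x₁ ∈ K, ∃ s : ℝ, |s| ≤ ε ∧ x = x₁ + s • e2)
    (h2 : ∀ x ∈ K, ∃ x' ∈ K', ∃ s : ℝ, |s| ≤ ε ∧ x = x' + s • e2) :
    Near K' z ((l + ε * (4 * l / ℓ)) / (1 - ε * (4 * l / ℓ))) := by
  obtain ⟨u, y, hR, hu, hy⟩ := hK
  set C := 4 * l / ℓ with hC
  have hb : ∀ j, |ip (y j) e2| ≤ C := near_e2_bound hR hy hℓ hchord
  set κ := ε * C with hκ'
  have hr : 0 < 1 - κ := by linarith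
  have hl0 : 0 ≤ C := le_trans (abs_nonneg _) (hb 0)
  refine ⟨fun i => (1 - κ) • u i, fun j => (1 - κ)⁻¹ • y j, ?_, ?_, ?_⟩
  · intro i j
    rw [smul_ip, ip_smul, hR i j, ← mul_assoc, inv_mul_cancel₀ hr.ne', one_mul]
  · intro i
    set c : E3 := (1 - κ) • u i with hcc
    have hcj : ∀ j, ip (y j) c ≤ 1 - κ := by
      intro j
      rw [hcc, ip_smul, hR i j]
      split_ifs
      · nlinarith
      · linarith
    have hE : ∀ (s : ℝ), |s| ≤ ε → ∀ j, ip (y j) (c + s • e2) ≤ 1 := by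
      intro s hs j
      have e : ip (y j) (s • e2) = s * ip (y j) e2 := ip_smul _ _ _
      rw [ip_add, e]
      have h3 : s * ip (y j) e2 ≤ κ := by
        calc s * ip (y j) e2 ≤ |s * ip (y j) e2| := le_abs_self _
          _ = |s| * |ip (y j) e2| := abs_mul _ _
          _ ≤ ε * C := mul_le_mul hs (hb j) (abs_nonneg _) hε
      linarith [hcj j]
    have mem : ∀ (s : ℝ), |s| ≤ ε → z + (c + s • e2) ∈ K :=
      fun s hs => hR.mem_of_le hc hu (hE s hs)
    obtain ⟨x₁, hx₁, s₁, hs₁, e₁⟩ := h2 _ (mem ε (by rw [abs_of_nonneg hε]))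
    obtain ⟨x₂, hx₂, s₂, hs₂, e₂⟩ := h2 _ (mem (-ε) (by rw [abs_neg, abs_of_nonneg hε]))
    have hα : 0 ≤ ε - s₁ := by linarith [(abs_le.1 hs₁).2]
    have hβ : 0 ≤ ε + s₂ := by linarith [(abs_le.1 hs₂).1]
    have ex₁ : x₁ = z + c + (ε - s₁) • e2 := by
      ext k
      have := congrFun e₁ k
      simp only [Pi.add_apply, Pi.smul_apply, smul_eq_mul] at this ⊢
      linarith
    have ex₂ : x₂ = z + c + (-(ε + s₂)) • e2 := by
      ext k
      have := congrFun e₂ k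
      simp only [Pi.add_apply, Pi.smul_apply, smul_eq_mul] at this ⊢
      linarith
    rcases (add_nonneg hα hβ).eq_or_lt with h0 | hpos
    · have ha : ε - s₁ = 0 := by linarith
      rw [ha, zero_smul, add_zero] at ex₁
      rw [← ex₁]
      exact hx₁
    · have hmem := hc' hx₁ hx₂ (a := (ε + s₂) / (ε - s₁ + (ε + s₂))) (b := (ε - s₁) / (ε - s₁ + (ε + s₂)))
        (by positivity) (by positivity) (by rw [← add_div, add_comm, div_self hpos.ne'])
      have hne := hpos.ne'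
      have e : ((ε + s₂) / (ε - s₁ + (ε + s₂))) • x₁ + ((ε - s₁) / (ε - s₁ + (ε + s₂))) • x₂ = z + c := by
        rw [ex₁, ex₂]
        ext k
        simp only [Pi.add_apply, Pi.smul_apply, smul_eq_mul]
        field_simp
        ring
      rw [e] at hmem
      exact hmem
  · intro x hx j
    obtain ⟨x₁, hx₁, s, hs, rfl⟩ := h1 x hx
    rw [smul_ip, div_eq_inv_mul]
    apply mul_le_mul_of_nonneg_left _ (inv_nonneg.2 hr.le)
    have e : x₁ + s • e2 - z = (x₁ - z) + s • e2 := by abel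
    have e' : ip (y j) (s • e2) = s * ip (y j) e2 := ip_smul _ _ _
    rw [e, ip_add, e']
    have h3 : s * ip (y j) e2 ≤ κ := by
      calc s * ip (y j) e2 ≤ |s * ip (y j) e2| := le_abs_self _
        _ = |s| * |ip (y j) e2| := abs_mul _ _
        _ ≤ ε * C := mul_le_mul hs (hb j) (abs_nonneg _) hε
    linarith [hy x₁ hx₁ j]

/-- Positive combinations of valid heights. -/
lemma Valid.comb {V : Finset E3} {a b : E3 → ℝ} (ha : Valid V a) (hb : Valid V b) {s r : ℝ}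
    (hs : 0 ≤ s) (hr : 0 ≤ r) : Valid V (fun v => s * a v + r * b v) := by
  intro S σ α β γ hN
  obtain ⟨α₁, β₁, γ₁, h1, h2⟩ := ha S σ α β γ hN
  obtain ⟨α₂, β₂, γ₂, h3, h4⟩ := hb S σ α β γ hN
  refine ⟨s * α₁ + r * α₂, s * β₁ + r * β₂, s * γ₁ + r * γ₂, ?_, ?_⟩
  · intro u hu
    simp only [h1 u hu, h3 u hu, pl]
    ring
  · intro v hv
    have h5 := mul_nonneg hs (h2 v hv)
    have h6 := mul_nonneg hr (h4 v hv)
    simp only [pl] at h5 h6 ⊢
    nlinarith

/-- The family of heights between the given polytope and a height. -/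
def gg (h₁ : E3 → ℝ) (t : ℝ) : E3 → ℝ := fun v => (1 - t) * v 2 + t * h₁ v

lemma gg_valid {V : Finset E3} {h₁ : E3 → ℝ} (v₁ : Valid V h₁) {t : ℝ} (h0 : 0 ≤ t) (h1 : t ≤ 1) :
    Valid V (gg h₁ t) :=
  (valid_self V).comb v₁ (by linarith) h0

lemma hullH_gg_zero (V : Finset E3) (h₁ : E3 → ℝ) : hullH V (gg h₁ 0) = hull V := by
  rw [← hullH_self V]
  congr 1
  funext v
  simp [gg]

lemma hullH_gg_one (V : Finset E3) (h₁ : E3 → ℝ) : hullH V (gg h₁ 1) = hullH V h₁ := by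
  congr 1
  funext v
  simp [gg]

lemma bar_gg (V : Finset E3) (w h₁ : E3 → ℝ) (t : ℝ) :
    bar V w (gg h₁ t) = (1 - t) * bar V w (fun v => v 2) + t * bar V w h₁ := by
  simp only [bar, gg, Finset.mul_sum]
  rw [← Finset.sum_add_distrib]
  apply Finset.sum_congr rfl
  intro v _
  ring

/-- Small height changes are small vertical perturbations. -/
lemma hullH_perturb {V : Finset E3} {g g' : E3 → ℝ} {B : ℝ} (hB : ∀ v ∈ V, |g' v - g v| ≤ B) {x : E3}
    (hx : x ∈ hullH V g') : ∃ x₁ ∈ hullH V g, ∃ s : ℝ, |s| ≤ B ∧ x = x₁ + s • e2 := by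
  obtain ⟨w, hw, h0, h1, h2⟩ := mem_hullH.1 hx
  refine ⟨![x 0, x 1, bar V w g], mem_hullH.2 ⟨w, hw, h0, h1, rfl⟩, bar V w g' - bar V w g, ?_, ?_⟩
  · have e : bar V w g' - bar V w g = ∑ v ∈ V, w v * (g' v - g v) := by
      simp only [bar]
      rw [← Finset.sum_sub_distrib]
      apply Finset.sum_congr rfl
      intro v _
      ring
    rw [e]
    calc |∑ v ∈ V, w v * (g' v - g v)| ≤ ∑ v ∈ V, |w v * (g' v - g v)| := Finset.abs_sum_le_sum_abs _ _
      _ = ∑ v ∈ V, w v * |g' v - g v| := by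
          apply Finset.sum_congr rfl
          intro v hv
          rw [abs_mul, abs_of_nonneg (hw.1 v hv)]
      _ ≤ ∑ v ∈ V, w v * B := Finset.sum_le_sum fun v hv =>
          mul_le_mul_of_nonneg_left (hB v hv) (hw.1 v hv)
      _ = B := by rw [← Finset.sum_mul, hw.2, one_mul]
  · apply ext3
    · simp [e2]
    · simp [e2]
    · simp [e2, h2]

/-- An interior point has a small vertical chord around it. -/
lemma chord_of_interior {A : Set E3} {z : E3} (hz : z ∈ interior A) :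
    ∃ ε : ℝ, 0 < ε ∧ z + ε • e2 ∈ A ∧ z + (-ε) • e2 ∈ A := by
  have hcont : Continuous (fun ε : ℝ => z + ε • e2) := by fun_prop
  have hopn := (isOpen_interior (s := A)).preimage hcont
  have h0 : (0 : ℝ) ∈ (fun ε : ℝ => z + ε • e2) ⁻¹' interior A := by
    simpa using hz
  obtain ⟨δ, hδ, hball⟩ := Metric.isOpen_iff.1 hopn 0 h0
  have h1 : δ / 2 ∈ Metric.ball (0 : ℝ) δ := by
    rw [Metric.mem_ball, Real.dist_eq, sub_zero, abs_of_pos (by positivity)]
    linarith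
  have h2 : -(δ / 2) ∈ Metric.ball (0 : ℝ) δ := by
    rw [Metric.mem_ball, Real.dist_eq, sub_zero, abs_neg, abs_of_pos (by positivity)]
    linarith
  exact ⟨δ / 2, by positivity, interior_subset (hball h1), interior_subset (hball h2)⟩

/-- The uniform chord along a family of heights. -/
lemma chord_family {V : Finset E3} {z : E3} (hz : z ∈ interior (hull V)) {h₁ : E3 → ℝ}
    (v₁ : Valid V h₁) (hi₁ : (interior (hullH V h₁)).Nonempty) :
    ∃ ℓ : ℝ, 0 < ℓ ∧ ∀ t, 0 ≤ t → t ≤ 1 → Chord (hullH V (gg h₁ t)) ℓ := by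
  have main : ∀ (w₀ : E3 → ℝ), Wt V w₀ → ∃ wp wm : E3 → ℝ,
      ∀ h, Valid V h → bar V wm h ≤ bar V wp h ∧ ∀ x : E3,
      x 0 = bar V w₀ (fun v => v 0) → x 1 = bar V w₀ (fun v => v 1) →
      (x ∈ hullH V h ↔ bar V wm h ≤ x 2 ∧ x 2 ≤ bar V wp h) := fun w₀ hw₀ => fibre_eq hz hw₀
  -- the chord at the first end
  obtain ⟨ε₀, hε₀, hp₀, hm₀⟩ := chord_of_interior hz
  rw [← hullH_self] at hp₀ hm₀
  have hz' : z ∈ hullH V (fun v => v 2) := by
    rw [hullH_self]
    exact interior_subset hz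
  obtain ⟨w₀, hw₀, a0, a1, -⟩ := mem_hullH.1 hz'
  obtain ⟨wp, wm, H⟩ := main w₀ hw₀
  have c₀ : 2 * ε₀ ≤ bar V wp (fun v => v 2) - bar V wm (fun v => v 2) := by
    obtain ⟨-, H2⟩ := H _ (valid_self V)
    have b1 := (H2 _ (by simp [e2, a0]) (by simp [e2, a1])).1 hp₀
    have b2 := (H2 _ (by simp [e2, a0]) (by simp [e2, a1])).1 hm₀
    simp [e2] at b1 b2
    linarith
  -- the chord at the second end
  obtain ⟨z₁, hz₁⟩ := hi₁
  obtain ⟨ε₁, hε₁, hp₁, hm₁⟩ := chord_of_interior hz₁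
  obtain ⟨w₁, hw₁, b0, b1, -⟩ := mem_hullH.1 (interior_subset hz₁)
  obtain ⟨wp₁, wm₁, H₁⟩ := main w₁ hw₁
  have c₁ : 2 * ε₁ ≤ bar V wp₁ h₁ - bar V wm₁ h₁ := by
    obtain ⟨-, H2⟩ := H₁ _ v₁
    have d1 := (H2 _ (by simp [e2, b0]) (by simp [e2, b1])).1 hp₁
    have d2 := (H2 _ (by simp [e2, b0]) (by simp [e2, b1])).1 hm₁
    simp [e2] at d1 d2
    linarith
  refine ⟨min ε₀ ε₁, lt_min hε₀ hε₁, ?_⟩
  intro t ht0 ht1
  have hv := gg_valid v₁ ht0 ht1
  have hm1 : min ε₀ ε₁ ≤ ε₀ := min_le_left _ _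
  have hm2 : min ε₀ ε₁ ≤ ε₁ := min_le_right _ _
  rcases le_total t (1 / 2) with ht | ht
  · -- use the first chord
    obtain ⟨H1, H2⟩ := H _ hv
    have g1 : 0 ≤ bar V wp h₁ - bar V wm h₁ := by linarith [(H _ v₁).1]
    have g2 : min ε₀ ε₁ ≤ bar V wp (gg h₁ t) - bar V wm (gg h₁ t) := by
      rw [bar_gg, bar_gg]
      have g3 := mul_nonneg ht0 g1
      have g4 : (1 / 2) * (2 * ε₀) ≤ (1 - t) * (bar V wp (fun v => v 2) - bar V wm (fun v => v 2)) :=
        mul_le_mul (by linarith) c₀ (by positivity) (by linarith)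
      nlinarith
    refine ⟨![bar V w₀ (fun v => v 0), bar V w₀ (fun v => v 1), bar V wm (gg h₁ t)], ?_, ?_⟩
    · exact (H2 _ rfl rfl).2 ⟨le_rfl, H1⟩
    · refine (H2 _ (by simp [e2]) (by simp [e2])).2 ?_
      simp [e2]
      constructor
      · exact ⟨hε₀.le, hε₁.le⟩
      · linarith
  · -- use the second chord
    obtain ⟨H1, H2⟩ := H₁ _ hv
    have g1 : 0 ≤ bar V wp₁ (fun v => v 2) - bar V wm₁ (fun v => v 2) := by
      linarith [(H₁ _ (valid_self V)).1]
    have g2 : min ε₀ ε₁ ≤ bar V wp₁ (gg h₁ t) - bar V wm₁ (gg h₁ t) := by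
      rw [bar_gg, bar_gg]
      have g3 := mul_nonneg (by linarith : 0 ≤ 1 - t) g1
      have g4 : (1 / 2) * (2 * ε₁) ≤ t * (bar V wp₁ h₁ - bar V wm₁ h₁) :=
        mul_le_mul ht c₁ (by positivity) ht0
      nlinarith
    refine ⟨![bar V w₁ (fun v => v 0), bar V w₁ (fun v => v 1), bar V wm₁ (gg h₁ t)], ?_, ?_⟩
    · exact (H2 _ rfl rfl).2 ⟨le_rfl, H1⟩
    · refine (H2 _ (by simp [e2]) (by simp [e2])).2 ?_
      simp [e2]
      constructor
      · exact ⟨hε₀.le, hε₁.le⟩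
      · linarith

/-- **The stopping point on a path of heights.** -/
theorem exists_stop {V : Finset E3} {z : E3} (hz : z ∈ interior (hull V)) {h₁ : E3 → ℝ}
    (v₁ : Valid V h₁) (hi₁ : (interior (hullH V h₁)).Nonempty) {l₁ l₂ : ℝ} (h0 : 1 < l₁)
    (hl : l₁ < l₂) (hnot : ¬ NearBody (hull V) l₂) :
    ∃ t : ℝ, 0 < t ∧ t ≤ 1 ∧ (interior (hullH V (gg h₁ t))).Nonempty ∧
      ¬ NearBody (hullH V (gg h₁ t)) l₁ ∧ (t = 1 ∨ NearBody (hullH V (gg h₁ t)) l₂) := by
  classical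
  obtain ⟨ℓ, hℓ, hch⟩ := chord_family hz v₁ hi₁
  set B : ℝ := ∑ v ∈ V, |h₁ v - v 2| with hB
  have hB0 : 0 ≤ B := Finset.sum_nonneg fun v _ => abs_nonneg _
  have hBv : ∀ v ∈ V, |h₁ v - v 2| ≤ B := fun v hv =>
    Finset.single_le_sum (f := fun v => |h₁ v - v 2|) (fun v _ => abs_nonneg _) hv
  set C : ℝ := 4 * l₁ / ℓ with hC
  have hC0 : 0 < C := by
    have : 0 < l₁ := by linarith
    positivity
  set κ₀ : ℝ := (l₂ - l₁) / (1 + l₂) with hκ₀
  have hl2 : 0 < 1 + l₂ := by linarith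
  have hκ₀0 : 0 < κ₀ := div_pos (by linarith) hl2
  have hκ₀1 : κ₀ < 1 := by
    rw [hκ₀, div_lt_one hl2]
    linarith
  obtain ⟨N, hN⟩ := exists_nat_gt (B * C / κ₀)
  have hNpos : (0 : ℝ) < N := lt_of_le_of_lt (by positivity) hN
  have hN0 : 0 < N := by exact_mod_cast hNpos
  let t : ℕ → ℝ := fun j => (j : ℝ) / N
  have ht0 : ∀ j, 0 ≤ t j := fun j => by positivity
  have ht1 : ∀ j, j ≤ N → t j ≤ 1 := by
    intro j hj
    simp only [t]
    rw [div_le_one hNpos]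
    exact_mod_cast hj
  have htN : t N = 1 := by
    simp only [t]
    field_simp
  have ht00 : t 0 = 0 := by simp [t]
  have hκ : B / N * C ≤ κ₀ := by
    have h1 : B * C / κ₀ < N := hN
    rw [div_lt_iff₀ hκ₀0] at h1
    rw [div_mul_eq_mul_div, div_le_iff₀ hNpos]
    linarith
  have hdiff : ∀ (j : ℕ) (v : E3), v ∈ V →
      |gg h₁ (t (j + 1)) v - gg h₁ (t j) v| ≤ B / N := by
    intro j v hv
    have e : gg h₁ (t (j + 1)) v - gg h₁ (t j) v = (1 / N) * (h₁ v - v 2) := by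
      simp only [gg, t]
      push_cast
      field_simp
      ring
    rw [e, abs_mul, abs_of_pos (by positivity : (0:ℝ) < 1 / N)]
    calc (1 / (N:ℝ)) * |h₁ v - v 2| ≤ (1 / (N:ℝ)) * B :=
          mul_le_mul_of_nonneg_left (hBv v hv) (by positivity)
      _ = B / N := by ring
  have marg : ∀ j, j < N → NearBody (hullH V (gg h₁ (t (j + 1)))) l₁ →
      NearBody (hullH V (gg h₁ (t j))) l₂ := by
    rintro j hj ⟨z', hz'⟩
    refine ⟨z', ?_⟩
    have key := near_perturb (hullH_convex V (gg h₁ (t (j + 1)))) (hullH_convex V (gg h₁ (t j)))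
      (ε := B / N) (by positivity) hℓ hz' (hch _ (ht0 _) (ht1 _ hj)) (by linarith)
      (fun x hx => hullH_perturb (fun v hv => by
        rw [abs_sub_comm]
        exact hdiff j v hv) hx)
      (fun x hx => hullH_perturb (fun v hv => hdiff j v hv) hx)
    refine key.mono ?_
    have h1 : 0 < 1 - B / N * C := by linarith
    rw [div_le_iff₀ h1]
    have h2 : (B / N * C) * (1 + l₂) ≤ l₂ - l₁ := by
      have : κ₀ * (1 + l₂) = l₂ - l₁ := by
        rw [hκ₀]
        field_simp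
      rw [← this]
      exact mul_le_mul_of_nonneg_right hκ hl2.le
    nlinarith
  by_cases hend : NearBody (hullH V h₁) l₁
  · let P : ℕ → Prop := fun j => NearBody (hullH V (gg h₁ (t j))) l₁
    have hPN : P N := by
      simp only [P]
      rw [htN, hullH_gg_one]
      exact hend
    have hex : ∃ j, P j := ⟨N, hPN⟩
    have hP0 : ¬ P 0 := by
      simp only [P]
      rw [ht00, hullH_gg_zero]
      exact fun h => hnot (h.mono hl.le)
    have hne : Nat.find hex ≠ 0 := by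
      intro h
      exact hP0 (h ▸ Nat.find_spec hex)
    obtain ⟨j, hj⟩ := Nat.exists_eq_succ_of_ne_zero hne
    have hle : Nat.find hex ≤ N := Nat.find_min' hex hPN
    have hjN : j < N := by omega
    have hPj : ¬ P j := Nat.find_min hex (by omega)
    have hPj1 : P (j + 1) := by
      have := Nat.find_spec hex
      rw [hj] at this
      exact this
    have hnear := marg j hjN hPj1
    have hj0 : j ≠ 0 := by
      rintro rfl
      rw [ht00, hullH_gg_zero] at hnear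
      exact hnot hnear
    refine ⟨t j, ?_, ht1 j hjN.le, ?_, hPj, Or.inr hnear⟩
    · simp only [t]
      have : (0 : ℝ) < j := by exact_mod_cast Nat.pos_of_ne_zero hj0
      positivity
    · obtain ⟨z', hz'⟩ := hnear
      exact ⟨z', hz'.mem_interior (hullH_convex _ _)⟩
  · refine ⟨1, one_pos, le_rfl, ?_, ?_, Or.inl rfl⟩
    · rw [hullH_gg_one]
      exact hi₁
    · rw [hullH_gg_one]
      exact hend

end Vale.Agent.Lib.P248
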