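import Vale.Agent.Lib.P248.LAB1
import Vale.Agent.Lib.P248.PL4

open MeasureTheory Set Function
open scoped ENNReal Pointwise

namespace Vale.Agent.Lib.P248

variable {d : ℕ} {j : Fin (d + 1)} {W : Set (Fin (d + 1) → ℝ)}

lemma sl_subset_box {C : ℝ} (hWb : ∀ y ∈ W, ∀ i, |y i| ≤ C) (t : ℝ) :
    sl j W t ⊆ Set.pi univ (fun _ => Icc (-C) C) := by
  intro y hy k _
  have := hWb _ hy (j.succAbove k)
  rw [ins_apply_succAbove] at this
  exact abs_le.mp this

lemma volume_sl_ne_top {C : ℝ} (hWb : ∀ y ∈ W, ∀ i, |y i| ≤ C) (t : ℝ) :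
    volume (sl j W t) ≠ ⊤ := by
  have hc : IsCompact (Set.pi univ (fun _ : Fin d => Icc (-C) C)) :=
    isCompact_univ_pi (fun _ => isCompact_Icc)
  exact ((measure_mono (sl_subset_box hWb t)).trans_lt hc.measure_lt_top).ne

lemma sl_eq_empty {C : ℝ} (hWb : ∀ y ∈ W, ∀ i, |y i| ≤ C) {t : ℝ} (ht : C < t) :
    sl j W t = ∅ := by
  ext y
  simp only [mem_empty_iff_false, iff_false]
  intro hy
  have := hWb _ hy j
  rw [ins_apply_same] at this
  have := le_abs_self t
  linarith

lemma volume_polar_ne_top {K : Set (Fin (d + 1) → ℝ)} {z : Fin (d + 1) → ℝ}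
    (hz : z ∈ interior K) : volume (polarAt K z) ≠ ⊤ := by
  obtain ⟨C, hC⟩ := polarAt_bounded hz
  have hc : IsCompact (Set.pi univ (fun _ : Fin (d + 1) => Icc (-C) C)) :=
    isCompact_univ_pi (fun _ => isCompact_Icc)
  refine ((measure_mono ?_).trans_lt hc.measure_lt_top).ne
  intro y hy i _
  exact abs_le.mp (hC y hy i)

/-- The reflection in the coordinate `j`. -/
def fl (j : Fin (d + 1)) (x : Fin (d + 1) → ℝ) : Fin (d + 1) → ℝ := update x j (-x j)

lemma fl_apply_self (x : Fin (d + 1) → ℝ) : fl j x j = -x j := by simp [fl]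

lemma fl_apply_ne (x : Fin (d + 1) → ℝ) {i : Fin (d + 1)} (hi : i ≠ j) : fl j x i = x i := by
  simp [fl, hi]

lemma fl_apply_succAbove (x : Fin (d + 1) → ℝ) (k : Fin d) :
    fl j x (j.succAbove k) = x (j.succAbove k) :=
  fl_apply_ne x (Fin.succAbove_ne j k)

lemma fl_fl (x : Fin (d + 1) → ℝ) : fl j (fl j x) = x := by
  ext i
  by_cases hi : i = j
  · subst hi; simp [fl_apply_self]
  · simp [fl_apply_ne, hi]

lemma fl_continuous : Continuous (fl j : (Fin (d + 1) → ℝ) → Fin (d + 1) → ℝ) :=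
  continuous_id.update j (continuous_apply j).neg

lemma fl_combo (a b : ℝ) (x y : Fin (d + 1) → ℝ) :
    fl j (a • x + b • y) = a • fl j x + b • fl j y := by
  ext i
  by_cases hi : i = j
  · subst hi; simp [fl_apply_self]; ring
  · simp [fl_apply_ne, hi]

lemma fl_ins (s : ℝ) (y : Fin d → ℝ) : fl j (ins j s y) = ins j (-s) y := by
  ext i
  rcases Fin.eq_self_or_eq_succAbove j i with rfl | ⟨k, rfl⟩
  · simp [fl_apply_self]
  · simp [fl_apply_succAbove]

lemma fl_update_zero (x : Fin (d + 1) → ℝ) : fl j (update x j 0) = update (fl j x) j 0 := by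
  ext i
  by_cases hi : i = j
  · subst hi; simp [fl_apply_self]
  · simp [fl_apply_ne, hi]

lemma fl_measurePreserving :
    MeasurePreserving (fl j : (Fin (d + 1) → ℝ) → Fin (d + 1) → ℝ) volume volume := by
  have h := volume_preserving_pi (ι := Fin (d + 1)) (α' := fun _ => ℝ) (β' := fun _ => ℝ)
    (f := fun i => if i = j then Neg.neg else id) (by
      intro i
      by_cases hi : i = j
      · simp only [hi, if_true]
        exact Measure.measurePreserving_neg volume
      · simp only [hi, if_false]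
        exact MeasurePreserving.id volume)
  have e : (fl j : (Fin (d + 1) → ℝ) → Fin (d + 1) → ℝ)
      = fun a i => (if i = j then Neg.neg else id : ℝ → ℝ) (a i) := by
    ext x i
    by_cases hi : i = j
    · subst hi; simp [fl_apply_self]
    · simp [fl_apply_ne, hi]
  rw [e]
  exact h

lemma fl_measurable : Measurable (fl j : (Fin (d + 1) → ℝ) → Fin (d + 1) → ℝ) :=
  fl_continuous.measurable

lemma volume_fl_preimage {S : Set (Fin (d + 1) → ℝ)} (hS : MeasurableSet S) :
    volume ((fl j) ⁻¹' S) = volume S :=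
  fl_measurePreserving.measure_preimage hS.nullMeasurableSet

lemma sum_fl (y x z : Fin (d + 1) → ℝ) :
    ∑ i, fl j y i * (x i - z i) = ∑ i, y i * (fl j x i - fl j z i) := by
  rw [Fin.sum_univ_succAbove _ j, Fin.sum_univ_succAbove (fun i => y i * (fl j x i - fl j z i)) j]
  simp only [fl_apply_self, fl_apply_succAbove]
  ring

lemma polar_fl (K : Set (Fin (d + 1) → ℝ)) (z : Fin (d + 1) → ℝ) :
    polarAt ((fl j) ⁻¹' K) (fl j z) = (fl j) ⁻¹' polarAt K z := by
  ext y
  constructor
  · intro hy x hx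
    rw [sum_fl]
    apply hy
    show fl j (fl j x) ∈ K
    rwa [fl_fl]
  · intro hy x hx
    have := hy (fl j x) hx
    rw [sum_fl, fl_fl] at this
    exact this

lemma isCompact_fl {d : ℕ} {j : Fin (d + 1)} {K : Set (Fin (d + 1) → ℝ)} (hK : IsCompact K) :
    IsCompact ((fl j) ⁻¹' K) := by
  have himg : (fl j) ⁻¹' K = fl j '' K := by
    ext x
    constructor
    · intro hx
      exact ⟨fl j x, hx, fl_fl x⟩
    · rintro ⟨y, hy, rfl⟩
      show fl j (fl j y) ∈ K
      rwa [fl_fl]
  rw [himg]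
  exact hK.image fl_continuous

lemma convex_fl {d : ℕ} {j : Fin (d + 1)} {K : Set (Fin (d + 1) → ℝ)} (hc : Convex ℝ K) :
    Convex ℝ ((fl j) ⁻¹' K) := by
  intro x hx y hy a b ha hb hab
  show fl j (a • x + b • y) ∈ K
  rw [fl_combo]
  exact hc hx hy ha hb hab

end Vale.Agent.Lib.P248
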