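import Vale.Agent.Lib.P248.PL4

open MeasureTheory Set
open scoped ENNReal

namespace Vale.Agent.Lib.P248

set_option linter.unusedSectionVars false

variable {V : Type*} [Fintype V]

/-- Gauge-like functions: continuous, nonnegative, positively homogeneous, subadditive, and with
bounded symmetrized sublevel sets. -/
structure IsGaugeFn (a : (V → ℝ) → ℝ) : Prop where
  cont : Continuous a
  nonneg : ∀ x, 0 ≤ a x
  smul : ∀ r : ℝ, 0 ≤ r → ∀ x, a (r • x) = r * a x
  add_le : ∀ x y, a (x + y) ≤ a x + a y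
  bdd : ∃ C : ℝ, ∀ x i, |x i| ≤ C * (a x + a (-x))

/-- The set of `x` with `a x ≤ u` and `a (-x) ≤ v`. -/
def slab (a : (V → ℝ) → ℝ) (u v : ℝ) : Set (V → ℝ) := {x | a x ≤ u ∧ a (-x) ≤ v}

/-- The section function. -/
noncomputable def gfun (a : (V → ℝ) → ℝ) (l : ℝ) : ℝ≥0∞ := volume (slab a l (1 - l))

/-- The integral of the section function. -/
noncomputable def Zval (a : (V → ℝ) → ℝ) : ℝ≥0∞ := ∫⁻ l : ℝ, gfun a l

/-- The exponential integral. -/
noncomputable def Tval (a : (V → ℝ) → ℝ) : ℝ≥0∞ :=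
  ∫⁻ x, ENNReal.ofReal (Real.exp (-(a x + a (-x))))

/-- The region over which `Zval` integrates. -/
def wedge (a : (V → ℝ) → ℝ) (c : ℝ) : Set (ℝ × (V → ℝ)) :=
  {p | a p.2 ≤ p.1 ∧ a (-p.2) ≤ c - p.1}

namespace IsGaugeFn

variable {a : (V → ℝ) → ℝ} (ha : IsGaugeFn a)
include ha

lemma isClosed_slab (u v : ℝ) : IsClosed (slab a u v) := by
  have h1 : IsClosed {x : V → ℝ | a x ≤ u} := isClosed_le ha.cont continuous_const
  have h2 : IsClosed {x : V → ℝ | a (-x) ≤ v} :=
    isClosed_le (ha.cont.comp continuous_neg) continuous_const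
  exact h1.inter h2

lemma measurableSet_slab (u v : ℝ) : MeasurableSet (slab a u v) :=
  (ha.isClosed_slab u v).measurableSet

lemma isClosed_wedge (c : ℝ) : IsClosed (wedge a c) := by
  have h1 : IsClosed {p : ℝ × (V → ℝ) | a p.2 ≤ p.1} :=
    isClosed_le (ha.cont.comp continuous_snd) continuous_fst
  have h2 : IsClosed {p : ℝ × (V → ℝ) | a (-p.2) ≤ c - p.1} :=
    isClosed_le (ha.cont.comp (continuous_snd.neg)) (continuous_const.sub continuous_fst)
  exact h1.inter h2

lemma measurableSet_wedge (c : ℝ) : MeasurableSet (wedge a c) :=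
  (ha.isClosed_wedge c).measurableSet

lemma isBounded_slab (u v : ℝ) : Bornology.IsBounded (slab a u v) := by
  obtain ⟨C, hC⟩ := ha.bdd
  rw [isBounded_iff_forall_norm_le]
  refine ⟨|C| * (|u| + |v|), ?_⟩
  intro x hx
  rw [pi_norm_le_iff_of_nonneg (by positivity)]
  intro i
  have h1 : a x ≤ |u| := hx.1.trans (le_abs_self u)
  have h2 : a (-x) ≤ |v| := hx.2.trans (le_abs_self v)
  have h3 := hC x i
  have h4 : 0 ≤ a x + a (-x) := add_nonneg (ha.nonneg _) (ha.nonneg _)
  rw [Real.norm_eq_abs]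
  calc |x i| ≤ C * (a x + a (-x)) := h3
    _ ≤ |C| * (a x + a (-x)) := by gcongr; exact le_abs_self C
    _ ≤ |C| * (|u| + |v|) := by gcongr

lemma volume_slab_lt_top (u v : ℝ) : volume (slab a u v) < ∞ :=
  (ha.isBounded_slab u v).measure_lt_top

lemma measurable_gfun : Measurable (gfun a) := by
  have : gfun a = fun l => volume (Prod.mk l ⁻¹' (wedge a 1)) := rfl
  rw [this]
  exact measurable_measure_prodMk_left (ha.measurableSet_wedge 1)

lemma gfun_lt_top (l : ℝ) : gfun a l < ∞ := ha.volume_slab_lt_top _ _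

lemma slab_neg (u v : ℝ) : slab a v u = Neg.neg ⁻¹' (slab a u v) := by
  ext x
  simp only [slab, mem_ofPred_eq, mem_preimage, neg_neg]
  exact and_comm

lemma volume_slab_swap (u v : ℝ) : volume (slab a v u) = volume (slab a u v) := by
  rw [ha.slab_neg u v]
  exact Measure.measure_preimage_neg volume _

lemma gfun_symm (l : ℝ) : gfun a (1 - l) = gfun a l := by
  unfold gfun
  rw [sub_sub_cancel]
  exact ha.volume_slab_swap _ _

lemma gfun_eq_zero_of_not_mem {l : ℝ} (hl : l ∉ Icc (0:ℝ) 1) : gfun a l = 0 := by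
  have : slab a l (1 - l) = ∅ := by
    ext x
    simp only [slab, mem_ofPred_eq, mem_empty_iff_false, iff_false, not_and, not_le]
    intro h1
    have h0 : 0 ≤ l := (ha.nonneg x).trans h1
    have : 1 < l := by
      by_contra hcon
      exact hl ⟨h0, not_lt.mp hcon⟩
    exact lt_of_lt_of_le (by linarith) (ha.nonneg _)
  simp [gfun, this]

/-- Brunn's theorem for the sections. -/
lemma gfun_mono {l m : ℝ} (hlm : l ≤ m) (hm : m ≤ 1 / 2) : gfun a l ≤ gfun a m := by
  rcases hlm.eq_or_lt with rfl | hlt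
  · exact le_rfl
  set θ : ℝ := (1 - l - m) / (1 - 2 * l) with hθ
  have hd : 0 < 1 - 2 * l := by linarith
  have h0 : 0 < θ := by
    apply div_pos _ hd
    linarith
  have h1 : θ < 1 := by
    rw [hθ, div_lt_one hd]
    linarith
  have hd' : 1 - 2 * l ≠ 0 := hd.ne'
  have hθeq : θ * (1 - 2 * l) = 1 - l - m := by
    rw [hθ, div_mul_cancel₀ _ hd']
  have hm' : θ * l + (1 - θ) * (1 - l) = m := by
    linear_combination (-1) * hθeq
  have hm'' : θ * (1 - l) + (1 - θ) * l = 1 - m := by
    linear_combination hθeq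
  have h1' : 0 < 1 - θ := by linarith
  have key := brunn_minkowski_mul (θ := θ) (ha.measurableSet_slab l (1 - l))
    (ha.measurableSet_slab (1 - l) l) (ha.measurableSet_slab m (1 - m)) h0 h1 (by
      rintro x ⟨hx1, hx2⟩ y ⟨hy1, hy2⟩
      constructor
      · calc a (θ • x + (1 - θ) • y) ≤ a (θ • x) + a ((1 - θ) • y) := ha.add_le _ _
          _ = θ * a x + (1 - θ) * a y := by rw [ha.smul _ h0.le, ha.smul _ h1'.le]
          _ ≤ θ * l + (1 - θ) * (1 - l) := by gcongr
          _ = m := hm'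
      · have e : -(θ • x + (1 - θ) • y) = θ • (-x) + (1 - θ) • (-y) := by
          simp [smul_neg]; abel
        rw [e]
        calc a (θ • (-x) + (1 - θ) • (-y)) ≤ a (θ • (-x)) + a ((1 - θ) • (-y)) := ha.add_le _ _
          _ = θ * a (-x) + (1 - θ) * a (-y) := by rw [ha.smul _ h0.le, ha.smul _ h1'.le]
          _ ≤ θ * (1 - l) + (1 - θ) * l := by gcongr
          _ = 1 - m := hm'')
  have hsw : volume (slab a (1 - l) l) = volume (slab a l (1 - l)) := ha.volume_slab_swap _ _
  rw [hsw] at key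
  set A := volume (slab a l (1 - l)) with hA
  have hAtop : A ≠ ∞ := (ha.volume_slab_lt_top _ _).ne
  by_cases hA0 : A = 0
  · unfold gfun
    rw [← hA, hA0]
    exact bot_le
  have e2 : A ^ θ * A ^ (1 - θ) = A := by
    rw [← ENNReal.rpow_add _ _ hA0 hAtop]
    simp
  rw [e2] at key
  exact key

/-- The sections are similarly ordered: smaller distance to `1/2` means a larger section. -/
lemma gfun_le_of_dist {s t : ℝ} (hst : |t - 1 / 2| ≤ |s - 1 / 2|) : gfun a s ≤ gfun a t := by
  -- replace `s, t` by their reflections below `1/2`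
  have hs' : gfun a s = gfun a (min s (1 - s)) := by
    rcases le_total s (1 - s) with h | h
    · rw [min_eq_left h]
    · rw [min_eq_right h, ha.gfun_symm]
  have ht' : gfun a t = gfun a (min t (1 - t)) := by
    rcases le_total t (1 - t) with h | h
    · rw [min_eq_left h]
    · rw [min_eq_right h, ha.gfun_symm]
  rw [hs', ht']
  refine ha.gfun_mono ?_ ?_
  · have h1 : min s (1 - s) = 1 / 2 - |s - 1 / 2| := by
      rcases le_total s (1 / 2) with h | h
      · rw [min_eq_left (by linarith), abs_of_nonpos (by linarith)]; ring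
      · rw [min_eq_right (by linarith), abs_of_nonneg (by linarith)]; ring
    have h2 : min t (1 - t) = 1 / 2 - |t - 1 / 2| := by
      rcases le_total t (1 / 2) with h | h
      · rw [min_eq_left (by linarith), abs_of_nonpos (by linarith)]; ring
      · rw [min_eq_right (by linarith), abs_of_nonneg (by linarith)]; ring
    rw [h1, h2]
    linarith
  · rcases le_total t (1 - t) with h | h
    · rw [min_eq_left h]; linarith
    · rw [min_eq_right h]; linarith

lemma Zval_eq_Icc : Zval a = ∫⁻ l in Icc (0:ℝ) 1, gfun a l := by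
  unfold Zval
  rw [← lintegral_indicator measurableSet_Icc]
  apply lintegral_congr
  intro l
  by_cases hl : l ∈ Icc (0:ℝ) 1
  · simp [hl]
  · simp [hl, ha.gfun_eq_zero_of_not_mem hl]

lemma Zval_lt_top : Zval a < ∞ := by
  rw [ha.Zval_eq_Icc]
  have hb : ∀ l ∈ Icc (0:ℝ) 1, gfun a l ≤ volume (slab a 1 1) := by
    intro l hl
    apply measure_mono
    rintro x ⟨h1, h2⟩
    exact ⟨h1.trans hl.2, h2.trans (by linarith [hl.1])⟩
  calc ∫⁻ l in Icc (0:ℝ) 1, gfun a l ≤ ∫⁻ _l in Icc (0:ℝ) 1, volume (slab a 1 1) :=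
        setLIntegral_mono' measurableSet_Icc hb
    _ = volume (slab a 1 1) := by simp
    _ < ∞ := ha.volume_slab_lt_top _ _

end IsGaugeFn

/-- Chebyshev's integral inequality on `[0,1]` for similarly ordered functions. -/
lemma chebyshev_Icc {f g : ℝ → ℝ≥0∞} (hf : Measurable f) (hg : Measurable g)
    (H : ∀ s t : ℝ, (f s ≤ f t ∧ g s ≤ g t) ∨ (f t ≤ f s ∧ g t ≤ g s)) :
    (∫⁻ s in Icc (0:ℝ) 1, f s) * (∫⁻ s in Icc (0:ℝ) 1, g s) ≤ ∫⁻ s in Icc (0:ℝ) 1, f s * g s := by
  set μ : Measure ℝ := volume.restrict (Icc (0:ℝ) 1) with hμ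
  have hμ1 : μ univ = 1 := by simp [hμ]
  have : IsFiniteMeasure μ := ⟨by rw [hμ1]; simp⟩
  -- the pointwise inequality
  have point : ∀ s t, f s * g t + f t * g s ≤ f s * g s + f t * g t := by
    intro s t
    rcases H s t with ⟨h1, h2⟩ | ⟨h1, h2⟩
    · obtain ⟨c, hc⟩ := exists_add_of_le h1
      obtain ⟨d, hd⟩ := exists_add_of_le h2
      rw [hc, hd]
      calc f s * (g s + d) + (f s + c) * g s
          = f s * g s + (f s + c) * g s + f s * d := by ring
        _ ≤ f s * g s + (f s + c) * g s + f s * d + c * d := le_self_add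
        _ = f s * g s + (f s + c) * (g s + d) := by ring
    · obtain ⟨c, hc⟩ := exists_add_of_le h1
      obtain ⟨d, hd⟩ := exists_add_of_le h2
      rw [hc, hd]
      calc (f t + c) * g t + f t * (g t + d)
          = f t * g t + (f t + c) * g t + f t * d := by ring
        _ ≤ f t * g t + (f t + c) * g t + f t * d + c * d := le_self_add
        _ = (f t + c) * (g t + d) + f t * g t := by ring
  -- integrate
  have I1 : ∫⁻ s, ∫⁻ t, (f s * g t + f t * g s) ∂μ ∂μ =
      2 * ((∫⁻ s, f s ∂μ) * (∫⁻ s, g s ∂μ)) := by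
    have e1 : ∀ s, ∫⁻ t, (f s * g t + f t * g s) ∂μ =
        f s * (∫⁻ t, g t ∂μ) + (∫⁻ t, f t ∂μ) * g s := by
      intro s
      rw [lintegral_add_left (hg.const_mul _), lintegral_const_mul _ hg,
        lintegral_mul_const _ hf]
    simp_rw [e1]
    rw [lintegral_add_left (hf.mul_const _), lintegral_mul_const _ hf,
      lintegral_const_mul _ hg, two_mul]
  have I2 : ∫⁻ s, ∫⁻ t, (f s * g s + f t * g t) ∂μ ∂μ = 2 * (∫⁻ s, f s * g s ∂μ) := by
    have e1 : ∀ s, ∫⁻ t, (f s * g s + f t * g t) ∂μ =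
        f s * g s + ∫⁻ t, f t * g t ∂μ := by
      intro s
      rw [lintegral_add_left measurable_const, lintegral_const, hμ1, mul_one]
    simp_rw [e1]
    rw [lintegral_add_left (show Measurable fun s => f s * g s from hf.mul hg),
      lintegral_const, hμ1, mul_one, two_mul]
  have key : 2 * ((∫⁻ s, f s ∂μ) * (∫⁻ s, g s ∂μ)) ≤ 2 * (∫⁻ s, f s * g s ∂μ) := by
    rw [← I1, ← I2]
    exact lintegral_mono fun s => lintegral_mono fun t => point s t
  exact (ENNReal.mul_le_mul_iff_right (by norm_num) (by norm_num)).mp key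

end Vale.Agent.Lib.P248
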