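import Vale.Agent.Lib.P248.Gauge1

open MeasureTheory Set
open scoped ENNReal Pointwise

namespace Vale.Agent.Lib.P248

set_option linter.unusedSectionVars false

/-- Gamma integral in lower Lebesgue form. -/
lemma lintegral_exp_mul_ofReal_pow (m : ℕ) (hm : 1 ≤ m) :
    ∫⁻ c : ℝ, ENNReal.ofReal (Real.exp (-c)) * (ENNReal.ofReal c) ^ m = (m.factorial : ℝ≥0∞) := by
  have e : ∀ c : ℝ, ENNReal.ofReal (Real.exp (-c)) * (ENNReal.ofReal c) ^ m =
      indicator (Ioi (0:ℝ)) (fun c => ENNReal.ofReal (Real.exp (-c) * c ^ m)) c := by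
    intro c
    by_cases hc : c ∈ Ioi (0:ℝ)
    · have hc' : (0:ℝ) < c := hc
      rw [indicator_of_mem hc, ENNReal.ofReal_mul (Real.exp_pos _).le,
        ENNReal.ofReal_pow hc'.le]
    · have hc' : c ≤ 0 := not_lt.mp hc
      rw [indicator_of_notMem hc, ENNReal.ofReal_of_nonpos hc',
        zero_pow (by omega), mul_zero]
  simp_rw [e]
  rw [lintegral_indicator measurableSet_Ioi]
  have hs : (0:ℝ) < (m:ℝ) + 1 := by positivity
  have hI := Real.GammaIntegral_convergent hs
  have e2 : ∀ x : ℝ, x ∈ Ioi (0:ℝ) → Real.exp (-x) * x ^ ((m:ℝ) + 1 - 1) = Real.exp (-x) * x ^ m := by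
    intro x _
    rw [add_sub_cancel_right, Real.rpow_natCast]
  have hI' : IntegrableOn (fun x : ℝ => Real.exp (-x) * x ^ m) (Ioi 0) :=
    hI.congr_fun e2 measurableSet_Ioi
  rw [← ofReal_integral_eq_lintegral_ofReal hI']
  · have hG := Real.Gamma_eq_integral hs
    rw [add_sub_cancel_right] at hG
    have e3 : ∫ x in Ioi (0:ℝ), Real.exp (-x) * x ^ m = (m.factorial : ℝ) := by
      rw [← Real.Gamma_nat_eq_factorial, hG]
      apply setIntegral_congr_fun measurableSet_Ioi
      intro x _
      simp
    rw [e3]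
    simp
  · filter_upwards [ae_restrict_mem measurableSet_Ioi] with x hx
    have : (0:ℝ) < x := hx
    simp only [Pi.zero_apply]
    positivity

/-- The shifted first moment of the exponential. -/
lemma lintegral_exp_mul_ofReal_sub (N : ℝ) :
    ∫⁻ c : ℝ, ENNReal.ofReal (Real.exp (-c)) * ENNReal.ofReal (c - N) =
      ENNReal.ofReal (Real.exp (-N)) := by
  have h1 := lintegral_exp_mul_ofReal_pow 1 le_rfl
  have hshift := lintegral_add_right_eq_self
    (μ := (volume : Measure ℝ))
    (fun c : ℝ => ENNReal.ofReal (Real.exp (-c)) * ENNReal.ofReal (c - N)) N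
  rw [← hshift]
  have e : ∀ u : ℝ, ENNReal.ofReal (Real.exp (-(u + N))) * ENNReal.ofReal (u + N - N)
      = ENNReal.ofReal (Real.exp (-N)) * (ENNReal.ofReal (Real.exp (-u)) * ENNReal.ofReal u) := by
    intro u
    rw [add_sub_cancel_right, neg_add, Real.exp_add, ENNReal.ofReal_mul (Real.exp_pos _).le]
    ring
  simp_rw [e]
  rw [lintegral_const_mul]
  · simp only [pow_one] at h1
    rw [h1]
    simp
  · exact (ENNReal.measurable_ofReal.comp (Real.continuous_exp.comp continuous_neg).measurable).mul
      ENNReal.measurable_ofReal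

variable {V : Type*} [Fintype V]

namespace IsGaugeFn

variable {a : (V → ℝ) → ℝ} (ha : IsGaugeFn a)
include ha

lemma volume_wedge_eq (c : ℝ) :
    volume (wedge a c) = ∫⁻ x, ENNReal.ofReal (c - (a x + a (-x))) := by
  rw [Measure.volume_eq_prod, Measure.prod_apply_symm (ha.measurableSet_wedge c)]
  apply lintegral_congr
  intro x
  have : (fun t : ℝ => (t, x)) ⁻¹' wedge a c = Icc (a x) (c - a (-x)) := by
    ext t
    simp only [wedge, mem_preimage, mem_ofPred_eq, mem_Icc]
    constructor
    · rintro ⟨h1, h2⟩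
      exact ⟨h1, by linarith⟩
    · rintro ⟨h1, h2⟩
      exact ⟨h1, by linarith⟩
  rw [this, Real.volume_Icc]
  congr 1
  ring

lemma volume_wedge_one : volume (wedge a 1) = Zval a := by
  rw [Measure.volume_eq_prod, Measure.prod_apply (ha.measurableSet_wedge 1)]
  rfl

lemma wedge_scale {c : ℝ} (hc : 0 < c) : wedge a c = c • wedge a 1 := by
  ext p
  rw [Set.mem_smul_set_iff_inv_smul_mem₀ hc.ne']
  simp only [wedge, mem_ofPred_eq, Prod.smul_fst, Prod.smul_snd, smul_eq_mul]
  have hi : 0 < c⁻¹ := inv_pos.mpr hc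
  rw [ha.smul _ hi.le, ← smul_neg, ha.smul _ hi.le]
  constructor
  · rintro ⟨h1, h2⟩
    constructor
    · exact mul_le_mul_of_nonneg_left h1 hi.le
    · have : c⁻¹ * a (-p.2) ≤ c⁻¹ * (c - p.1) := mul_le_mul_of_nonneg_left h2 hi.le
      have e : c⁻¹ * (c - p.1) = 1 - c⁻¹ * p.1 := by field_simp
      linarith
  · rintro ⟨h1, h2⟩
    constructor
    · exact (mul_le_mul_iff_right₀ hi).mp h1
    · have e : c⁻¹ * (c - p.1) = 1 - c⁻¹ * p.1 := by field_simp
      apply (mul_le_mul_iff_right₀ hi).mp
      linarith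

lemma volume_wedge_scale (c : ℝ) : volume (wedge a c) =
    (ENNReal.ofReal c) ^ (Fintype.card V + 1) * Zval a := by
  rcases le_or_gt c 0 with hc | hc
  · rw [ENNReal.ofReal_of_nonpos hc, zero_pow (by omega), zero_mul, ha.volume_wedge_eq]
    have : ∀ x, ENNReal.ofReal (c - (a x + a (-x))) = 0 := by
      intro x
      apply ENNReal.ofReal_of_nonpos
      have h1 := ha.nonneg x
      have h2 := ha.nonneg (-x)
      linarith
    simp [this]
  · rw [ha.wedge_scale hc, Measure.volume_eq_prod, Measure.addHaar_smul,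
      ← Measure.volume_eq_prod, ha.volume_wedge_one]
    congr 1
    have : Module.finrank ℝ (ℝ × (V → ℝ)) = Fintype.card V + 1 := by
      simp [add_comm]
    rw [this, abs_of_pos (by positivity), ENNReal.ofReal_pow hc.le]

/-- The exponential integral in terms of the section integral. -/
theorem Tval_eq : Tval a = ((Fintype.card V + 1).factorial : ℝ≥0∞) * Zval a := by
  have hN : Continuous fun x => a x + a (-x) := ha.cont.add (ha.cont.comp continuous_neg)
  have hm : Measurable (Function.uncurry fun (x : V → ℝ) (c : ℝ) =>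
      ENNReal.ofReal (Real.exp (-c)) * ENNReal.ofReal (c - (a x + a (-x)))) := by
    change Measurable fun p : (V → ℝ) × ℝ =>
      ENNReal.ofReal (Real.exp (-p.2)) * ENNReal.ofReal (p.2 - (a p.1 + a (-p.1)))
    exact (ENNReal.measurable_ofReal.comp
      (Real.continuous_exp.comp continuous_snd.neg).measurable).mul
      (ENNReal.measurable_ofReal.comp
        (continuous_snd.sub (hN.comp continuous_fst)).measurable)
  calc Tval a
      = ∫⁻ x, ∫⁻ c : ℝ, ENNReal.ofReal (Real.exp (-c)) * ENNReal.ofReal (c - (a x + a (-x))) := by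
        unfold Tval
        apply lintegral_congr
        intro x
        rw [lintegral_exp_mul_ofReal_sub]
    _ = ∫⁻ c : ℝ, ∫⁻ x, ENNReal.ofReal (Real.exp (-c)) * ENNReal.ofReal (c - (a x + a (-x))) := by
        rw [lintegral_lintegral_swap]
        exact hm.aemeasurable
    _ = ∫⁻ c : ℝ, ENNReal.ofReal (Real.exp (-c)) * (ENNReal.ofReal c) ^ (Fintype.card V + 1) * Zval a := by
        apply lintegral_congr
        intro c
        rw [lintegral_const_mul]
        · rw [← ha.volume_wedge_eq, ha.volume_wedge_scale, mul_assoc]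
        · apply ENNReal.measurable_ofReal.comp
          exact (continuous_const.sub hN).measurable
    _ = ((Fintype.card V + 1).factorial : ℝ≥0∞) * Zval a := by
        rw [lintegral_mul_const, lintegral_exp_mul_ofReal_pow _ (by omega)]
        exact (ENNReal.measurable_ofReal.comp
          (Real.continuous_exp.comp continuous_neg).measurable).mul
            (ENNReal.measurable_ofReal.pow_const _)

end IsGaugeFn

end Vale.Agent.Lib.P248
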