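import Vale.Agent.Lib.P248.Gauge2

open MeasureTheory Set
open scoped ENNReal

namespace Vale.Agent.Lib.P248

set_option linter.unusedSectionVars false

variable {V W : Type*} [Fintype V] [Fintype W]

/-- Gauge of a product of bodies. -/
def maxG (a : (V → ℝ) → ℝ) (b : (W → ℝ) → ℝ) : (V ⊕ W → ℝ) → ℝ :=
  fun x => max (a (fun i => x (Sum.inl i))) (b (fun j => x (Sum.inr j)))

/-- Gauge of a join of bodies. -/
def sumG (a : (V → ℝ) → ℝ) (b : (W → ℝ) → ℝ) : (V ⊕ W → ℝ) → ℝ :=
  fun x => a (fun i => x (Sum.inl i)) + b (fun j => x (Sum.inr j))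

lemma continuous_inl_part : Continuous fun x : V ⊕ W → ℝ => fun i => x (Sum.inl i) :=
  continuous_pi fun _ => continuous_apply _

lemma continuous_inr_part : Continuous fun x : V ⊕ W → ℝ => fun j => x (Sum.inr j) :=
  continuous_pi fun _ => continuous_apply _

variable {a : (V → ℝ) → ℝ} {b : (W → ℝ) → ℝ}

lemma IsGaugeFn.maxG (ha : IsGaugeFn a) (hb : IsGaugeFn b) : IsGaugeFn (maxG a b) where
  cont := (ha.cont.comp continuous_inl_part).max (hb.cont.comp continuous_inr_part)
  nonneg := fun x => le_max_of_le_left (ha.nonneg _)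
  smul := by
    intro r hr x
    have e1 : (fun i => (r • x) (Sum.inl i)) = r • fun i => x (Sum.inl i) := rfl
    have e2 : (fun j => (r • x) (Sum.inr j)) = r • fun j => x (Sum.inr j) := rfl
    simp only [Vale.Agent.Lib.P248.maxG]
    rw [e1, e2, ha.smul r hr, hb.smul r hr, mul_max_of_nonneg _ _ hr]
  add_le := by
    intro x y
    simp only [Vale.Agent.Lib.P248.maxG]
    have e1 : (fun i => (x + y) (Sum.inl i)) = (fun i => x (Sum.inl i)) + fun i => y (Sum.inl i) := rfl
    have e2 : (fun j => (x + y) (Sum.inr j)) = (fun j => x (Sum.inr j)) + fun j => y (Sum.inr j) := rfl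
    rw [e1, e2]
    apply max_le
    · exact (ha.add_le _ _).trans (add_le_add (le_max_left _ _) (le_max_left _ _))
    · exact (hb.add_le _ _).trans (add_le_add (le_max_right _ _) (le_max_right _ _))
  bdd := by
    obtain ⟨C, hC⟩ := ha.bdd
    obtain ⟨D, hD⟩ := hb.bdd
    refine ⟨|C| + |D|, ?_⟩
    intro x i
    have hnn : 0 ≤ Vale.Agent.Lib.P248.maxG a b x + Vale.Agent.Lib.P248.maxG a b (-x) :=
      add_nonneg (le_max_of_le_left (ha.nonneg _)) (le_max_of_le_left (ha.nonneg _))
    rcases i with i | j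
    · have h1 := hC (fun i => x (Sum.inl i)) i
      have e : (-fun i => x (Sum.inl i)) = fun i => (-x) (Sum.inl i) := rfl
      rw [e] at h1
      have h2 : a (fun i => x (Sum.inl i)) + a (fun i => (-x) (Sum.inl i)) ≤
          Vale.Agent.Lib.P248.maxG a b x + Vale.Agent.Lib.P248.maxG a b (-x) :=
        add_le_add (le_max_left _ _) (le_max_left _ _)
      have h3 : 0 ≤ a (fun i => x (Sum.inl i)) + a (fun i => (-x) (Sum.inl i)) :=
        add_nonneg (ha.nonneg _) (ha.nonneg _)
      calc |x (Sum.inl i)| ≤ C * _ := h1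
        _ ≤ |C| * (a (fun i => x (Sum.inl i)) + a (fun i => (-x) (Sum.inl i))) := by
            gcongr; exact le_abs_self C
        _ ≤ (|C| + |D|) * (Vale.Agent.Lib.P248.maxG a b x + Vale.Agent.Lib.P248.maxG a b (-x)) := by
            gcongr; exact le_add_of_nonneg_right (abs_nonneg D)
    · have h1 := hD (fun i => x (Sum.inr i)) j
      have e : (-fun i => x (Sum.inr i)) = fun i => (-x) (Sum.inr i) := rfl
      rw [e] at h1
      have h2 : b (fun i => x (Sum.inr i)) + b (fun i => (-x) (Sum.inr i)) ≤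
          Vale.Agent.Lib.P248.maxG a b x + Vale.Agent.Lib.P248.maxG a b (-x) :=
        add_le_add (le_max_right _ _) (le_max_right _ _)
      have h3 : 0 ≤ b (fun i => x (Sum.inr i)) + b (fun i => (-x) (Sum.inr i)) :=
        add_nonneg (hb.nonneg _) (hb.nonneg _)
      calc |x (Sum.inr j)| ≤ D * _ := h1
        _ ≤ |D| * (b (fun i => x (Sum.inr i)) + b (fun i => (-x) (Sum.inr i))) := by
            gcongr; exact le_abs_self D
        _ ≤ (|C| + |D|) * (Vale.Agent.Lib.P248.maxG a b x + Vale.Agent.Lib.P248.maxG a b (-x)) := by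
            gcongr; exact le_add_of_nonneg_left (abs_nonneg C)

lemma IsGaugeFn.sumG (ha : IsGaugeFn a) (hb : IsGaugeFn b) : IsGaugeFn (sumG a b) where
  cont := (ha.cont.comp continuous_inl_part).add (hb.cont.comp continuous_inr_part)
  nonneg := fun x => add_nonneg (ha.nonneg _) (hb.nonneg _)
  smul := by
    intro r hr x
    have e1 : (fun i => (r • x) (Sum.inl i)) = r • fun i => x (Sum.inl i) := rfl
    have e2 : (fun j => (r • x) (Sum.inr j)) = r • fun j => x (Sum.inr j) := rfl
    simp only [Vale.Agent.Lib.P248.sumG]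
    rw [e1, e2, ha.smul r hr, hb.smul r hr, mul_add]
  add_le := by
    intro x y
    simp only [Vale.Agent.Lib.P248.sumG]
    have e1 : (fun i => (x + y) (Sum.inl i)) = (fun i => x (Sum.inl i)) + fun i => y (Sum.inl i) := rfl
    have e2 : (fun j => (x + y) (Sum.inr j)) = (fun j => x (Sum.inr j)) + fun j => y (Sum.inr j) := rfl
    rw [e1, e2]
    have h1 := ha.add_le (fun i => x (Sum.inl i)) (fun i => y (Sum.inl i))
    have h2 := hb.add_le (fun j => x (Sum.inr j)) (fun j => y (Sum.inr j))
    linarith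
  bdd := by
    obtain ⟨C, hC⟩ := ha.bdd
    obtain ⟨D, hD⟩ := hb.bdd
    refine ⟨|C| + |D|, ?_⟩
    intro x i
    have hnn1 := ha.nonneg (fun i => x (Sum.inl i))
    have hnn2 := ha.nonneg (fun i => (-x) (Sum.inl i))
    have hnn3 := hb.nonneg (fun i => x (Sum.inr i))
    have hnn4 := hb.nonneg (fun i => (-x) (Sum.inr i))
    have hT : Vale.Agent.Lib.P248.sumG a b x + Vale.Agent.Lib.P248.sumG a b (-x) =
        a (fun i => x (Sum.inl i)) + b (fun i => x (Sum.inr i)) +
        (a (fun i => (-x) (Sum.inl i)) + b (fun i => (-x) (Sum.inr i))) := rfl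
    rw [hT]
    rcases i with i | j
    · have h1 := hC (fun i => x (Sum.inl i)) i
      have e : (-fun i => x (Sum.inl i)) = fun i => (-x) (Sum.inl i) := rfl
      rw [e] at h1
      calc |x (Sum.inl i)| ≤ C * _ := h1
        _ ≤ |C| * (a (fun i => x (Sum.inl i)) + a (fun i => (-x) (Sum.inl i))) := by
            gcongr; exact le_abs_self C
        _ ≤ (|C| + |D|) * (a (fun i => x (Sum.inl i)) + b (fun i => x (Sum.inr i)) +
              (a (fun i => (-x) (Sum.inl i)) + b (fun i => (-x) (Sum.inr i)))) := by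
            apply mul_le_mul
            · exact le_add_of_nonneg_right (abs_nonneg D)
            · linarith
            · linarith
            · positivity
    · have h1 := hD (fun i => x (Sum.inr i)) j
      have e : (-fun i => x (Sum.inr i)) = fun i => (-x) (Sum.inr i) := rfl
      rw [e] at h1
      calc |x (Sum.inr j)| ≤ D * _ := h1
        _ ≤ |D| * (b (fun i => x (Sum.inr i)) + b (fun i => (-x) (Sum.inr i))) := by
            gcongr; exact le_abs_self D
        _ ≤ (|C| + |D|) * (a (fun i => x (Sum.inl i)) + b (fun i => x (Sum.inr i)) +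
              (a (fun i => (-x) (Sum.inl i)) + b (fun i => (-x) (Sum.inr i)))) := by
            apply mul_le_mul
            · exact le_add_of_nonneg_left (abs_nonneg C)
            · linarith
            · linarith
            · positivity

/-- Sections of the gauge of a product are products of sections. -/
lemma gfun_maxG (ha : IsGaugeFn a) (hb : IsGaugeFn b) (l : ℝ) :
    gfun (maxG a b) l = gfun a l * gfun b l := by
  have mp := volume_measurePreserving_sumPiEquivProdPi (fun _ : V ⊕ W => ℝ)
  have e : slab (maxG a b) l (1 - l) =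
      (MeasurableEquiv.sumPiEquivProdPi (fun _ : V ⊕ W => ℝ)) ⁻¹'
        (slab a l (1 - l) ×ˢ slab b l (1 - l)) := by
    ext x
    simp only [slab, maxG, mem_ofPred_eq, mem_preimage, mem_prod, max_le_iff]
    constructor
    · rintro ⟨⟨h1, h2⟩, h3, h4⟩
      exact ⟨⟨h1, h3⟩, h2, h4⟩
    · rintro ⟨⟨h1, h3⟩, h2, h4⟩
      exact ⟨⟨h1, h2⟩, h3, h4⟩
  unfold gfun
  rw [e, mp.measure_preimage ((ha.measurableSet_slab _ _).prod
    (hb.measurableSet_slab _ _)).nullMeasurableSet, Measure.volume_eq_prod, Measure.prod_prod]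

/-- Chebyshev step: the section integral of a product body is at least the product of the
section integrals. -/
lemma Zval_maxG_ge (ha : IsGaugeFn a) (hb : IsGaugeFn b) :
    Zval a * Zval b ≤ Zval (maxG a b) := by
  have hc := (ha.maxG hb)
  rw [ha.Zval_eq_Icc, hb.Zval_eq_Icc, hc.Zval_eq_Icc]
  simp_rw [gfun_maxG ha hb]
  refine chebyshev_Icc ha.measurable_gfun hb.measurable_gfun ?_
  intro s t
  rcases le_total (|t - 1 / 2|) (|s - 1 / 2|) with h | h
  · exact Or.inl ⟨ha.gfun_le_of_dist h, hb.gfun_le_of_dist h⟩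
  · exact Or.inr ⟨ha.gfun_le_of_dist h, hb.gfun_le_of_dist h⟩

/-- The exponential integral of a join gauge is multiplicative. -/
lemma Tval_sumG (ha : IsGaugeFn a) (hb : IsGaugeFn b) :
    Tval (sumG a b) = Tval a * Tval b := by
  have mp := volume_measurePreserving_sumPiEquivProdPi (fun _ : V ⊕ W => ℝ)
  have hma : Measurable fun x : V → ℝ => ENNReal.ofReal (Real.exp (-(a x + a (-x)))) :=
    ENNReal.measurable_ofReal.comp (Real.continuous_exp.comp
      ((ha.cont.add (ha.cont.comp continuous_neg)).neg)).measurable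
  have hmb : Measurable fun x : W → ℝ => ENNReal.ofReal (Real.exp (-(b x + b (-x)))) :=
    ENNReal.measurable_ofReal.comp (Real.continuous_exp.comp
      ((hb.cont.add (hb.cont.comp continuous_neg)).neg)).measurable
  unfold Tval
  rw [← lintegral_prod_mul hma.aemeasurable hmb.aemeasurable, ← Measure.volume_eq_prod]
  have hF : Measurable fun z : (V → ℝ) × (W → ℝ) =>
      ENNReal.ofReal (Real.exp (-(a z.1 + a (-z.1)))) *
        ENNReal.ofReal (Real.exp (-(b z.2 + b (-z.2)))) :=
    (hma.comp measurable_fst).mul (hmb.comp measurable_snd)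
  rw [← mp.lintegral_comp hF]
  apply lintegral_congr
  intro x
  have e0 : (MeasurableEquiv.sumPiEquivProdPi (fun _ : V ⊕ W => ℝ)) x =
      (fun i => x (Sum.inl i), fun j => x (Sum.inr j)) := rfl
  rw [e0]
  simp only [sumG]
  rw [← ENNReal.ofReal_mul (Real.exp_pos _).le, ← Real.exp_add]
  congr 2
  have e1 : (fun i => (-x) (Sum.inl i)) = -fun i => x (Sum.inl i) := rfl
  have e2 : (fun i => (-x) (Sum.inr i)) = -fun i => x (Sum.inr i) := rfl
  rw [e1, e2]
  ring

end Vale.Agent.Lib.P248
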