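import Vale.Agent.Lib.P248.Defs
import Vale.Agent.Lib.P248.Gauge3

open MeasureTheory Set
open scoped ENNReal

namespace Vale.Agent.Lib.P248

set_option linter.unusedSectionVars false

section omega

variable {V W : Type} [Fintype V] [Fintype W]

open Classical in
lemma cliques_nonempty (G : SimpleGraph V) :
    (Finset.univ.filter fun C : Finset V => G.IsClique (C : Set V)).Nonempty :=
  ⟨∅, by simp⟩

open Classical in
/-- The weighted clique number: the largest total weight of a clique. -/
noncomputable def omegaG (G : SimpleGraph V) (x : V → ℝ) : ℝ :=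
  (Finset.univ.filter fun C : Finset V => G.IsClique (C : Set V)).sup'
    (cliques_nonempty G) fun C => ∑ i ∈ C, x i

lemma le_omegaG (G : SimpleGraph V) (x : V → ℝ) {C : Finset V} (hC : G.IsClique (C : Set V)) :
    ∑ i ∈ C, x i ≤ omegaG G x := by
  classical
  unfold omegaG
  exact Finset.le_sup' (fun C : Finset V => ∑ i ∈ C, x i) (by simp [hC])

lemma omegaG_le_iff (G : SimpleGraph V) (x : V → ℝ) (u : ℝ) :
    omegaG G x ≤ u ↔ ∀ C : Finset V, G.IsClique (C : Set V) → ∑ i ∈ C, x i ≤ u := by
  classical
  unfold omegaG
  rw [Finset.sup'_le_iff]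
  simp

lemma exists_clique_omegaG (G : SimpleGraph V) (x : V → ℝ) :
    ∃ C : Finset V, G.IsClique (C : Set V) ∧ omegaG G x = ∑ i ∈ C, x i := by
  classical
  unfold omegaG
  obtain ⟨C, hC, h⟩ := Finset.exists_mem_eq_sup'
    (s := Finset.univ.filter fun C : Finset V => G.IsClique (C : Set V)) (cliques_nonempty G)
    (fun C : Finset V => ∑ i ∈ C, x i)
  refine ⟨C, by simpa using hC, h⟩

lemma omegaG_nonneg (G : SimpleGraph V) (x : V → ℝ) : 0 ≤ omegaG G x := by
  have := le_omegaG G x (C := ∅) (by simp)
  simpa using this

lemma isGaugeFn_omegaG (G : SimpleGraph V) : IsGaugeFn (omegaG G) where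
  cont := by
    classical
    unfold omegaG
    refine Continuous.finset_sup'_apply _ ?_
    intro C _
    exact continuous_finsetSum _ fun i _ => continuous_apply i
  nonneg := omegaG_nonneg G
  smul := by
    intro r hr x
    apply le_antisymm
    · rw [omegaG_le_iff]
      intro C hC
      simp only [Pi.smul_apply, smul_eq_mul, ← Finset.mul_sum]
      exact mul_le_mul_of_nonneg_left (le_omegaG G x hC) hr
    · obtain ⟨C, hC, h⟩ := exists_clique_omegaG G x
      rw [h, Finset.mul_sum]
      simpa using le_omegaG G (r • x) hC
  add_le := by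
    intro x y
    rw [omegaG_le_iff]
    intro C hC
    simp only [Pi.add_apply, Finset.sum_add_distrib]
    exact add_le_add (le_omegaG G x hC) (le_omegaG G y hC)
  bdd := by
    refine ⟨1, ?_⟩
    intro x i
    have h1 : x i ≤ omegaG G x := by
      simpa using le_omegaG G x (C := {i}) (by simp)
    have h2 : -x i ≤ omegaG G (-x) := by
      simpa using le_omegaG G (-x) (C := {i}) (by simp)
    have h3 := omegaG_nonneg G x
    have h4 := omegaG_nonneg G (-x)
    rw [abs_le]
    constructor <;> linarith

/-- Splitting a sum over a finset of a disjoint union. -/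
lemma sum_split (C : Finset (V ⊕ W)) (x : V ⊕ W → ℝ) :
    ∑ i ∈ C, x i = ∑ i ∈ C.toLeft, x (Sum.inl i) + ∑ j ∈ C.toRight, x (Sum.inr j) := by
  conv_lhs => rw [← Finset.toLeft_disjSum_toRight (u := C)]
  rw [Finset.sum_disjSum]

lemma omegaG_sum (G : SimpleGraph V) (H : SimpleGraph W) :
    omegaG (G.sum H) = maxG (omegaG G) (omegaG H) := by
  classical
  funext x
  apply le_antisymm
  · rw [omegaG_le_iff]
    intro C hC
    rw [sum_split]
    -- a clique of the disjoint union lies on one side
    by_cases hL : C.toLeft = ∅
    · rw [hL, Finset.sum_empty, zero_add]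
      refine le_trans ?_ (le_max_right _ _)
      apply le_omegaG
      intro a ha b hb hab
      have ha' : Sum.inr a ∈ C := by simpa using ha
      have hb' : Sum.inr b ∈ C := by simpa using hb
      have := hC ha' hb' (by simpa using hab)
      simpa using this
    · have hR : C.toRight = ∅ := by
        by_contra hR
        obtain ⟨a, ha⟩ := Finset.nonempty_iff_ne_empty.mpr hL
        obtain ⟨b, hb⟩ := Finset.nonempty_iff_ne_empty.mpr hR
        have ha' : Sum.inl a ∈ C := by simpa using ha
        have hb' : Sum.inr b ∈ C := by simpa using hb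
        have := hC ha' hb' (by simp)
        simp at this
      rw [hR, Finset.sum_empty, add_zero]
      refine le_trans ?_ (le_max_left _ _)
      apply le_omegaG
      intro a ha b hb hab
      have ha' : Sum.inl a ∈ C := by simpa using ha
      have hb' : Sum.inl b ∈ C := by simpa using hb
      have := hC ha' hb' (by simpa using hab)
      simpa using this
  · apply max_le
    · rw [omegaG_le_iff]
      intro C hC
      have hC' : (G.sum H).IsClique ((C.map ⟨Sum.inl, Sum.inl_injective⟩ : Finset (V ⊕ W)) : Set (V ⊕ W)) := by
        intro a ha b hb hab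
        simp only [Finset.coe_map, Function.Embedding.coeFn_mk, mem_image, Finset.mem_coe] at ha hb
        obtain ⟨a', ha', rfl⟩ := ha
        obtain ⟨b', hb', rfl⟩ := hb
        have hne : a' ≠ b' := fun h => hab (by rw [h])
        simpa using hC ha' hb' hne
      have := le_omegaG (G.sum H) x hC'
      simpa using this
    · rw [omegaG_le_iff]
      intro C hC
      have hC' : (G.sum H).IsClique ((C.map ⟨Sum.inr, Sum.inr_injective⟩ : Finset (V ⊕ W)) : Set (V ⊕ W)) := by
        intro a ha b hb hab
        simp only [Finset.coe_map, Function.Embedding.coeFn_mk, mem_image, Finset.mem_coe] at ha hb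
        obtain ⟨a', ha', rfl⟩ := ha
        obtain ⟨b', hb', rfl⟩ := hb
        have hne : a' ≠ b' := fun h => hab (by rw [h])
        simpa using hC ha' hb' hne
      have := le_omegaG (G.sum H) x hC'
      simpa using this

lemma omegaG_compl_sum (G : SimpleGraph V) (H : SimpleGraph W) :
    omegaG (G.sum H)ᶜ = sumG (omegaG Gᶜ) (omegaG Hᶜ) := by
  classical
  funext x
  apply le_antisymm
  · rw [omegaG_le_iff]
    intro C hC
    rw [sum_split]
    apply add_le_add
    · apply le_omegaG
      intro a ha b hb hab
      have ha' : Sum.inl a ∈ C := by simpa using ha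
      have hb' : Sum.inl b ∈ C := by simpa using hb
      have h := hC ha' hb' (by simpa using hab)
      rw [SimpleGraph.compl_adj] at h ⊢
      exact ⟨hab, by simpa using h.2⟩
    · apply le_omegaG
      intro a ha b hb hab
      have ha' : Sum.inr a ∈ C := by simpa using ha
      have hb' : Sum.inr b ∈ C := by simpa using hb
      have h := hC ha' hb' (by simpa using hab)
      rw [SimpleGraph.compl_adj] at h ⊢
      exact ⟨hab, by simpa using h.2⟩
  · obtain ⟨C1, hC1, h1⟩ := exists_clique_omegaG Gᶜ (fun i => x (Sum.inl i))
    obtain ⟨C2, hC2, h2⟩ := exists_clique_omegaG Hᶜ (fun j => x (Sum.inr j))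
    simp only [sumG]
    rw [h1, h2, ← Finset.sum_disjSum (f := x)]
    apply le_omegaG
    intro a ha b hb hab
    rw [SimpleGraph.compl_adj]
    refine ⟨hab, ?_⟩
    rcases a with a | a <;> rcases b with b | b
    · have ha' : a ∈ C1 := by simpa using ha
      have hb' : b ∈ C1 := by simpa using hb
      have hne : a ≠ b := fun h => hab (by rw [h])
      have h := hC1 ha' hb' hne
      rw [SimpleGraph.compl_adj] at h
      simpa using h.2
    · simp
    · simp
    · have ha' : a ∈ C2 := by simpa using ha
      have hb' : b ∈ C2 := by simpa using hb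
      have hne : a ≠ b := fun h => hab (by rw [h])
      have h := hC2 ha' hb' hne
      rw [SimpleGraph.compl_adj] at h
      simpa using h.2

/-- Behaviour of the weighted clique number under an isomorphism. -/
lemma omegaG_iso {G : SimpleGraph V} {H : SimpleGraph W} (e : G ≃g H) (x : W → ℝ) :
    omegaG H x = omegaG G (fun i => x (e i)) := by
  classical
  apply le_antisymm
  · rw [omegaG_le_iff]
    intro C hC
    have hC' : G.IsClique ((C.map e.symm.toEquiv.toEmbedding : Finset V) : Set V) := by
      intro a ha b hb hab
      simp only [Finset.coe_map, Equiv.coe_toEmbedding, mem_image, Finset.mem_coe] at ha hb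
      obtain ⟨a', ha', rfl⟩ := ha
      obtain ⟨b', hb', rfl⟩ := hb
      have hne : a' ≠ b' := fun h => hab (by rw [h])
      have := hC ha' hb' hne
      exact e.symm.map_rel_iff'.mpr this
    have := le_omegaG G (fun i => x (e i)) hC'
    simpa using this
  · rw [omegaG_le_iff]
    intro C hC
    have hC' : H.IsClique ((C.map e.toEquiv.toEmbedding : Finset W) : Set W) := by
      intro a ha b hb hab
      simp only [Finset.coe_map, Equiv.coe_toEmbedding, mem_image, Finset.mem_coe] at ha hb
      obtain ⟨a', ha', rfl⟩ := ha
      obtain ⟨b', hb', rfl⟩ := hb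
      have hne : a' ≠ b' := fun h => hab (by rw [h])
      have := hC ha' hb' hne
      exact e.map_rel_iff'.mpr this
    have := le_omegaG H x hC'
    simpa using this

end omega

end Vale.Agent.Lib.P248
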