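import Vale.Agent.Lib.P248.Graph1

open MeasureTheory Set
open scoped ENNReal

namespace Vale.Agent.Lib.P248

set_option linter.unusedSectionVars false

section stab

variable {V W : Type}

/-- The stable set polytope of `G`. -/
def stabBody (G : SimpleGraph V) : Set (V → ℝ) :=
  convexHull ℝ {y | ∃ A : Set V, G.IsIndepSet A ∧ y = A.indicator (fun _ => 1)}

lemma indicator_mem_stabBody (G : SimpleGraph V) {A : Set V} (hA : G.IsIndepSet A) :
    A.indicator (fun _ => (1:ℝ)) ∈ stabBody G :=
  subset_convexHull ℝ _ ⟨A, hA, rfl⟩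

lemma zero_mem_stabBody (G : SimpleGraph V) : (0 : V → ℝ) ∈ stabBody G := by
  have := indicator_mem_stabBody G (A := ∅) (by simp [SimpleGraph.IsIndepSet])
  have e : (∅ : Set V).indicator (fun _ => (1:ℝ)) = 0 := by ext; simp
  rwa [e] at this

lemma sumElim_mem_stabBody {G : SimpleGraph V} {H : SimpleGraph W} {s1 : V → ℝ} {s2 : W → ℝ}
    (h1 : s1 ∈ stabBody G) (h2 : s2 ∈ stabBody H) :
    Sum.elim s1 s2 ∈ stabBody (G.sum H) := by
  -- first fix an indicator in the second slot
  have step1 : ∀ B : Set W, H.IsIndepSet B → ∀ s ∈ stabBody G,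
      Sum.elim s (B.indicator fun _ => (1:ℝ)) ∈ stabBody (G.sum H) := by
    intro B hB s hs
    have hconv : Convex ℝ {s : V → ℝ | Sum.elim s (B.indicator fun _ => (1:ℝ)) ∈ stabBody (G.sum H)} := by
      intro x hx y hy a b ha hb hab
      have := (convex_convexHull ℝ _) hx hy ha hb hab
      have e : Sum.elim (a • x + b • y) (B.indicator fun _ => (1:ℝ)) =
          a • Sum.elim x (B.indicator fun _ => (1:ℝ)) +
          b • Sum.elim y (B.indicator fun _ => (1:ℝ)) := by
        ext i
        rcases i with i | j
        · simp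
        · simp only [Sum.elim_inr, Pi.add_apply, Pi.smul_apply, smul_eq_mul]
          rw [← add_mul, hab, one_mul]
      simp only [mem_ofPred_eq]
      rw [e]
      exact this
    refine convexHull_min ?_ hconv hs
    rintro _ ⟨A, hA, rfl⟩
    refine subset_convexHull ℝ _ ⟨Sum.inl '' A ∪ Sum.inr '' B, ?_, ?_⟩
    · intro a ha b hb hab
      rcases ha with ⟨a', ha', rfl⟩ | ⟨a', ha', rfl⟩ <;>
        rcases hb with ⟨b', hb', rfl⟩ | ⟨b', hb', rfl⟩
      · have hne : a' ≠ b' := fun h => hab (by rw [h])
        simpa using hA ha' hb' hne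
      · simp
      · simp
      · have hne : a' ≠ b' := fun h => hab (by rw [h])
        simpa using hB ha' hb' hne
    · ext i
      rcases i with i | j
      · by_cases h : i ∈ A <;> simp [h, indicator]
      · by_cases h : j ∈ B <;> simp [h, indicator]
  have hconv : Convex ℝ {s : W → ℝ | Sum.elim s1 s ∈ stabBody (G.sum H)} := by
    intro x hx y hy a b ha hb hab
    have := (convex_convexHull ℝ _) hx hy ha hb hab
    have e : Sum.elim s1 (a • x + b • y) = a • Sum.elim s1 x + b • Sum.elim s1 y := by
      ext i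
      rcases i with i | j
      · simp only [Sum.elim_inl, Pi.add_apply, Pi.smul_apply, smul_eq_mul]
        rw [← add_mul, hab, one_mul]
      · simp
    simp only [mem_ofPred_eq]
    rw [e]
    exact this
  refine convexHull_min ?_ hconv h2
  rintro _ ⟨B, hB, rfl⟩
  exact step1 B hB s1 h1

lemma sumElim_left_mem_stabBody_compl {G : SimpleGraph V} {H : SimpleGraph W} {s : V → ℝ}
    (h : s ∈ stabBody Gᶜ) : Sum.elim s (0 : W → ℝ) ∈ stabBody (G.sum H)ᶜ := by
  have hconv : Convex ℝ {s : V → ℝ | Sum.elim s (0 : W → ℝ) ∈ stabBody (G.sum H)ᶜ} := by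
    intro x hx y hy a b ha hb hab
    have := (convex_convexHull ℝ _) hx hy ha hb hab
    have e : Sum.elim (a • x + b • y) (0 : W → ℝ) =
        a • Sum.elim x (0 : W → ℝ) + b • Sum.elim y (0 : W → ℝ) := by
      ext i
      rcases i with i | j <;> simp
    simp only [mem_ofPred_eq]
    rw [e]
    exact this
  refine convexHull_min ?_ hconv h
  rintro _ ⟨A, hA, rfl⟩
  refine subset_convexHull ℝ _ ⟨Sum.inl '' A, ?_, ?_⟩
  · intro a ha b hb hab
    obtain ⟨a', ha', rfl⟩ := ha
    obtain ⟨b', hb', rfl⟩ := hb
    have hne : a' ≠ b' := fun h => hab (by rw [h])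
    have h1 := hA ha' hb' hne
    simp only [SimpleGraph.compl_adj, not_and, not_not] at h1 ⊢
    intro _
    simpa using h1 hne
  · ext i
    rcases i with i | j
    · by_cases h : i ∈ A <;> simp [h, indicator]
    · simp [indicator]

lemma sumElim_right_mem_stabBody_compl {G : SimpleGraph V} {H : SimpleGraph W} {s : W → ℝ}
    (h : s ∈ stabBody Hᶜ) : Sum.elim (0 : V → ℝ) s ∈ stabBody (G.sum H)ᶜ := by
  have hconv : Convex ℝ {s : W → ℝ | Sum.elim (0 : V → ℝ) s ∈ stabBody (G.sum H)ᶜ} := by
    intro x hx y hy a b ha hb hab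
    have := (convex_convexHull ℝ _) hx hy ha hb hab
    have e : Sum.elim (0 : V → ℝ) (a • x + b • y) =
        a • Sum.elim (0 : V → ℝ) x + b • Sum.elim (0 : V → ℝ) y := by
      ext i
      rcases i with i | j <;> simp
    simp only [mem_ofPred_eq]
    rw [e]
    exact this
  refine convexHull_min ?_ hconv h
  rintro _ ⟨A, hA, rfl⟩
  refine subset_convexHull ℝ _ ⟨Sum.inr '' A, ?_, ?_⟩
  · intro a ha b hb hab
    obtain ⟨a', ha', rfl⟩ := ha
    obtain ⟨b', hb', rfl⟩ := hb
    have hne : a' ≠ b' := fun h => hab (by rw [h])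
    have h1 := hA ha' hb' hne
    simp only [SimpleGraph.compl_adj, not_and, not_not] at h1 ⊢
    intro _
    simpa using h1 hne
  · ext i
    rcases i with i | j
    · simp [indicator]
    · by_cases h : j ∈ A <;> simp [h, indicator]

end stab

section PG

variable {V W : Type} [Fintype V] [Fintype W]

/-- The defining property of perfect graphs in polyhedral form: the clique constraints cut out
the stable set polytope (scaled by `u`, and after passing to the positive part). -/
def PG (G : SimpleGraph V) : Prop :=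
  ∀ (x : V → ℝ) (u : ℝ), 0 ≤ u → omegaG G x ≤ u → ∃ s ∈ stabBody G, ∀ i, max (x i) 0 = u * s i

lemma PG_sum {G : SimpleGraph V} {H : SimpleGraph W} (hG : PG G) (hH : PG H) :
    PG (G.sum H) := by
  intro x u hu hx
  rw [omegaG_sum] at hx
  simp only [maxG, max_le_iff] at hx
  obtain ⟨s1, hs1, h1⟩ := hG _ u hu hx.1
  obtain ⟨s2, hs2, h2⟩ := hH _ u hu hx.2
  refine ⟨Sum.elim s1 s2, sumElim_mem_stabBody hs1 hs2, ?_⟩
  rintro (i | j)
  · simpa using h1 i
  · simpa using h2 j

lemma PG_compl_sum {G : SimpleGraph V} {H : SimpleGraph W} (hG : PG Gᶜ) (hH : PG Hᶜ) :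
    PG (G.sum H)ᶜ := by
  intro x u hu hx
  rw [omegaG_compl_sum] at hx
  simp only [sumG] at hx
  set u1 := omegaG Gᶜ (fun i => x (Sum.inl i)) with hu1
  set u2 := omegaG Hᶜ (fun j => x (Sum.inr j)) with hu2
  have hu1n : 0 ≤ u1 := omegaG_nonneg _ _
  have hu2n : 0 ≤ u2 := omegaG_nonneg _ _
  obtain ⟨s1, hs1, h1⟩ := hG _ u1 hu1n le_rfl
  obtain ⟨s2, hs2, h2⟩ := hH _ u2 hu2n le_rfl
  rcases hu.eq_or_lt with rfl | hupos
  · have h10 : u1 = 0 := by linarith
    have h20 : u2 = 0 := by linarith
    refine ⟨0, zero_mem_stabBody _, ?_⟩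
    rintro (i | j)
    · have := h1 i
      rw [h10, zero_mul] at this
      simpa using this
    · have := h2 j
      rw [h20, zero_mul] at this
      simpa using this
  · have m1 := sumElim_left_mem_stabBody_compl (H := H) hs1
    have m2 := sumElim_right_mem_stabBody_compl (G := G) hs2
    have m0 := zero_mem_stabBody (G.sum H)ᶜ
    -- first a combination of `m1` and `m2`, then scale towards zero
    have hsum : u1 / u + u2 / u ≤ 1 := by
      rw [← add_div, div_le_one hupos]; exact hx
    have hu1' : 0 ≤ u1 / u := by positivity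
    have hu2' : 0 ≤ u2 / u := by positivity
    have hmem : (u1 / u) • (Sum.elim s1 (0 : W → ℝ)) + (u2 / u) • (Sum.elim (0 : V → ℝ) s2) ∈
        stabBody (G.sum H)ᶜ := by
      have hconv : Convex ℝ (stabBody (G.sum H)ᶜ) := convex_convexHull ℝ _
      rcases (add_nonneg hu1' hu2').eq_or_lt with h0 | hpos
      · have h10 : u1 / u = 0 := by linarith
        have h20 : u2 / u = 0 := by linarith
        rw [h10, h20, zero_smul, zero_smul, add_zero]
        exact m0
      · -- the point of the segment between `m1` and `m2`, scaled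
        set c := u1 / u + u2 / u with hc
        have hm12 : (u1 / u / c) • (Sum.elim s1 (0 : W → ℝ)) +
            (u2 / u / c) • (Sum.elim (0 : V → ℝ) s2) ∈ stabBody (G.sum H)ᶜ :=
          hconv m1 m2 (by positivity) (by positivity) (by rw [← add_div, ← hc]; exact div_self hpos.ne')
        have := hconv hm12 m0 hpos.le (by linarith : (0:ℝ) ≤ 1 - c) (by ring)
        convert this using 1
        simp only [smul_zero, add_zero, smul_add, smul_smul]
        congr 2 <;> field_simp
    refine ⟨_, hmem, ?_⟩
    rintro (i | j)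
    · have := h1 i
      simp only [Pi.add_apply, Pi.smul_apply, Sum.elim_inl, Pi.zero_apply, smul_eq_mul, mul_zero,
        add_zero]
      rw [this]
      field_simp
    · have := h2 j
      simp only [Pi.add_apply, Pi.smul_apply, Sum.elim_inr, Pi.zero_apply, smul_eq_mul, mul_zero,
        zero_add]
      rw [this]
      field_simp

/-- The polyhedral property for a one-vertex graph. -/
lemma PG_unique {V : Type} [Unique V] [Fintype V] (G : SimpleGraph V) : PG G := by
  intro x u hu hx
  have hv : ∀ i : V, i = default := Unique.eq_default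
  have h1 : max (x default) 0 ≤ u := by
    apply max_le
    · have := le_omegaG G x (C := {default}) (by simp)
      simp only [Finset.sum_singleton] at this
      linarith
    · exact hu
  have h0 : 0 ≤ max (x default) 0 := le_max_right _ _
  rcases hu.eq_or_lt with rfl | hupos
  · refine ⟨0, zero_mem_stabBody G, ?_⟩
    intro i
    rw [hv i]
    simp only [Pi.zero_apply, mul_zero]
    linarith
  · -- the stable set `V` is independent
    have hindep : G.IsIndepSet (univ : Set V) := by
      intro a _ b _ hab
      exact absurd (Subsingleton.elim a b) hab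
    have hone : (univ : Set V).indicator (fun _ => (1:ℝ)) ∈ stabBody G :=
      indicator_mem_stabBody G hindep
    set c := max (x default) 0 / u with hc
    have hc0 : 0 ≤ c := div_nonneg h0 hu
    have hc1 : c ≤ 1 := (div_le_one hupos).mpr h1
    have hmem : c • (univ : Set V).indicator (fun _ => (1:ℝ)) + (1 - c) • (0 : V → ℝ) ∈ stabBody G :=
      (convex_convexHull ℝ _) hone (zero_mem_stabBody G) hc0 (by linarith) (by ring)
    refine ⟨_, hmem, ?_⟩
    intro i
    rw [hv i]
    simp only [Pi.add_apply, Pi.smul_apply, indicator_univ, smul_eq_mul, mul_one, Pi.zero_apply,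
      mul_zero, add_zero]
    rw [hc]
    field_simp

/-- Transport of the polyhedral property along a graph isomorphism. -/
lemma PG_iso {G : SimpleGraph V} {H : SimpleGraph W} (e : G ≃g H) (hG : PG G) : PG H := by
  intro x u hu hx
  rw [omegaG_iso e] at hx
  obtain ⟨s, hs, h⟩ := hG _ u hu hx
  -- transport `s` along the isomorphism
  have hmap : ∀ t ∈ stabBody G, (fun j => t (e.symm j)) ∈ stabBody H := by
    intro t ht
    have hconv : Convex ℝ {t : V → ℝ | (fun j => t (e.symm j)) ∈ stabBody H} := by
      intro a ha b hb p q hp hq hpq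
      exact (convex_convexHull ℝ _) ha hb hp hq hpq
    refine convexHull_min ?_ hconv ht
    rintro _ ⟨A, hA, rfl⟩
    refine subset_convexHull ℝ _ ⟨e '' A, ?_, ?_⟩
    · intro a ha b hb hab
      obtain ⟨a', ha', rfl⟩ := ha
      obtain ⟨b', hb', rfl⟩ := hb
      have hne : a' ≠ b' := fun h => hab (by rw [h])
      have := hA ha' hb' hne
      intro hadj
      exact this (e.map_rel_iff'.mp hadj)
    · ext j
      by_cases hj : e.symm j ∈ A
      · have : j ∈ e '' A := ⟨_, hj, by simp⟩
        simp [indicator, hj, this]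
      · have : j ∉ e '' A := by
          rintro ⟨a, ha, rfl⟩
          exact hj (by simpa using ha)
        simp [indicator, hj, this]
  refine ⟨_, hmap s hs, ?_⟩
  intro j
  have := h (e.symm j)
  simpa using this

end PG

end Vale.Agent.Lib.P248
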