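import Vale.Agent.Lib.P248.Graph2

open MeasureTheory Set
open scoped ENNReal Pointwise

namespace Vale.Agent.Lib.P248

set_option linter.unusedSectionVars false

/-- Change of variables `l = (1 + t) / 2`. -/
lemma lintegral_half_comp {f : ℝ → ℝ≥0∞} (hf : Measurable f) :
    ∫⁻ t : ℝ, f ((1 + t) / 2) = 2 * ∫⁻ l : ℝ, f l := by
  have e1 : ∀ t : ℝ, f ((1 + t) / 2) = (fun t => f ((1 / 2) * t)) (t + 1) := by
    intro t
    simp only
    congr 1
    ring
  simp_rw [e1]
  rw [lintegral_add_right_eq_self (μ := (volume : Measure ℝ)) (fun t => f ((1 / 2) * t)) 1]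
  have hmap := Real.map_volume_mul_left (a := (1 / 2 : ℝ)) (by norm_num)
  have hm : Measurable fun t : ℝ => (1 / 2 : ℝ) * t := measurable_const_mul _
  rw [← lintegral_map hf hm, hmap, lintegral_smul_measure]
  norm_num

section bodies

variable {V W : Type} [Fintype V] [Fintype W]

/-- The body described by a gauge function. -/
def wBody (a : (V → ℝ) → ℝ) : Set (ℝ × (V → ℝ)) :=
  {p | a p.2 ≤ (1 + p.1) / 2 ∧ a (-p.2) ≤ (1 - p.1) / 2}

/-- The polar of the body described by a gauge function. -/
def wBodyPolar (b : (V → ℝ) → ℝ) : Set (ℝ × (V → ℝ)) :=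
  {q | b q.2 ≤ 1 - q.1 ∧ b (-q.2) ≤ 1 + q.1}

lemma IsGaugeFn.convex_wBody {a : (V → ℝ) → ℝ} (ha : IsGaugeFn a) : Convex ℝ (wBody a) := by
  rintro ⟨t, x⟩ ⟨h1, h2⟩ ⟨t', y⟩ ⟨h3, h4⟩ p q hp hq hpq
  simp only at h1 h2 h3 h4
  constructor
  · simp only [Prod.fst_add, Prod.snd_add, Prod.smul_fst, Prod.smul_snd, smul_eq_mul]
    calc a (p • x + q • y) ≤ a (p • x) + a (q • y) := ha.add_le _ _
      _ = p * a x + q * a y := by rw [ha.smul _ hp, ha.smul _ hq]
      _ ≤ p * ((1 + t) / 2) + q * ((1 + t') / 2) := by gcongr
      _ = (1 + (p * t + q * t')) / 2 := by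
          have : q = 1 - p := by linarith
          rw [this]; ring
  · simp only [Prod.fst_add, Prod.snd_add, Prod.smul_fst, Prod.smul_snd, smul_eq_mul]
    have e : -(p • x + q • y) = p • (-x) + q • (-y) := by simp [smul_neg]; abel
    rw [e]
    calc a (p • (-x) + q • (-y)) ≤ a (p • (-x)) + a (q • (-y)) := ha.add_le _ _
      _ = p * a (-x) + q * a (-y) := by rw [ha.smul _ hp, ha.smul _ hq]
      _ ≤ p * ((1 - t) / 2) + q * ((1 - t') / 2) := by gcongr
      _ = (1 - (p * t + q * t')) / 2 := by
          have : q = 1 - p := by linarith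
          rw [this]; ring

/-- The total weight of a set `C` with respect to an indicator vector. -/
lemma sum_mul_indicator (q : V → ℝ) (A : Set V) :
    ∑ i, q i * A.indicator (fun _ => (1:ℝ)) i =
      ∑ i ∈ (by classical exact Finset.univ.filter (· ∈ A)), q i := by
  classical
  rw [Finset.sum_filter]
  apply Finset.sum_congr rfl
  intro i _
  by_cases h : i ∈ A <;> simp [h]

/-- A clique and an independent set share at most one vertex. -/
lemma sum_indicator_le_one (G : SimpleGraph V) {A : Set V} (hA : G.IsIndepSet A) {C : Finset V}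
    (hC : G.IsClique (C : Set V)) : ∑ i ∈ C, A.indicator (fun _ => (1:ℝ)) i ≤ 1 := by
  classical
  have e : ∑ i ∈ C, A.indicator (fun _ => (1:ℝ)) i = ((C.filter (· ∈ A)).card : ℝ) := by
    rw [Finset.card_filter]
    push_cast
    apply Finset.sum_congr rfl
    intro i _
    by_cases h : i ∈ A <;> simp [h]
  rw [e]
  have hcard : (C.filter (· ∈ A)).card ≤ 1 := by
    rw [Finset.card_le_one]
    intro a ha b hb
    by_contra hab
    simp only [Finset.mem_filter] at ha hb
    exact hA ha.2 hb.2 hab (hC ha.1 hb.1 hab)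
  exact_mod_cast hcard

lemma omegaG_indicator_le_one (G : SimpleGraph V) {A : Set V} (hA : G.IsIndepSet A) :
    omegaG G (A.indicator (fun _ => 1)) ≤ 1 := by
  rw [omegaG_le_iff]
  intro C hC
  exact sum_indicator_le_one G hA hC

lemma omegaG_neg_indicator_le_zero (G : SimpleGraph V) (A : Set V) :
    omegaG G (-A.indicator (fun _ => 1)) ≤ 0 := by
  rw [omegaG_le_iff]
  intro C _
  simp only [Pi.neg_apply, Finset.sum_neg_distrib]
  rw [neg_nonpos]
  apply Finset.sum_nonneg
  intro i _
  exact indicator_nonneg (fun _ _ => zero_le_one) i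

lemma hansen_eq {G : SimpleGraph V} (hG : PG G) : hansenPolytope G = wBody (omegaG G) := by
  apply Subset.antisymm
  · refine convexHull_min ?_ (isGaugeFn_omegaG G).convex_wBody
    rintro p ⟨A, hA, rfl | rfl⟩
    · constructor
      · simp only
        have := omegaG_indicator_le_one G hA
        norm_num
        exact this
      · simp only
        have := omegaG_neg_indicator_le_zero G A
        norm_num
        exact this
    · constructor
      · simp only
        have := omegaG_neg_indicator_le_zero G A
        norm_num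
        exact this
      · simp only [neg_neg]
        have := omegaG_indicator_le_one G hA
        norm_num
        exact this
  · rintro ⟨t, x⟩ ⟨h1, h2⟩
    simp only at h1 h2
    have hl : 0 ≤ (1 + t) / 2 := (omegaG_nonneg G x).trans h1
    have hm : 0 ≤ (1 - t) / 2 := (omegaG_nonneg G (-x)).trans h2
    obtain ⟨s, hs, hsx⟩ := hG x _ hl h1
    obtain ⟨s', hs', hsx'⟩ := hG (-x) _ hm h2
    have hconv : Convex ℝ (hansenPolytope G) := convex_convexHull ℝ _
    have top : ∀ s ∈ stabBody G, ((1:ℝ), s) ∈ hansenPolytope G := by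
      intro s hs
      have hc : Convex ℝ {s : V → ℝ | ((1:ℝ), s) ∈ hansenPolytope G} := by
        intro a ha b hb p q hp hq hpq
        have := hconv ha hb hp hq hpq
        have e : p • ((1:ℝ), a) + q • ((1:ℝ), b) = ((1:ℝ), p • a + q • b) := by
          ext
          · simp [hpq]
          · simp
        rw [e] at this
        exact this
      refine convexHull_min ?_ hc hs
      rintro _ ⟨A, hA, rfl⟩
      exact subset_convexHull ℝ _ ⟨A, hA, Or.inl rfl⟩
    have bot : ∀ s ∈ stabBody G, ((-1:ℝ), -s) ∈ hansenPolytope G := by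
      intro s hs
      have hc : Convex ℝ {s : V → ℝ | ((-1:ℝ), -s) ∈ hansenPolytope G} := by
        intro a ha b hb p q hp hq hpq
        have := hconv ha hb hp hq hpq
        have e : p • ((-1:ℝ), -a) + q • ((-1:ℝ), -b) = ((-1:ℝ), -(p • a + q • b)) := by
          ext
          · simp only [Prod.fst_add, Prod.smul_fst, smul_eq_mul]
            have : q = 1 - p := by linarith
            rw [this]; ring
          · simp; ring
        rw [e] at this
        exact this
      refine convexHull_min ?_ hc hs
      rintro _ ⟨A, hA, rfl⟩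
      exact subset_convexHull ℝ _ ⟨A, hA, Or.inr rfl⟩
    have := hconv (top s hs) (bot s' hs') hl hm (by ring)
    convert this using 1
    ext i
    · simp only [Prod.fst_add, Prod.smul_fst, smul_eq_mul]
      ring
    · simp only [Prod.snd_add, Prod.smul_snd, Pi.add_apply, Pi.smul_apply, Pi.neg_apply,
        smul_eq_mul]
      have h3 := hsx i
      have h4 := hsx' i
      simp only [Pi.neg_apply] at h4
      have h5 : x i = max (x i) 0 - max (-x i) 0 := by
        rcases le_total (x i) 0 with h | h
        · rw [max_eq_right h, max_eq_left (by linarith)]; ring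
        · rw [max_eq_left h, max_eq_right (by linarith)]; ring
      rw [h5, h3, h4]
      ring

lemma polar_hansen_eq (G : SimpleGraph V) :
    polarBody (hansenPolytope G) = wBodyPolar (omegaG Gᶜ) := by
  classical
  apply Subset.antisymm
  · rintro ⟨s, ξ⟩ hq
    simp only [polarBody, mem_ofPred_eq] at hq
    constructor
    · rw [omegaG_le_iff]
      intro C hC
      have hA : G.IsIndepSet (C : Set V) := (SimpleGraph.isClique_compl _).mp hC
      have := hq _ (subset_convexHull ℝ _ ⟨_, hA, Or.inl rfl⟩)
      simp only [mul_one] at this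
      have e : ∑ i, ξ i * (C : Set V).indicator (fun _ => (1:ℝ)) i = ∑ i ∈ C, ξ i := by
        rw [sum_mul_indicator]
        apply Finset.sum_congr _ (fun _ _ => rfl)
        ext i
        simp
      rw [e] at this
      simp only
      linarith
    · rw [omegaG_le_iff]
      intro C hC
      have hA : G.IsIndepSet (C : Set V) := (SimpleGraph.isClique_compl _).mp hC
      have := hq _ (subset_convexHull ℝ _ ⟨_, hA, Or.inr rfl⟩)
      simp only [Pi.neg_apply, mul_neg, mul_one, Finset.sum_neg_distrib] at this
      have e : ∑ i, ξ i * (C : Set V).indicator (fun _ => (1:ℝ)) i = ∑ i ∈ C, ξ i := by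
        rw [sum_mul_indicator]
        apply Finset.sum_congr _ (fun _ _ => rfl)
        ext i
        simp
      rw [e] at this
      simp only [Pi.neg_apply, Finset.sum_neg_distrib]
      linarith
  · rintro ⟨s, ξ⟩ ⟨h1, h2⟩
    simp only at h1 h2
    have hconv : Convex ℝ {p : ℝ × (V → ℝ) | s * p.1 + ∑ i, ξ i * p.2 i ≤ 1} := by
      rintro ⟨t, x⟩ hx ⟨t', y⟩ hy p q hp hq hpq
      simp only [mem_ofPred_eq] at hx hy ⊢
      simp only [Prod.fst_add, Prod.snd_add, Prod.smul_fst, Prod.smul_snd, Pi.add_apply,
        Pi.smul_apply, smul_eq_mul]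
      have e : s * (p * t + q * t') + ∑ i, ξ i * (p * x i + q * y i) =
          p * (s * t + ∑ i, ξ i * x i) + q * (s * t' + ∑ i, ξ i * y i) := by
        have e0 : ∑ i, ξ i * (p * x i + q * y i) =
            p * ∑ i, ξ i * x i + q * ∑ i, ξ i * y i := by
          rw [Finset.mul_sum, Finset.mul_sum, ← Finset.sum_add_distrib]
          apply Finset.sum_congr rfl
          intro i _
          ring
        rw [e0]
        ring
      rw [e]
      calc _ ≤ p * 1 + q * 1 := by gcongr
        _ = 1 := by rw [mul_one, mul_one, hpq]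
    intro p hp
    refine convexHull_min ?_ hconv hp
    rintro p ⟨A, hA, rfl | rfl⟩
    · simp only [mem_ofPred_eq, mul_one]
      rw [sum_mul_indicator]
      have hC : Gᶜ.IsClique ((Finset.univ.filter (· ∈ A) : Finset V) : Set V) := by
        rw [SimpleGraph.isClique_compl]
        intro a ha b hb hab
        exact hA (by simpa using ha) (by simpa using hb) hab
      have := le_omegaG Gᶜ ξ hC
      convert (by linarith : s + ∑ i ∈ Finset.univ.filter (· ∈ A), ξ i ≤ 1)
    · simp only [mem_ofPred_eq, Pi.neg_apply, mul_neg, mul_one, Finset.sum_neg_distrib]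
      rw [sum_mul_indicator]
      have hC : Gᶜ.IsClique ((Finset.univ.filter (· ∈ A) : Finset V) : Set V) := by
        rw [SimpleGraph.isClique_compl]
        intro a ha b hb hab
        exact hA (by simpa using ha) (by simpa using hb) hab
      have := le_omegaG Gᶜ (-ξ) hC
      simp only [Pi.neg_apply, Finset.sum_neg_distrib] at this
      convert (by linarith : -s + -∑ i ∈ Finset.univ.filter (· ∈ A), ξ i ≤ 1)

namespace IsGaugeFn

variable {a : (V → ℝ) → ℝ} (ha : IsGaugeFn a)
include ha

lemma isClosed_wBody : IsClosed (wBody a) := by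
  have h1 : IsClosed {p : ℝ × (V → ℝ) | a p.2 ≤ (1 + p.1) / 2} :=
    isClosed_le (ha.cont.comp continuous_snd) ((continuous_const.add continuous_fst).div_const _)
  have h2 : IsClosed {p : ℝ × (V → ℝ) | a (-p.2) ≤ (1 - p.1) / 2} :=
    isClosed_le (ha.cont.comp continuous_snd.neg) ((continuous_const.sub continuous_fst).div_const _)
  exact h1.inter h2

lemma isClosed_wBodyPolar : IsClosed (wBodyPolar a) := by
  have h1 : IsClosed {p : ℝ × (V → ℝ) | a p.2 ≤ 1 - p.1} :=
    isClosed_le (ha.cont.comp continuous_snd) (continuous_const.sub continuous_fst)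
  have h2 : IsClosed {p : ℝ × (V → ℝ) | a (-p.2) ≤ 1 + p.1} :=
    isClosed_le (ha.cont.comp continuous_snd.neg) (continuous_const.add continuous_fst)
  exact h1.inter h2

lemma volume_wBody : volume (wBody a) = 2 * Zval a := by
  rw [Measure.volume_eq_prod, Measure.prod_apply ha.isClosed_wBody.measurableSet]
  have e : ∀ t : ℝ, volume (Prod.mk t ⁻¹' wBody a) = gfun a ((1 + t) / 2) := by
    intro t
    unfold gfun
    congr 1
    ext x
    simp only [wBody, slab, mem_preimage, mem_ofPred_eq]
    have : 1 - (1 + t) / 2 = (1 - t) / 2 := by ring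
    rw [this]
  simp_rw [e]
  rw [lintegral_half_comp ha.measurable_gfun]
  rfl

lemma volume_wBodyPolar :
    volume (wBodyPolar a) = 2 ^ (Fintype.card V + 1) * Zval a := by
  rw [Measure.volume_eq_prod, Measure.prod_apply ha.isClosed_wBodyPolar.measurableSet]
  have e : ∀ s : ℝ, volume (Prod.mk s ⁻¹' wBodyPolar a) =
      2 ^ (Fintype.card V) * gfun a ((1 + s) / 2) := by
    intro s
    have hset : Prod.mk s ⁻¹' wBodyPolar a = (2:ℝ) • slab a (1 - (1 + s) / 2) ((1 + s) / 2) := by
      ext x
      rw [Set.mem_smul_set_iff_inv_smul_mem₀ (by norm_num : (2:ℝ) ≠ 0)]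
      simp only [wBodyPolar, slab, mem_preimage, mem_ofPred_eq]
      have hi : (0:ℝ) ≤ 2⁻¹ := by norm_num
      rw [ha.smul _ hi, ← smul_neg, ha.smul _ hi]
      constructor
      · rintro ⟨h1, h2⟩
        constructor <;> linarith
      · rintro ⟨h1, h2⟩
        constructor <;> linarith
    rw [hset, Measure.addHaar_smul, ha.volume_slab_swap]
    unfold gfun
    congr 1
    rw [Module.finrank_fintype_fun_eq_card, abs_of_pos (by positivity),
      ENNReal.ofReal_pow (by norm_num)]
    simp
  simp_rw [e]
  rw [lintegral_const_mul _ ?_, lintegral_half_comp ha.measurable_gfun, pow_succ, mul_assoc]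
  · rfl
  · exact ha.measurable_gfun.comp (by fun_prop)

end IsGaugeFn

end bodies

end Vale.Agent.Lib.P248
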