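import Vale.Agent.Lib.P248.Graph3

open MeasureTheory Set
open scoped ENNReal Pointwise

namespace Vale.Agent.Lib.P248

set_option linter.unusedSectionVars false

section closure

variable {V W : Type} [Fintype V] [Fintype W]

/-- The inequality between the section integrals which is equivalent to the Mahler inequality
for the body of `a` with polar body given by `b`. -/
def MahlerQ (a b : (V → ℝ) → ℝ) : Prop :=
  (2 : ℝ≥0∞) ^ (Fintype.card V) ≤ ((Fintype.card V + 1).factorial : ℝ≥0∞) * (Zval a * Zval b)

lemma MahlerQ.symm {a b : (V → ℝ) → ℝ} (h : MahlerQ a b) : MahlerQ b a := by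
  unfold MahlerQ at h ⊢
  rwa [mul_comm (Zval b)]

/-- The closure theorem: the inequality passes to products and joins. -/
lemma MahlerQ_sum {a b : (V → ℝ) → ℝ} {a' b' : (W → ℝ) → ℝ}
    (ha : IsGaugeFn a) (hb : IsGaugeFn b) (ha' : IsGaugeFn a') (hb' : IsGaugeFn b')
    (h1 : MahlerQ a b) (h2 : MahlerQ a' b') : MahlerQ (maxG a a') (sumG b b') := by
  unfold MahlerQ at h1 h2 ⊢
  have hcard : Fintype.card (V ⊕ W) = Fintype.card V + Fintype.card W := Fintype.card_sum
  have hT : ((Fintype.card (V ⊕ W) + 1).factorial : ℝ≥0∞) * Zval (sumG b b') =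
      (((Fintype.card V + 1).factorial : ℝ≥0∞) * Zval b) *
        (((Fintype.card W + 1).factorial : ℝ≥0∞) * Zval b') := by
    rw [← (hb.sumG hb').Tval_eq, Tval_sumG hb hb', hb.Tval_eq, hb'.Tval_eq]
  rw [hcard] at hT ⊢
  calc (2 : ℝ≥0∞) ^ (Fintype.card V + Fintype.card W)
      = 2 ^ (Fintype.card V) * 2 ^ (Fintype.card W) := pow_add _ _ _
    _ ≤ (((Fintype.card V + 1).factorial : ℝ≥0∞) * (Zval a * Zval b)) *
          (((Fintype.card W + 1).factorial : ℝ≥0∞) * (Zval a' * Zval b')) := by
        gcongr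
    _ = (Zval a * Zval a') * ((((Fintype.card V + 1).factorial : ℝ≥0∞) * Zval b) *
          (((Fintype.card W + 1).factorial : ℝ≥0∞) * Zval b')) := by ring
    _ ≤ Zval (maxG a a') * ((((Fintype.card V + 1).factorial : ℝ≥0∞) * Zval b) *
          (((Fintype.card W + 1).factorial : ℝ≥0∞) * Zval b')) := by
        gcongr
        exact Zval_maxG_ge ha ha'
    _ = ((Fintype.card V + Fintype.card W + 1).factorial : ℝ≥0∞) *
          (Zval (maxG a a') * Zval (sumG b b')) := by
        rw [← hT]; ring

/-- The section integral is invariant under relabelling the coordinates. -/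
lemma Zval_reindex (e : V ≃ W) (a : (V → ℝ) → ℝ) :
    Zval (fun x : W → ℝ => a (fun i => x (e i))) = Zval a := by
  unfold Zval
  apply lintegral_congr
  intro l
  unfold gfun
  let R := MeasurableEquiv.piCongrLeft (fun _ : V => ℝ) e.symm
  have mp : MeasurePreserving R := volume_measurePreserving_piCongrLeft (fun _ : V => ℝ) e.symm
  have hR : ∀ (x : W → ℝ) (i : V), R x i = x (e i) := by
    intro x i
    have := Equiv.piCongrLeft_apply_apply (fun _ : V => ℝ) e.symm x (e i)
    simpa [R, MeasurableEquiv.coe_piCongrLeft] using this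
  have hs : slab (fun x : W → ℝ => a (fun i => x (e i))) l (1 - l) = R ⁻¹' (slab a l (1 - l)) := by
    ext x
    have e1 : (fun i => x (e i)) = R x := by
      funext i; rw [hR]
    have e2 : (fun i => (-x) (e i)) = -R x := by
      funext i
      simp only [Pi.neg_apply]
      rw [hR]
    simp only [slab, mem_ofPred_eq, mem_preimage, e1, e2]
  rw [hs]
  exact mp.measure_preimage_equiv _

end closure

section base

variable {V : Type} [Unique V] [Fintype V]

lemma omegaG_unique (G : SimpleGraph V) (x : V → ℝ) : omegaG G x = max (x default) 0 := by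
  apply le_antisymm
  · rw [omegaG_le_iff]
    intro C _
    have hv : ∀ i : V, i = default := Unique.eq_default
    rcases C.eq_empty_or_nonempty with rfl | ⟨a, ha⟩
    · simp
    · have : C = {default} := by
        ext i
        simp only [Finset.mem_singleton]
        constructor
        · intro _; exact hv i
        · rintro rfl; rwa [← hv a]
      rw [this]
      simp
  · apply max_le
    · simpa using le_omegaG G x (C := {default}) (by simp)
    · exact omegaG_nonneg G x

lemma Zval_omegaG_unique (G : SimpleGraph V) : Zval (omegaG G) = 1 := by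
  have ha := isGaugeFn_omegaG G
  rw [ha.Zval_eq_Icc]
  have hg : ∀ l ∈ Icc (0:ℝ) 1, gfun (omegaG G) l = 1 := by
    intro l hl
    have hmp : MeasurePreserving (MeasurableEquiv.funUnique V ℝ) volume volume := by
      obtain rfl : ‹Fintype V› = Unique.fintype := Subsingleton.elim _ _
      exact volume_preserving_funUnique V ℝ
    have e : slab (omegaG G) l (1 - l) =
        (MeasurableEquiv.funUnique V ℝ) ⁻¹' (Icc (l - 1) l) := by
      ext x
      simp only [slab, omegaG_unique, mem_ofPred_eq, mem_preimage, mem_Icc,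
        MeasurableEquiv.funUnique_apply, Pi.neg_apply, max_le_iff]
      constructor
      · rintro ⟨⟨h1, _⟩, h2, _⟩
        exact ⟨by linarith, h1⟩
      · rintro ⟨h1, h2⟩
        exact ⟨⟨h2, hl.1⟩, by linarith, by linarith [hl.2]⟩
    unfold gfun
    rw [e, hmp.measure_preimage measurableSet_Icc.nullMeasurableSet, Real.volume_Icc]
    simp
  calc ∫⁻ l in Icc (0:ℝ) 1, gfun (omegaG G) l = ∫⁻ _l in Icc (0:ℝ) 1, 1 :=
        setLIntegral_congr_fun measurableSet_Icc hg
    _ = 1 := by simp

end base

/-- A graph isomorphism induces an isomorphism of the complements. -/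
def isoCompl {V W : Type} {G : SimpleGraph V} {H : SimpleGraph W} (e : G ≃g H) : Gᶜ ≃g Hᶜ where
  toEquiv := e.toEquiv
  map_rel_iff' := by
    intro a b
    simp only [SimpleGraph.compl_adj]
    have h1 : e.toEquiv a = e.toEquiv b ↔ a = b := e.toEquiv.injective.eq_iff
    have h2 : H.Adj (e.toEquiv a) (e.toEquiv b) ↔ G.Adj a b := e.map_rel_iff'
    rw [Ne, h1, h2]

/-- The inductive invariant. -/
structure CographInv {V : Type} [Fintype V] (G : SimpleGraph V) : Prop where
  pg : PG G
  pgc : PG Gᶜ
  mah : MahlerQ (omegaG G) (omegaG Gᶜ)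

theorem cograph_inv {V : Type} {G : SimpleGraph V} (h : IsCograph G) :
    Finite V ∧ ∀ [Fintype V], CographInv G := by
  induction h with
  | @single V _ G =>
    refine ⟨inferInstance, ?_⟩
    intro _
    refine ⟨PG_unique G, PG_unique _, ?_⟩
    unfold MahlerQ
    rw [Zval_omegaG_unique, Zval_omegaG_unique, Fintype.card_unique]
    simp
  | @sum V W G H _ _ ih1 ih2 =>
    obtain ⟨hV, ih1⟩ := ih1
    obtain ⟨hW, ih2⟩ := ih2
    refine ⟨inferInstance, ?_⟩
    intro inst
    let iV : Fintype V := Fintype.ofFinite V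
    let iW : Fintype W := Fintype.ofFinite W
    obtain rfl : inst = instFintypeSum V W := Subsingleton.elim _ _
    have i1 := @ih1 iV
    have i2 := @ih2 iW
    refine ⟨PG_sum i1.pg i2.pg, PG_compl_sum i1.pgc i2.pgc, ?_⟩
    rw [omegaG_sum, omegaG_compl_sum]
    exact MahlerQ_sum (isGaugeFn_omegaG _) (isGaugeFn_omegaG _) (isGaugeFn_omegaG _)
      (isGaugeFn_omegaG _) i1.mah i2.mah
  | compl _ ih =>
    obtain ⟨hV, ih⟩ := ih
    refine ⟨hV, ?_⟩
    intro inst
    have i := @ih inst
    refine ⟨i.pgc, ?_, ?_⟩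
    · rw [compl_compl]; exact i.pg
    · rw [compl_compl]; exact i.mah.symm
  | @iso V W G H he _ ih =>
    obtain ⟨e⟩ := he
    obtain ⟨hV, ih⟩ := ih
    have hW : Finite W := Finite.of_equiv V e.toEquiv
    refine ⟨hW, ?_⟩
    intro inst
    let iV : Fintype V := Fintype.ofFinite V
    have i := @ih iV
    refine ⟨PG_iso e i.pg, PG_iso (isoCompl e) i.pgc, ?_⟩
    have hm := i.mah
    unfold MahlerQ at hm ⊢
    have hc : Fintype.card W = Fintype.card V := (Fintype.card_congr e.toEquiv).symm
    have z1 : Zval (omegaG H) = Zval (omegaG G) := by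
      have : omegaG H = fun x => omegaG G (fun i => x (e i)) := funext (omegaG_iso e)
      rw [this]
      exact Zval_reindex e.toEquiv _
    have z2 : Zval (omegaG Hᶜ) = Zval (omegaG Gᶜ) := by
      have : omegaG Hᶜ = fun x => omegaG Gᶜ (fun i => x ((isoCompl e) i)) :=
        funext (omegaG_iso (isoCompl e))
      rw [this]
      exact Zval_reindex (isoCompl e).toEquiv _
    rw [hc, z1, z2]
    exact hm

/-- **Mahler's inequality for Hansen polytopes of cographs.** -/
theorem mahler_hansen_cograph {V : Type} [Fintype V] {G : SimpleGraph V} (h : IsCograph G) :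
    (4 : ℝ) ^ (Fintype.card V + 1) / ((Fintype.card V + 1).factorial : ℝ) ≤
      (volume (hansenPolytope G)).toReal * (volume (polarBody (hansenPolytope G))).toReal := by
  have i := (cograph_inv h).2
  have ha := isGaugeFn_omegaG G
  have hb := isGaugeFn_omegaG Gᶜ
  rw [polar_hansen_eq, hansen_eq i.pg, ha.volume_wBody, hb.volume_wBodyPolar]
  have hm := i.mah
  unfold MahlerQ at hm
  set n := Fintype.card V
  have hza := ha.Zval_lt_top.ne
  have hzb := hb.Zval_lt_top.ne
  set za := (Zval (omegaG G)).toReal with hza'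
  set zb := (Zval (omegaG Gᶜ)).toReal with hzb'
  have hreal : (2:ℝ) ^ n ≤ ((n + 1).factorial : ℝ) * (za * zb) := by
    have := ENNReal.toReal_mono (by
      exact ENNReal.mul_ne_top (ENNReal.natCast_ne_top _) (ENNReal.mul_ne_top hza hzb)) hm
    simpa [ENNReal.toReal_mul] using this
  have hF : (0:ℝ) < ((n + 1).factorial : ℝ) := by positivity
  simp only [ENNReal.toReal_mul, ENNReal.toReal_pow]
  rw [div_le_iff₀ hF]
  have e4 : (4:ℝ) ^ (n + 1) = 2 ^ (n + 2) * 2 ^ n := by
    rw [← pow_add, show n + 2 + n = 2 * (n + 1) by ring, pow_mul]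
    norm_num
  rw [e4]
  have hp : (0:ℝ) ≤ 2 ^ (n + 2) := by positivity
  have := mul_le_mul_of_nonneg_left hreal hp
  simp only [ENNReal.toReal_ofNat]
  calc (2:ℝ) ^ (n + 2) * 2 ^ n ≤ 2 ^ (n + 2) * (((n + 1).factorial : ℝ) * (za * zb)) := this
    _ = 2 * za * (2 ^ (n + 1) * zb) * ((n + 1).factorial : ℝ) := by
        rw [pow_succ (2:ℝ) (n + 1)]; ring

end Vale.Agent.Lib.P248
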