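import Vale.Agent.Lib.P248.AB3

open MeasureTheory Set
open scoped ENNReal

namespace Vale.Agent.Lib.P248

variable {d : ℕ}

/-- Insertion of a coordinate. -/
abbrev ins (j : Fin (d + 1)) (s : ℝ) (y : Fin d → ℝ) : Fin (d + 1) → ℝ :=
  Fin.insertNth (α := fun _ => ℝ) j s y

/-- The slice of `W` at height `s` of the coordinate `j`. -/
def sl (j : Fin (d + 1)) (W : Set (Fin (d + 1) → ℝ)) (s : ℝ) : Set (Fin d → ℝ) :=
  {y | ins j s y ∈ W}

lemma mem_sl {j : Fin (d + 1)} {W : Set (Fin (d + 1) → ℝ)} {s : ℝ} {y : Fin d → ℝ} :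
    y ∈ sl j W s ↔ ins j s y ∈ W := Iff.rfl

/-- The set `W` read in product coordinates. -/
def prodSet (j : Fin (d + 1)) (W : Set (Fin (d + 1) → ℝ)) : Set (ℝ × (Fin d → ℝ)) :=
  {p | ins j p.1 p.2 ∈ W}

lemma measurable_ins (j : Fin (d + 1)) :
    Measurable (fun p : ℝ × (Fin d → ℝ) => ins j p.1 p.2) :=
  (MeasurableEquiv.piFinSuccAbove (fun _ : Fin (d + 1) => ℝ) j).symm.measurable

lemma measurable_prodSet (j : Fin (d + 1)) {W : Set (Fin (d + 1) → ℝ)} (hW : MeasurableSet W) :
    MeasurableSet (prodSet j W) :=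
  (measurable_ins j) hW

lemma measurableSet_sl (j : Fin (d + 1)) {W : Set (Fin (d + 1) → ℝ)} (hW : MeasurableSet W)
    (s : ℝ) : MeasurableSet (sl j W s) := by
  have : Measurable (fun y : Fin d → ℝ => ins j s y) :=
    (measurable_ins j).comp (measurable_const.prodMk measurable_id)
  exact this hW

lemma volume_eq_prodSet (j : Fin (d + 1)) {W : Set (Fin (d + 1) → ℝ)} (hW : MeasurableSet W) :
    volume W = ∫⁻ s, volume (sl j W s) := by
  have mp := volume_preserving_piFinSuccAbove (fun _ : Fin (d + 1) => ℝ) j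
  have h1 : volume W = volume (prodSet j W) := by
    have := (mp.symm).measure_preimage (s := W) hW.nullMeasurableSet
    exact this.symm
  rw [h1, Measure.volume_eq_prod, Measure.prod_apply (measurable_prodSet j hW)]
  rfl

lemma measurable_volume_sl (j : Fin (d + 1)) {W : Set (Fin (d + 1) → ℝ)} (hW : MeasurableSet W) :
    Measurable (fun s => volume (sl j W s)) :=
  measurable_measure_prodMk_left (measurable_prodSet j hW)

/-- Fubini in the coordinate `j`. -/
lemma volume_inter_coord (j : Fin (d + 1)) {W : Set (Fin (d + 1) → ℝ)} (hW : MeasurableSet W)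
    {I : Set ℝ} (hI : MeasurableSet I) :
    volume (W ∩ {y | y j ∈ I}) = ∫⁻ s in I, volume (sl j W s) := by
  have hm : MeasurableSet (W ∩ {y | y j ∈ I}) :=
    hW.inter ((measurable_pi_apply j) hI)
  rw [volume_eq_prodSet j hm, ← lintegral_indicator hI]
  apply lintegral_congr
  intro s
  by_cases hs : s ∈ I
  · rw [indicator_of_mem hs]
    congr 1
    ext y
    simp [sl, hs]
  · rw [indicator_of_notMem hs]
    have : sl j (W ∩ {y | y j ∈ I}) s = ∅ := by
      ext y
      simp [sl, hs]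
    rw [this]
    simp

lemma volume_hyperplane (j : Fin (d + 1)) (c : ℝ) :
    volume {x : Fin (d + 1) → ℝ | x j = c} = 0 := by
  rw [volume_pi]
  exact Measure.pi_hyperplane (fun _ : Fin (d + 1) => (volume : Measure ℝ)) j c

lemma sum_ins (j : Fin (d + 1)) (s : ℝ) (y : Fin d → ℝ) (v : Fin (d + 1) → ℝ) :
    ∑ i, ins j s y i * v i = s * v j + ∑ k, y k * v (j.succAbove k) := by
  rw [Fin.sum_univ_succAbove _ j]
  simp

lemma ins_apply_same (j : Fin (d + 1)) (s : ℝ) (y : Fin d → ℝ) : ins j s y j = s := by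
  simp

lemma ins_apply_succAbove (j : Fin (d + 1)) (s : ℝ) (y : Fin d → ℝ) (k : Fin d) :
    ins j s y (j.succAbove k) = y k := by
  simp

lemma ins_add_smul (j : Fin (d + 1)) (s t a b : ℝ) (y w : Fin d → ℝ) :
    a • ins j s y + b • ins j t w = ins j (a * s + b * t) (a • y + b • w) := by
  ext i
  rcases Fin.eq_self_or_eq_succAbove j i with rfl | ⟨k, rfl⟩
  · simp
  · simp

lemma smul_ins (j : Fin (d + 1)) (s a : ℝ) (y : Fin d → ℝ) :
    a • ins j s y = ins j (a * s) (a • y) := by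
  ext i
  rcases Fin.eq_self_or_eq_succAbove j i with rfl | ⟨k, rfl⟩
  · simp
  · simp

/-- Any vector is the insertion of its `j` coordinate. -/
lemma ins_self (j : Fin (d + 1)) (y : Fin (d + 1) → ℝ) :
    ins j (y j) (fun k => y (j.succAbove k)) = y := by
  ext i
  rcases Fin.eq_self_or_eq_succAbove j i with rfl | ⟨k, rfl⟩
  · simp
  · simp

lemma sl_convex {j : Fin (d + 1)} {W : Set (Fin (d + 1) → ℝ)} (hW : Convex ℝ W) {s t a b : ℝ}
    (ha : 0 ≤ a) (hb : 0 ≤ b) (hab : a + b = 1) {y w : Fin d → ℝ} (hy : y ∈ sl j W s)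
    (hw : w ∈ sl j W t) : a • y + b • w ∈ sl j W (a * s + b * t) := by
  have := hW hy hw ha hb hab
  rw [ins_add_smul] at this
  exact this

end Vale.Agent.Lib.P248
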