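import Mathlib

open MeasureTheory Set
open scoped ENNReal

namespace Vale.Agent.Lib.P248

/-- The integral of the model profile against the projective weight. -/
lemma model_integral (d : ℕ) {R c : ℝ} (hR : 0 < R) (hc : 0 ≤ c) :
    ∫ t in (0 : ℝ)..R, (1 - t / R) ^ d * ((1 + c * t) ^ (d + 2))⁻¹
      = 1 / (((d : ℝ) + 1) * (1 / R + c)) := by
  have hR' : R ≠ 0 := hR.ne'
  have hk : (0 : ℝ) < 1 / R + c := by positivity
  have hd : (0 : ℝ) < (d : ℝ) + 1 := by positivity
  have hpos : ∀ x ∈ uIcc (0 : ℝ) R, 0 < 1 + c * x := by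
    intro x hx
    rw [uIcc_of_le hR.le] at hx
    have : 0 ≤ c * x := mul_nonneg hc hx.1
    linarith
  let G : ℝ → ℝ := fun t => -(1 / (((d : ℝ) + 1) * (1 / R + c))) * ((1 - t / R) / (1 + c * t)) ^ (d + 1)
  have hderiv : ∀ x ∈ uIcc (0 : ℝ) R, HasDerivAt G ((1 - x / R) ^ d * ((1 + c * x) ^ (d + 2))⁻¹) x := by
    intro x hx
    have hx1 := hpos x hx
    have h1 : HasDerivAt (fun t : ℝ => 1 - t / R) (-(1 / R)) x := by
      have := ((hasDerivAt_id x).div_const R).const_sub (1 : ℝ)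
      simpa using this
    have h2 : HasDerivAt (fun t : ℝ => 1 + c * t) c x := by
      have := ((hasDerivAt_id x).const_mul c).const_add (1 : ℝ)
      simpa using this
    have h3 := (h1.div h2 hx1.ne')
    have h4 := (h3.pow (d + 1)).const_mul (-(1 / (((d : ℝ) + 1) * (1 / R + c))))
    refine HasDerivAt.congr_deriv (f := G) h4 ?_
    simp only [Pi.div_apply, add_tsub_cancel_right]
    push_cast
    have h1R : (0 : ℝ) < 1 + c * R := by positivity
    have hne : (1 + c * x) ≠ 0 := hx1.ne'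
    have hne2 : (1 / R + c) ≠ 0 := hk.ne'
    have hne3 : ((d : ℝ) + 1) ≠ 0 := hd.ne'
    have e : -(1 / R) * (1 + c * x) - (1 - x / R) * c = -(1 / R + c) := by
      field_simp
      ring
    rw [e, pow_add (1 + c * x) d 2, div_pow]
    field_simp
  have hcont : ContinuousOn (fun x : ℝ => (1 - x / R) ^ d * ((1 + c * x) ^ (d + 2))⁻¹) (uIcc 0 R) := by
    apply ContinuousOn.mul
    · exact (Continuous.continuousOn (by fun_prop))
    · apply ContinuousOn.inv₀
      · exact (Continuous.continuousOn (by fun_prop))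
      · intro x hx
        exact pow_ne_zero _ (hpos x hx).ne'
  rw [intervalIntegral.integral_eq_sub_of_hasDerivAt hderiv hcont.intervalIntegrable]
  simp only [G]
  have : (1 - R / R) = 0 := by field_simp; ring
  rw [this]
  simp

/-- The single crossing comparison. -/
lemma crossing {A M Ω : ℝ → ℝ} (hAi : IntegrableOn A (Ioi 0)) (hMi : IntegrableOn M (Ioi 0))
    (hAΩ : IntegrableOn (fun t => A t * Ω t) (Ioi 0)) (hMΩ : IntegrableOn (fun t => M t * Ω t) (Ioi 0))
    (hΩ : AntitoneOn Ω (Ici 0))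
    (hcross : ∀ s₁ s, 0 < s₁ → s₁ < s → M s < A s → M s₁ ≤ A s₁)
    (T : ℝ) (hT : ∀ s, T < s → A s ≤ M s)
    (heq : ∫ t in Ioi 0, A t = ∫ t in Ioi 0, M t) :
    ∫ t in Ioi 0, M t * Ω t ≤ ∫ t in Ioi 0, A t * Ω t := by
  classical
  let S : Set ℝ := {s | 0 < s ∧ M s < A s}
  let s₀ : ℝ := if S.Nonempty then sSup S else 0
  have hbdd : BddAbove S := ⟨T, by
    intro s hs
    by_contra hlt
    exact absurd (hT s (not_le.mp hlt)) (not_le.mpr hs.2)⟩
  have hs₀ : 0 ≤ s₀ := by
    by_cases hne : S.Nonempty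
    · simp only [s₀, if_pos hne]
      obtain ⟨s, hs⟩ := hne
      exact hs.1.le.trans (le_csSup hbdd hs)
    · simp [s₀, if_neg hne]
  have hpt : ∀ t ∈ Ioi (0 : ℝ), 0 ≤ (A t - M t) * (Ω t - Ω s₀) := by
    intro t ht
    have ht' : (0 : ℝ) < t := ht
    rcases lt_trichotomy t s₀ with hlt | heq' | hgt
    · have hne : S.Nonempty := by
        by_contra hne
        simp only [s₀, if_neg hne] at hlt
        linarith
      have hlt' : t < sSup S := by simpa [s₀, if_pos hne] using hlt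
      obtain ⟨s, hsS, hts⟩ := exists_lt_of_lt_csSup hne hlt'
      have h1 : M t ≤ A t := hcross t s ht' hts hsS.2
      have h2 : Ω s₀ ≤ Ω t := hΩ (mem_Ici.mpr ht'.le) (mem_Ici.mpr hs₀) hlt.le
      exact mul_nonneg (by linarith) (by linarith)
    · rw [heq']
      simp
    · have h1 : A t ≤ M t := by
        by_contra hc
        have hmem : t ∈ S := ⟨ht', not_le.mp hc⟩
        have hne : S.Nonempty := ⟨t, hmem⟩
        have : t ≤ s₀ := by
          simp only [s₀, if_pos hne]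
          exact le_csSup hbdd hmem
        linarith
      have h2 : Ω t ≤ Ω s₀ := hΩ (mem_Ici.mpr hs₀) (mem_Ici.mpr ht'.le) hgt.le
      exact mul_nonneg_of_nonpos_of_nonpos (by linarith) (by linarith)
  have hint : 0 ≤ ∫ t in Ioi 0, (A t - M t) * (Ω t - Ω s₀) :=
    setIntegral_nonneg measurableSet_Ioi hpt
  have hexp : ∀ t, (A t - M t) * (Ω t - Ω s₀) = A t * Ω t - M t * Ω t - (A t - M t) * Ω s₀ := by
    intro t; ring
  simp_rw [hexp] at hint
  have hi3 : IntegrableOn (fun t => (A t - M t) * Ω s₀) (Ioi 0) := (hAi.sub hMi).mul_const _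
  have e1 : (∫ t in Ioi 0, (A t * Ω t - M t * Ω t - (A t - M t) * Ω s₀))
      = (∫ t in Ioi 0, (A t * Ω t - M t * Ω t)) - (∫ t in Ioi 0, (A t - M t) * Ω s₀) :=
    integral_sub (f := fun t => A t * Ω t - M t * Ω t) (hAΩ.sub hMΩ) hi3
  have e2 : (∫ t in Ioi 0, (A t * Ω t - M t * Ω t))
      = (∫ t in Ioi 0, A t * Ω t) - (∫ t in Ioi 0, M t * Ω t) := integral_sub hAΩ hMΩ
  have e3 : (∫ t in Ioi 0, (A t - M t) * Ω s₀) = (∫ t in Ioi 0, (A t - M t)) * Ω s₀ :=
    integral_mul_const _ _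
  have e4 : (∫ t in Ioi 0, (A t - M t)) = (∫ t in Ioi 0, A t) - (∫ t in Ioi 0, M t) :=
    integral_sub hAi hMi
  rw [e1, e2, e3, e4, heq] at hint
  simp only [sub_self, zero_mul, sub_zero] at hint
  linarith

end Vale.Agent.Lib.P248
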