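import Vale.Agent.Lib.P248.Fl
import Vale.Agent.Lib.P248.LAB2

open MeasureTheory Set
open scoped ENNReal

namespace Vale.Agent.Lib.P248

variable {d : ℕ}

lemma volume_preimage_smul_fin {r : ℝ} (hr : r ≠ 0) {X : Set (Fin d → ℝ)} :
    volume ((fun x => r • x) ⁻¹' X) = ENNReal.ofReal (|r ^ d|)⁻¹ * volume X := by
  have := Measure.addHaar_preimage_smul (volume : Measure (Fin d → ℝ)) hr X
  rw [Module.finrank_fin_fun] at this
  rw [abs_inv] at this
  exact this

/-- Additive Brunn-Minkowski, with `d`-th roots of the volumes given explicitly. -/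
lemma bm_add {X Y Z : Set (Fin d → ℝ)} (hX : MeasurableSet X) (hY : MeasurableSet Y)
    (hZ : MeasurableSet Z) {p q : ℝ} (hp : 0 < p) (hq : 0 < q)
    (hpX : volume X = ENNReal.ofReal (p ^ d)) (hqY : volume Y = ENNReal.ofReal (q ^ d))
    {a b : ℝ} (ha : 0 < a) (hb : 0 < b)
    (H : ∀ x ∈ X, ∀ y ∈ Y, a • x + b • y ∈ Z) :
    ENNReal.ofReal ((a * p + b * q) ^ d) ≤ volume Z := by
  set r : ℝ := a * p + b * q with hr
  have hrpos : 0 < r := by positivity
  set θ : ℝ := a * p / r with hθ
  have hθ0 : 0 < θ := by positivity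
  have hθ1 : θ < 1 := by
    rw [hθ, div_lt_one hrpos, hr]
    have : 0 < b * q := by positivity
    linarith
  have h1θ : 1 - θ = b * q / r := by
    rw [hθ]
    field_simp
    rw [hr]; ring
  let X' : Set (Fin d → ℝ) := (fun x => p • x) ⁻¹' X
  let Y' : Set (Fin d → ℝ) := (fun x => q • x) ⁻¹' Y
  let Z' : Set (Fin d → ℝ) := (fun x => r • x) ⁻¹' Z
  have hsm : ∀ c : ℝ, Measurable (fun x : Fin d → ℝ => c • x) := fun c => measurable_const_smul c
  have hX' : MeasurableSet X' := (hsm p) hX
  have hY' : MeasurableSet Y' := (hsm q) hY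
  have hZ' : MeasurableSet Z' := (hsm r) hZ
  have hBM := brunn_minkowski_mul (A := X') (B := Y') (C := Z') hX' hY' hZ' hθ0 hθ1 (by
    intro x hx y hy
    show r • (θ • x + (1 - θ) • y) ∈ Z
    have e : r • (θ • x + (1 - θ) • y) = a • (p • x) + b • (q • y) := by
      rw [h1θ, hθ]
      ext i
      simp only [Pi.add_apply, Pi.smul_apply, smul_eq_mul]
      field_simp
    rw [e]
    exact H _ hx _ hy)
  have hv : ∀ {s : ℝ} (hs : 0 < s) {W : Set (Fin d → ℝ)}, volume W = ENNReal.ofReal (s ^ d) →
      volume ((fun x => s • x) ⁻¹' W) = 1 := by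
    intro s hs W hW
    rw [volume_preimage_smul_fin hs.ne', hW, abs_of_pos (by positivity), ← ENNReal.ofReal_mul (by positivity),
      inv_mul_cancel₀ (by positivity)]
    simp
  have hX1 : volume X' = 1 := hv hp hpX
  have hY1 : volume Y' = 1 := hv hq hqY
  rw [hX1, hY1] at hBM
  simp only [ENNReal.one_rpow, mul_one] at hBM
  have hZ1 : volume Z' = ENNReal.ofReal (|r ^ d|)⁻¹ * volume Z := volume_preimage_smul_fin hrpos.ne'
  rw [hZ1, abs_of_pos (by positivity)] at hBM
  have hpow : (0 : ℝ) < r ^ d := by positivity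
  calc ENNReal.ofReal (r ^ d) = ENNReal.ofReal (r ^ d) * 1 := by simp
    _ ≤ ENNReal.ofReal (r ^ d) * (ENNReal.ofReal (r ^ d)⁻¹ * volume Z) := by gcongr
    _ = volume Z := by
      rw [← mul_assoc, ← ENNReal.ofReal_mul hpow.le, mul_inv_cancel₀ hpow.ne']
      simp

/-- The model profile. -/
noncomputable def modelP (d : ℕ) (A0 R : ℝ) : ℝ → ℝ :=
  indicator (Iio R) (fun t => A0 * (1 - t / R) ^ d)

lemma model_setIntegral (d : ℕ) {R c : ℝ} (A0 : ℝ) (hR : 0 < R) (hc : 0 ≤ c) :
    IntegrableOn (fun t => modelP d A0 R t * ((1 + c * t) ^ (d + 2))⁻¹) (Ioi 0) ∧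
    ∫ t in Ioi 0, modelP d A0 R t * ((1 + c * t) ^ (d + 2))⁻¹
      = A0 * (1 / (((d : ℝ) + 1) * (1 / R + c))) := by
  let f : ℝ → ℝ := fun t => A0 * ((1 - t / R) ^ d * ((1 + c * t) ^ (d + 2))⁻¹)
  have hf : (fun t => modelP d A0 R t * ((1 + c * t) ^ (d + 2))⁻¹) = indicator (Iio R) f := by
    ext t
    by_cases ht : t ∈ Iio R
    · simp only [modelP, indicator_of_mem ht, f]
      ring
    · simp only [modelP, indicator_of_notMem ht, zero_mul]
  have hcont : ContinuousOn f (Icc 0 R) := by
    apply ContinuousOn.mul continuousOn_const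
    apply ContinuousOn.mul
    · exact (Continuous.continuousOn (by fun_prop))
    · apply ContinuousOn.inv₀
      · exact (Continuous.continuousOn (by fun_prop))
      · intro x hx
        have : 0 ≤ c * x := mul_nonneg hc hx.1
        exact pow_ne_zero _ (by linarith)
  have hint : IntegrableOn f (Ioo 0 R) :=
    (hcont.integrableOn_Icc).mono_set Ioo_subset_Icc_self
  rw [hf]
  constructor
  · show Integrable (indicator (Iio R) f) (volume.restrict (Ioi 0))
    rw [integrable_indicator_iff measurableSet_Iio, IntegrableOn,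
      Measure.restrict_restrict measurableSet_Iio]
    have : Iio R ∩ Ioi (0 : ℝ) = Ioo 0 R := by
      ext x; simp [and_comm]
    rw [this]
    exact hint
  · rw [setIntegral_indicator measurableSet_Iio]
    have : Ioi (0 : ℝ) ∩ Iio R = Ioo 0 R := by
      ext x; simp
    rw [this, ← integral_Ioc_eq_integral_Ioo, ← intervalIntegral.integral_of_le hR.le]
    simp only [f]
    rw [intervalIntegral.integral_const_mul, model_integral d hR hc]

section slices

variable {j : Fin (d + 1)} {W : Set (Fin (d + 1) → ℝ)}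

/-- The crossing property of a convex body, a consequence of Brunn-Minkowski. -/
lemma profile_cross (hWm : MeasurableSet W) (hWc : Convex ℝ W) {C : ℝ}
    (hWb : ∀ y ∈ W, ∀ i, |y i| ≤ C) {R : ℝ} (hR : 0 < R)
    (hA0 : 0 < (volume (sl j W 0)).toReal) {s₁ s : ℝ} (hs₁ : 0 < s₁) (hs : s₁ < s)
    (hlt : modelP d (volume (sl j W 0)).toReal R s < (volume (sl j W s)).toReal) :
    modelP d (volume (sl j W 0)).toReal R s₁ ≤ (volume (sl j W s₁)).toReal := by
  set A0 := (volume (sl j W 0)).toReal with hA0def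
  have hspos : 0 < s := hs₁.trans hs
  have hMnn : 0 ≤ modelP d A0 R s := by
    unfold modelP
    apply indicator_nonneg
    intro t ht
    have : 0 ≤ 1 - t / R := by
      have h' : t < R := ht
      rw [sub_nonneg, div_le_one hR]
      exact h'.le
    positivity
  have hAs : 0 < (volume (sl j W s)).toReal := lt_of_le_of_lt hMnn hlt
  set l : ℝ := s₁ / s with hl
  have hl0 : 0 < l := by positivity
  have hl1 : l < 1 := by rw [hl, div_lt_one hspos]; exact hs
  have hmix : ∀ x ∈ sl j W 0, ∀ y ∈ sl j W s, (1 - l) • x + l • y ∈ sl j W s₁ := by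
    intro x hx y hy
    have := sl_convex (j := j) hWc (a := 1 - l) (b := l) (by linarith) hl0.le (by ring) hx hy
    have e : (1 - l) * 0 + l * s = s₁ := by
      rw [hl]; field_simp; ring
    rwa [e] at this
  have hne0 : (sl j W 0).Nonempty := by
    by_contra hne
    rw [not_nonempty_iff_eq_empty] at hne
    rw [hA0def, hne] at hA0
    simp at hA0
  have hnes : (sl j W s).Nonempty := by
    by_contra hne
    rw [not_nonempty_iff_eq_empty] at hne
    rw [hne] at hAs
    simp at hAs
  have hne1 : (sl j W s₁).Nonempty := by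
    obtain ⟨x, hx⟩ := hne0
    obtain ⟨y, hy⟩ := hnes
    exact ⟨_, hmix x hx y hy⟩
  rcases Nat.eq_zero_or_pos d with hd | hd
  · subst hd
    have hone : ∀ X : Set (Fin 0 → ℝ), X.Nonempty → volume X = 1 := by
      intro X hX
      have hX' : X = univ := by
        obtain ⟨x, hx⟩ := hX
        ext y
        simp only [mem_univ, iff_true]
        rwa [Subsingleton.elim y x]
      rw [hX', volume_pi, Measure.pi_of_empty]
      simp
    rw [hone _ hne1]
    have : A0 = 1 := by
      rw [hA0def, hone _ hne0]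
      simp
    rw [this]
    unfold modelP
    by_cases hh : s₁ ∈ Iio R
    · rw [indicator_of_mem hh]
      simp
    · rw [indicator_of_notMem hh]
      simp
  · have hd' : d ≠ 0 := hd.ne'
    set q : ℝ := ((volume (sl j W s)).toReal) ^ ((d : ℝ)⁻¹) with hq
    set p : ℝ := A0 ^ ((d : ℝ)⁻¹) with hp
    have hq0 : 0 < q := Real.rpow_pos_of_pos hAs _
    have hp0 : 0 < p := Real.rpow_pos_of_pos hA0 _
    have hqd : q ^ d = (volume (sl j W s)).toReal := Real.rpow_inv_natCast_pow hAs.le hd'
    have hpd : p ^ d = A0 := Real.rpow_inv_natCast_pow hA0.le hd'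
    have hvol0 : volume (sl j W 0) = ENNReal.ofReal (p ^ d) := by
      rw [hpd, hA0def, ENNReal.ofReal_toReal (volume_sl_ne_top hWb 0)]
    have hvols : volume (sl j W s) = ENNReal.ofReal (q ^ d) := by
      rw [hqd, ENNReal.ofReal_toReal (volume_sl_ne_top hWb s)]
    have hBM := bm_add (measurableSet_sl j hWm 0) (measurableSet_sl j hWm s)
      (measurableSet_sl j hWm s₁) hp0 hq0 hvol0 hvols (a := 1 - l) (b := l) (by linarith) hl0 hmix
    have hBM' : ((1 - l) * p + l * q) ^ d ≤ (volume (sl j W s₁)).toReal :=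
      (ENNReal.ofReal_le_iff_le_toReal (volume_sl_ne_top hWb s₁)).1 hBM
    refine le_trans ?_ hBM'
    unfold modelP
    by_cases hh : s₁ ∈ Iio R
    · rw [indicator_of_mem hh]
      have hh' : s₁ < R := hh
      have h1 : 0 ≤ 1 - s₁ / R := by
        rw [sub_nonneg, div_le_one hR]; exact hh'.le
      have hq1 : p * (1 - s / R) ≤ q := by
        by_cases hsR : s ∈ Iio R
        · have hsR' : s < R := hsR
          have h2 : 0 ≤ 1 - s / R := by
            rw [sub_nonneg, div_le_one hR]; exact hsR'.le
          have : (p * (1 - s / R)) ^ d < q ^ d := by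
            rw [hqd, mul_pow, hpd]
            have := hlt
            unfold modelP at this
            rwa [indicator_of_mem hsR] at this
          exact (lt_of_pow_lt_pow_left₀ d hq0.le this).le
        · have hsR' : R ≤ s := not_lt.mp hsR
          have h2 : 1 - s / R ≤ 0 := by
            rw [sub_nonpos, one_le_div hR]; exact hsR'
          have : p * (1 - s / R) ≤ 0 := mul_nonpos_of_nonneg_of_nonpos hp0.le h2
          linarith
      have hle : p * (1 - s₁ / R) ≤ (1 - l) * p + l * q := by
        have e : p * (1 - s₁ / R) = (1 - l) * p + l * (p * (1 - s / R)) := by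
          rw [hl]; field_simp; ring
        rw [e]
        have := mul_le_mul_of_nonneg_left hq1 hl0.le
        linarith
      calc A0 * (1 - s₁ / R) ^ d = (p * (1 - s₁ / R)) ^ d := by rw [mul_pow, hpd]
        _ ≤ _ := pow_le_pow_left₀ (by positivity) hle d
    · rw [indicator_of_notMem hh]
      positivity

end slices

end Vale.Agent.Lib.P248
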