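import Vale.Agent.Lib.P248.LAB3

open MeasureTheory Set
open scoped ENNReal Pointwise

namespace Vale.Agent.Lib.P248

variable {d : ℕ} {j : Fin (d + 1)}

/-- The volume of the `j` positive half of `W`, as an integral of slices. -/
lemma volume_pos_half {W : Set (Fin (d + 1) → ℝ)} (hW : MeasurableSet W) :
    volume (W ∩ {y | 0 < y j}) = ∫⁻ t in Ioi 0, volume (sl j W t) :=
  volume_inter_coord j hW measurableSet_Ioi

/-- The projective image bound: if `W` is convex and its positive half is mapped into `W'` by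
`y ↦ y / (1 + c y_j)`, then the volume of the positive half of `W'` is bounded below by Berwald's
comparison with a cone. -/
theorem berwald_proj {W W' : Set (Fin (d + 1) → ℝ)} (hWm : MeasurableSet W)
    (hW'm : MeasurableSet W') (hWc : Convex ℝ W) {C : ℝ} (hWb : ∀ y ∈ W, ∀ i, |y i| ≤ C)
    {c : ℝ} (hc : 0 < c) (hmap : ∀ y ∈ W, 0 < y j → (1 + c * y j)⁻¹ • y ∈ W')
    (hV : 0 < (volume (W ∩ {y | 0 < y j})).toReal) (hA0 : 0 < (volume (sl j W 0)).toReal) :
    ENNReal.ofReal (1 / (1 / (volume (W ∩ {y | 0 < y j})).toReal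
      + ((d : ℝ) + 1) * c / (volume (sl j W 0)).toReal)) ≤ volume (W' ∩ {y | 0 < y j}) := by
  set V := (volume (W ∩ {y | 0 < y j})).toReal with hVdef
  set A0 := (volume (sl j W 0)).toReal with hA0def
  let a : ℝ → ℝ≥0∞ := fun t => volume (sl j W t)
  let A : ℝ → ℝ := fun t => (a t).toReal
  have ha_meas : Measurable a := measurable_volume_sl j hWm
  have hfin : ∀ t, a t ≠ ⊤ := fun t => volume_sl_ne_top hWb t
  have hAmeas : Measurable A := ha_meas.ennreal_toReal
  have hvol : volume (W ∩ {y | 0 < y j}) = ∫⁻ t in Ioi 0, a t := volume_pos_half hWm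
  have hvfin : volume (W ∩ {y | 0 < y j}) ≠ ⊤ := by
    intro h
    rw [hVdef, h] at hV
    simp at hV
  have hAi : IntegrableOn A (Ioi 0) :=
    integrable_toReal_of_lintegral_ne_top ha_meas.aemeasurable (by rw [← hvol]; exact hvfin)
  have hAint : ∫ t in Ioi 0, A t = V := by
    have := integral_toReal (μ := volume.restrict (Ioi (0 : ℝ))) ha_meas.aemeasurable
      (ae_of_all _ (fun t => lt_top_iff_ne_top.2 (hfin t)))
    rw [this, ← hvol]
  have hd1 : (0 : ℝ) < (d : ℝ) + 1 := by positivity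
  set R : ℝ := ((d : ℝ) + 1) * V / A0 with hRdef
  have hR : 0 < R := by positivity
  let M : ℝ → ℝ := modelP d A0 R
  let Ω : ℝ → ℝ := fun t => ((1 + c * t) ^ (d + 2))⁻¹
  have hM0 := model_setIntegral d (c := 0) A0 hR le_rfl
  have hMc := model_setIntegral d (c := c) A0 hR hc.le
  have hs0 : ∀ t : ℝ, modelP d A0 R t * ((1 + 0 * t) ^ (d + 2))⁻¹ = modelP d A0 R t := by
    intro t; simp
  simp_rw [hs0] at hM0
  have hMi : IntegrableOn M (Ioi 0) := hM0.1
  have hMint : ∫ t in Ioi 0, M t = V := by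
    rw [hM0.2, add_zero, hRdef]
    field_simp
  have hMΩ : IntegrableOn (fun t => M t * Ω t) (Ioi 0) := hMc.1
  have hΩmeas : Measurable Ω := by
    apply Measurable.inv
    apply Measurable.pow_const
    exact measurable_const.add (measurable_const.mul measurable_id)
  have hΩ0 : ∀ t ∈ Ioi (0 : ℝ), 0 ≤ Ω t ∧ Ω t ≤ 1 := by
    intro t ht
    have h1 : 1 ≤ 1 + c * t := by
      have : 0 ≤ c * t := mul_nonneg hc.le (le_of_lt ht)
      linarith
    have h2 : 1 ≤ (1 + c * t) ^ (d + 2) := one_le_pow₀ h1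
    constructor
    · positivity
    · exact inv_le_one_of_one_le₀ h2
  have hAΩ : IntegrableOn (fun t => A t * Ω t) (Ioi 0) := by
    refine Integrable.mono' hAi ?_ ?_
    · exact (hAmeas.mul hΩmeas).aestronglyMeasurable
    · refine (ae_restrict_iff' measurableSet_Ioi).2 (ae_of_all _ ?_)
      intro t ht
      have hAnn : 0 ≤ A t := ENNReal.toReal_nonneg
      rw [Real.norm_eq_abs, abs_of_nonneg (mul_nonneg hAnn (hΩ0 t ht).1)]
      calc A t * Ω t ≤ A t * 1 := mul_le_mul_of_nonneg_left (hΩ0 t ht).2 hAnn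
        _ = A t := mul_one _
  have hΩanti : AntitoneOn Ω (Ici 0) := by
    intro x hx y hy hxy
    have hx' : (0 : ℝ) ≤ x := hx
    have h1 : 0 < 1 + c * x := by
      have : 0 ≤ c * x := mul_nonneg hc.le hx'
      linarith
    have h2 : 1 + c * x ≤ 1 + c * y := by
      have := mul_le_mul_of_nonneg_left hxy hc.le
      linarith
    apply inv_anti₀ (by positivity)
    exact pow_le_pow_left₀ h1.le h2 _
  have hcr := crossing hAi hMi hAΩ hMΩ hΩanti
    (fun s₁ s hs₁ hs hlt => profile_cross hWm hWc hWb hR hA0 hs₁ hs hlt) C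
    (fun s hs => by
      have : A s = 0 := by
        simp only [A, a]
        rw [sl_eq_empty hWb hs]
        simp
      rw [this]
      show 0 ≤ modelP d A0 R s
      unfold modelP
      apply indicator_nonneg
      intro t ht
      have : 0 ≤ 1 - t / R := by
        have h' : t < R := ht
        rw [sub_nonneg, div_le_one hR]
        exact h'.le
      positivity)
    (by rw [hAint, hMint])
  have hval : ∫ t in Ioi 0, M t * Ω t = 1 / (1 / V + ((d : ℝ) + 1) * c / A0) := by
    rw [hMc.2, hRdef]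
    field_simp
  rw [hval] at hcr
  -- now the change of variables
  let a' : ℝ → ℝ≥0∞ := fun s => volume (sl j W' s)
  have hvol' : volume (W' ∩ {y | 0 < y j}) = ∫⁻ s in Ioi 0, a' s := volume_pos_half hW'm
  let φ : ℝ → ℝ := fun t => t / (1 + c * t)
  let φ' : ℝ → ℝ := fun t => ((1 + c * t) ^ 2)⁻¹
  have hpos : ∀ t ∈ Ioi (0 : ℝ), 0 < 1 + c * t := by
    intro t ht
    have : 0 < c * t := mul_pos hc ht
    linarith
  have hφd : ∀ t ∈ Ioi (0 : ℝ), HasDerivWithinAt φ (φ' t) (Ioi 0) t := by
    intro t ht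
    have h1 : HasDerivAt (fun t : ℝ => 1 + c * t) c t := by
      have := ((hasDerivAt_id t).const_mul c).const_add (1 : ℝ)
      simpa using this
    have h2 := (hasDerivAt_id t).div h1 (hpos t ht).ne'
    refine HasDerivAt.hasDerivWithinAt ?_
    refine HasDerivAt.congr_deriv (f := φ) h2 ?_
    simp only [id, φ']
    have := (hpos t ht).ne'
    field_simp
    ring
  have hφinj : InjOn φ (Ioi 0) := by
    intro x hx y hy hxy
    simp only [φ] at hxy
    have h1 := (hpos x hx).ne'
    have h2 := (hpos y hy).ne'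
    have h3 := (div_eq_div_iff h1 h2).1 hxy
    linear_combination h3
  have hφsub : φ '' Ioi 0 ⊆ Ioi 0 := by
    rintro _ ⟨t, ht, rfl⟩
    exact div_pos ht (hpos t ht)
  have hchg := lintegral_image_eq_lintegral_abs_deriv_mul measurableSet_Ioi hφd hφinj a'
  have hle1 : ∫⁻ s in φ '' Ioi 0, a' s ≤ volume (W' ∩ {y | 0 < y j}) := by
    rw [hvol']
    exact lintegral_mono_set hφsub
  have hinc : ∀ t ∈ Ioi (0 : ℝ), (1 + c * t)⁻¹ • sl j W t ⊆ sl j W' (φ t) := by
    intro t ht y hy
    obtain ⟨w, hw, rfl⟩ := hy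
    have hw' : ins j t w ∈ W := hw
    have h1 := hmap _ hw' (by rw [ins_apply_same]; exact ht)
    rw [ins_apply_same, smul_ins] at h1
    have e : (1 + c * t)⁻¹ * t = φ t := by
      simp only [φ]
      field_simp
    rw [e] at h1
    exact h1
  have hpt : ∀ t ∈ Ioi (0 : ℝ), ENNReal.ofReal (A t * Ω t) ≤ ENNReal.ofReal |φ' t| * a' (φ t) := by
    intro t ht
    have hp := hpos t ht
    have h1 : ENNReal.ofReal |((1 + c * t)⁻¹) ^ d| * a t ≤ a' (φ t) := by
      have := Measure.addHaar_smul (volume : Measure (Fin d → ℝ)) ((1 + c * t)⁻¹) (sl j W t)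
      rw [Module.finrank_fin_fun] at this
      rw [← this]
      exact measure_mono (hinc t ht)
    have hat : a t = ENNReal.ofReal (A t) := (ENNReal.ofReal_toReal (hfin t)).symm
    have hAnn : 0 ≤ A t := ENNReal.toReal_nonneg
    have e1 : A t * Ω t = |φ' t| * (|((1 + c * t)⁻¹) ^ d| * A t) := by
      simp only [Ω, φ']
      rw [abs_of_pos (by positivity), abs_of_pos (by positivity), pow_add, mul_inv, inv_pow]
      ring
    rw [e1, ENNReal.ofReal_mul (abs_nonneg _)]
    gcongr
    refine le_trans ?_ h1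
    rw [ENNReal.ofReal_mul (abs_nonneg _), ← hat]
  have hfinal : ENNReal.ofReal (∫ t in Ioi 0, A t * Ω t) ≤ volume (W' ∩ {y | 0 < y j}) := by
    have hnn : 0 ≤ᵐ[volume.restrict (Ioi (0 : ℝ))] fun t => A t * Ω t := by
      refine (ae_restrict_iff' measurableSet_Ioi).2 (ae_of_all _ ?_)
      intro t ht
      exact mul_nonneg ENNReal.toReal_nonneg (hΩ0 t ht).1
    rw [ofReal_integral_eq_lintegral_ofReal hAΩ hnn]
    refine le_trans ?_ hle1
    rw [hchg]
    exact setLIntegral_mono' measurableSet_Ioi hpt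
  exact (ENNReal.ofReal_le_ofReal hcr).trans hfinal

end Vale.Agent.Lib.P248
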