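import Vale.Agent.Lib.P248.LAB4

open MeasureTheory Set Function
open scoped ENNReal Pointwise

namespace Vale.Agent.Lib.P248

variable {d : ℕ} {j : Fin (d + 1)}

lemma modelP_nonneg {A0 R : ℝ} (hA0 : 0 ≤ A0) (hR : 0 < R) (t : ℝ) : 0 ≤ modelP d A0 R t := by
  unfold modelP
  apply indicator_nonneg
  intro t ht
  have : 0 ≤ 1 - t / R := by
    have h' : t < R := ht
    rw [sub_nonneg, div_le_one hR]
    exact h'.le
  positivity

lemma model_int0 {A0 R : ℝ} (hR : 0 < R) :
    IntegrableOn (modelP d A0 R) (Ioi 0) ∧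
      ∫ t in Ioi 0, modelP d A0 R t = A0 * (1 / (((d : ℝ) + 1) * (1 / R))) := by
  have hM0 := model_setIntegral d (c := 0) A0 hR le_rfl
  have hs0 : ∀ t : ℝ, modelP d A0 R t * ((1 + 0 * t) ^ (d + 2))⁻¹ = modelP d A0 R t := by
    intro t; simp
  simp_rw [hs0, add_zero] at hM0
  exact hM0

lemma lower_of_model {W : Set (Fin (d + 1) → ℝ)} (hW : MeasurableSet W) {A0 R : ℝ} (hR : 0 < R)
    (hA0 : 0 ≤ A0) (h : ∀ t ∈ Ioi (0 : ℝ), ENNReal.ofReal (modelP d A0 R t) ≤ volume (sl j W t)) :
    ENNReal.ofReal (A0 * (1 / (((d : ℝ) + 1) * (1 / R)))) ≤ volume (W ∩ {y | 0 < y j}) := by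
  obtain ⟨h1, h2⟩ := model_int0 (d := d) (A0 := A0) hR
  rw [← h2, ofReal_integral_eq_lintegral_ofReal h1 (ae_of_all _ (modelP_nonneg hA0 hR)),
    volume_pos_half hW]
  exact setLIntegral_mono' measurableSet_Ioi h

lemma lintegral_Iio_neg (g : ℝ → ℝ≥0∞) : ∫⁻ t in Iio 0, g t = ∫⁻ s in Ioi 0, g (-s) := by
  rw [← lintegral_indicator measurableSet_Iio, ← lintegral_indicator measurableSet_Ioi,
    ← lintegral_neg_eq_self]
  apply lintegral_congr
  intro s
  by_cases hs : s ∈ Ioi (0 : ℝ)
  · have hs' : -s ∈ Iio (0 : ℝ) := by simpa using hs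
    rw [indicator_of_mem hs', indicator_of_mem hs]
  · have hs' : -s ∉ Iio (0 : ℝ) := by simpa using hs
    rw [indicator_of_notMem hs', indicator_of_notMem hs]

lemma upper_of_model {W : Set (Fin (d + 1) → ℝ)} (hW : MeasurableSet W) {A0 R : ℝ} (hR : 0 < R)
    (hA0 : 0 ≤ A0)
    (h : ∀ t ∈ Ioi (0 : ℝ), t ≠ R → volume (sl j W (-t)) ≤ ENNReal.ofReal (modelP d A0 R t)) :
    volume (W ∩ {y | y j < 0}) ≤ ENNReal.ofReal (A0 * (1 / (((d : ℝ) + 1) * (1 / R)))) := by
  obtain ⟨h1, h2⟩ := model_int0 (d := d) (A0 := A0) hR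
  rw [← h2, ofReal_integral_eq_lintegral_ofReal h1 (ae_of_all _ (modelP_nonneg hA0 hR))]
  have e : volume (W ∩ {y | y j < 0}) = ∫⁻ t in Iio 0, volume (sl j W t) :=
    volume_inter_coord j hW measurableSet_Iio
  rw [e, lintegral_Iio_neg]
  apply setLIntegral_mono_ae' measurableSet_Ioi
  have hne : ∀ᵐ t : ℝ, t ≠ R := by
    have : volume ({R} : Set ℝ) = 0 := measure_singleton R
    filter_upwards [compl_mem_ae_iff.2 this] with t ht
    simpa using ht
  filter_upwards [hne] with t ht htI
  exact h t htI ht

/-! ### sums under updates -/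

lemma sum_update_left (y x w : Fin (d + 1) → ℝ) (c : ℝ) :
    ∑ i, y i * (update x j c i - w i) = ∑ i, y i * (x i - w i) + y j * (c - x j) := by
  rw [Fin.sum_univ_succAbove _ j, Fin.sum_univ_succAbove (fun i => y i * (x i - w i)) j]
  have : ∀ k, update x j c (j.succAbove k) = x (j.succAbove k) := by
    intro k
    exact update_of_ne (Fin.succAbove_ne j k) _ _
  simp only [update_self, this]
  ring

lemma sum_update_right (y x z : Fin (d + 1) → ℝ) (c : ℝ) :
    ∑ i, y i * (x i - update z j c i) = ∑ i, y i * (x i - z i) + y j * (z j - c) := by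
  rw [Fin.sum_univ_succAbove _ j, Fin.sum_univ_succAbove (fun i => y i * (x i - z i)) j]
  have : ∀ k, update z j c (j.succAbove k) = z (j.succAbove k) := by
    intro k
    exact update_of_ne (Fin.succAbove_ne j k) _ _
  simp only [update_self, this]
  ring

lemma sl_polar_zero (K : Set (Fin (d + 1) → ℝ)) (z : Fin (d + 1) → ℝ) (h : ℝ) :
    sl j (polarAt K (update z j h)) 0 = sl j (polarAt K z) 0 := by
  ext u
  simp only [sl, mem_ofPred_eq, polarAt]
  have e : ∀ x : Fin (d + 1) → ℝ, ∑ i, ins j 0 u i * (x i - update z j h i)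
      = ∑ i, ins j 0 u i * (x i - z i) := by
    intro x
    rw [sum_update_right, ins_apply_same]
    ring
  simp_rw [e]

/-- The lower half of the polar of the upper part is contained in a cone. -/
lemma neg_half_bound {K : Set (Fin (d + 1) → ℝ)} (hstar : ∀ x ∈ K, update x j 0 ∈ K)
    {z : Fin (d + 1) → ℝ} (hzK : z ∈ K) {a : ℝ} (ha : 0 < a)
    (hfin : volume (sl j (polarAt K z) 0) ≠ ⊤) :
    volume (polarAt (K ∩ {x | 0 ≤ x j}) (update z j a) ∩ {y | y j < 0}) ≤
      ENNReal.ofReal ((volume (sl j (polarAt K z) 0)).toReal *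
        (1 / (((d : ℝ) + 1) * (1 / (1 / a))))) := by
  set Q := K ∩ {x | 0 ≤ x j} with hQ
  set W := polarAt Q (update z j a) with hW
  set D0 := sl j (polarAt K z) 0 with hD0
  have hWm : MeasurableSet W := (polarAt_isClosed _ _).measurableSet
  have hR : 0 < 1 / a := by positivity
  have hkey : ∀ t, ∀ u ∈ sl j W (-t), ∀ x ∈ K,
      t * a + ∑ k, u k * (x (j.succAbove k) - z (j.succAbove k)) ≤ 1 := by
    intro t u hu x hx
    have hx' : update x j 0 ∈ Q := ⟨hstar x hx, by simp⟩
    have := hu _ hx'
    rw [sum_ins] at this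
    simp only [update_self] at this
    have e : ∀ k, update x j 0 (j.succAbove k) = x (j.succAbove k) := fun k =>
      update_of_ne (Fin.succAbove_ne j k) _ _
    have e' : ∀ k, update z j a (j.succAbove k) = z (j.succAbove k) := fun k =>
      update_of_ne (Fin.succAbove_ne j k) _ _
    simp only [e, e'] at this
    linarith
  apply upper_of_model hWm hR ENNReal.toReal_nonneg
  intro t ht htR
  have ht' : (0 : ℝ) < t := ht
  rcases lt_or_gt_of_ne htR with hlt | hgt
  · -- the cone part
    have hmem : t ∈ Iio (1 / a) := hlt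
    have e1 : 1 - t / (1 / a) = 1 - t * a := by field_simp
    have hta : t * a < 1 := by
      have := (lt_div_iff₀ ha).1 hlt
      linarith
    set r : ℝ := 1 - t * a with hr
    have hr0 : 0 < r := by linarith
    have hsub : sl j W (-t) ⊆ r • D0 := by
      intro u hu
      refine ⟨r⁻¹ • u, ?_, by simp [smul_smul, mul_inv_cancel₀ hr0.ne']⟩
      show ins j 0 (r⁻¹ • u) ∈ polarAt K z
      intro x hx
      rw [sum_ins]
      have := hkey t u hu x hx
      simp only [Pi.smul_apply, smul_eq_mul]
      have e : ∑ k, r⁻¹ * u k * (x (j.succAbove k) - z (j.succAbove k))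
          = r⁻¹ * ∑ k, u k * (x (j.succAbove k) - z (j.succAbove k)) := by
        rw [Finset.mul_sum]
        exact Finset.sum_congr rfl (fun k _ => by ring)
      rw [e, zero_mul, zero_add, inv_mul_le_iff₀ hr0, mul_one]
      linarith
    calc volume (sl j W (-t)) ≤ volume (r • D0) := measure_mono hsub
      _ = ENNReal.ofReal |r ^ d| * volume D0 := by
        have := Measure.addHaar_smul (volume : Measure (Fin d → ℝ)) r D0
        rwa [Module.finrank_fin_fun] at this
      _ = ENNReal.ofReal (modelP d (volume D0).toReal (1 / a) t) := by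
        unfold modelP
        rw [indicator_of_mem hmem, e1, abs_of_pos (by positivity), mul_comm,
          ENNReal.ofReal_mul ENNReal.toReal_nonneg, ENNReal.ofReal_toReal hfin]
  · -- beyond the apex the slice is empty
    have hempty : sl j W (-t) = ∅ := by
      ext u
      simp only [mem_empty_iff_false, iff_false]
      intro hu
      have := hkey t u hu z hzK
      simp only [sub_self, mul_zero, Finset.sum_const_zero, add_zero] at this
      have h2 : 1 / a < t := hgt
      have h3 := (div_lt_iff₀ ha).1 h2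
      linarith
    rw [hempty]
    simp

/-- A point of the polar at height `R` in the coordinate `j` forces a cone in the polar. -/
lemma pos_half_apex {W : Set (Fin (d + 1) → ℝ)} (hWm : MeasurableSet W) (hWc : Convex ℝ W)
    (hfin : volume (sl j W 0) ≠ ⊤) {Y : Fin (d + 1) → ℝ} (hY : Y ∈ W) (hR : 0 < Y j) :
    ENNReal.ofReal ((volume (sl j W 0)).toReal * (1 / (((d : ℝ) + 1) * (1 / Y j)))) ≤
      volume (W ∩ {y | 0 < y j}) := by
  set R := Y j with hRdef
  apply lower_of_model hWm hR ENNReal.toReal_nonneg
  intro t ht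
  have ht' : (0 : ℝ) < t := ht
  by_cases hmem : t ∈ Iio R
  · have hlt : t < R := hmem
    set r : ℝ := 1 - t / R with hr
    have hl0 : 0 ≤ t / R := by positivity
    have hr0 : 0 < r := by
      rw [hr, sub_pos, div_lt_one hR]; exact hlt
    set Y' : Fin d → ℝ := fun k => Y (j.succAbove k) with hY'
    have hYins : Y' ∈ sl j W R := by
      show ins j (Y j) Y' ∈ W
      rw [hY', ins_self]
      exact hY
    set v : Fin d → ℝ := (t / R) • Y' with hv
    have hsub : r • sl j W 0 ⊆ (fun u => u + v) ⁻¹' sl j W t := by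
      rintro _ ⟨x, hx, rfl⟩
      have := sl_convex (j := j) hWc (a := r) (b := t / R) hr0.le hl0 (by rw [hr]; ring) hx hYins
      have e : r * 0 + t / R * R = t := by field_simp; ring
      rwa [e] at this
    calc ENNReal.ofReal (modelP d (volume (sl j W 0)).toReal R t)
        = ENNReal.ofReal |r ^ d| * volume (sl j W 0) := by
          unfold modelP
          rw [indicator_of_mem hmem, abs_of_pos (by positivity), mul_comm,
            ENNReal.ofReal_mul (by positivity), ENNReal.ofReal_toReal hfin]
      _ = volume (r • sl j W 0) := by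
          have := Measure.addHaar_smul (volume : Measure (Fin d → ℝ)) r (sl j W 0)
          rw [Module.finrank_fin_fun] at this
          exact this.symm
      _ ≤ volume ((fun u => u + v) ⁻¹' sl j W t) := measure_mono hsub
      _ = volume (sl j W t) := measure_preimage_add_right _ _ _
  · unfold modelP
    rw [indicator_of_notMem hmem]
    simp

/-- The top point over `z`. -/
lemma exists_top {K : Set (Fin (d + 1) → ℝ)} (hK : IsCompact K) {z : Fin (d + 1) → ℝ}
    (hz : z ∈ interior K) (j : Fin (d + 1)) :
    ∃ f0, update z j f0 ∈ K ∧ (∀ h, update z j h ∈ K → h ≤ f0) ∧ z j < f0 := by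
  classical
  let T : Set ℝ := {h | update z j h ∈ K}
  have hcont : Continuous (fun h : ℝ => update z j h) := continuous_const.update j continuous_id
  have hTc : IsClosed T := hK.isClosed.preimage hcont
  obtain ⟨R, hR⟩ := bounded_of_compact hK
  have hTb : BddAbove T := ⟨R, fun h hh => by
    have := hR _ hh j
    simp only [update_self] at this
    exact (le_abs_self h).trans this⟩
  have hzK : z ∈ K := interior_subset hz
  have hTne : T.Nonempty := ⟨z j, by simpa [T] using hzK⟩
  refine ⟨sSup T, hTc.csSup_mem hTne hTb, fun h hh => le_csSup hTb hh, ?_⟩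
  obtain ⟨δ, hδ, hbox⟩ := exists_box_of_interior hz
  have hm : z j + δ ∈ T := by
    apply hbox
    intro l
    by_cases hl : l = j
    · subst hl; simp [abs_of_pos hδ]
    · simp [hl, hδ.le]
  have := le_csSup hTb hm
  linarith

/-- Supporting functional at the top point. -/
lemma exists_apex {K : Set (Fin (d + 1) → ℝ)} (hc : Convex ℝ K) {z : Fin (d + 1) → ℝ}
    (hz : z ∈ interior K) {f0 : ℝ} (ht : update z j f0 ∈ K)
    (hmax : ∀ h, update z j h ∈ K → h ≤ f0) (hlt : z j < f0) :
    ∃ Y ∈ polarAt K z, Y j = 1 / (f0 - z j) := by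
  classical
  set t := update z j f0 with htdef
  have htnot : t ∉ interior K := by
    intro hti
    obtain ⟨δ, hδ, hbox⟩ := exists_box_of_interior hti
    have hm : update t j (f0 + δ) ∈ K := by
      apply hbox
      intro l
      by_cases hl : l = j
      · subst hl; simp [abs_of_pos hδ, t]
      · simp [hl, hδ.le]
    have e : update t j (f0 + δ) = update z j (f0 + δ) := by
      simp [t]
    rw [e] at hm
    have := hmax _ hm
    linarith
  obtain ⟨l, hl⟩ := geometric_hahn_banach_open_point hc.interior isOpen_interior htnot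
  have hclos : ∀ x ∈ K, l x ≤ l t := by
    intro x hx
    have hne : (interior K).Nonempty := ⟨z, hz⟩
    have hx2 : x ∈ closure (interior K) := by
      rw [hc.closure_interior_eq_closure_of_nonempty_interior hne]
      exact subset_closure hx
    have hclosed : IsClosed {a | l a ≤ l t} := isClosed_le l.continuous continuous_const
    exact closure_minimal (fun a ha => (hl a ha).le) hclosed hx2
  let y : Fin (d + 1) → ℝ := fun i => l (Pi.single i 1)
  have hly : ∀ x, l x = ∑ i, y i * x i := by
    intro x
    have : x = ∑ i, x i • (Pi.single i 1 : Fin (d + 1) → ℝ) := by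
      ext m
      simp [Finset.sum_apply, Pi.single_apply]
    conv_lhs => rw [this]
    rw [map_sum]
    apply Finset.sum_congr rfl
    intro i _
    rw [map_smul, smul_eq_mul, mul_comm]
  have hzt : l z < l t := hl z hz
  have hdiff : l t - l z = y j * (f0 - z j) := by
    rw [hly, hly, ← Finset.sum_sub_distrib]
    rw [Finset.sum_eq_single j]
    · simp [t]; ring
    · intro i _ hi
      simp [t, hi]
    · simp
  have hyj : 0 < y j := by
    have h1 : 0 < y j * (f0 - z j) := by rw [← hdiff]; linarith
    exact (mul_pos_iff_of_pos_right (by linarith)).1 h1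
  have hgap : 0 < f0 - z j := by linarith
  set c : ℝ := 1 / (y j * (f0 - z j)) with hc'
  have hc0 : 0 < c := by positivity
  refine ⟨c • y, ?_, ?_⟩
  · intro x hx
    have h1 := hclos x hx
    have e : ∑ i, (c • y) i * (x i - z i) = c * (l x - l z) := by
      rw [hly x, hly z, ← Finset.sum_sub_distrib, Finset.mul_sum]
      apply Finset.sum_congr rfl
      intro i _
      simp only [Pi.smul_apply, smul_eq_mul]
      ring
    rw [e]
    have h2 : l x - l z ≤ y j * (f0 - z j) := by rw [← hdiff]; linarith
    calc c * (l x - l z) ≤ c * (y j * (f0 - z j)) := mul_le_mul_of_nonneg_left h2 hc0.le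
      _ = 1 := by rw [hc']; field_simp
  · simp only [Pi.smul_apply, smul_eq_mul, hc']
    field_simp

/-- Points on the vertical line through `z` between `z` and a point of `K`. -/
lemma update_mem_interior {K : Set (Fin (d + 1) → ℝ)} (hc : Convex ℝ K) {z : Fin (d + 1) → ℝ}
    (hz : z ∈ interior K) {u : ℝ} (hu : update z j u ∈ K) {l : ℝ} (hl0 : 0 ≤ l) (hl1 : l < 1) :
    update z j ((1 - l) * z j + l * u) ∈ interior K := by
  have := hc.combo_interior_self_mem_interior hz hu (a := 1 - l) (b := l) (by linarith) hl0 (by ring)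
  have e : (1 - l) • z + l • update z j u = update z j ((1 - l) * z j + l * u) := by
    ext i
    by_cases hi : i = j
    · subst hi; simp
    · simp [hi]; ring
  rwa [e] at this

end Vale.Agent.Lib.P248
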