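import Vale.Agent.Lib.P248.LAB5

open MeasureTheory Set Function
open scoped ENNReal Pointwise

namespace Vale.Agent.Lib.P248

variable {d : ℕ} {j : Fin (d + 1)}

lemma polar_half_sub {K : Set (Fin (d + 1) → ℝ)} (hstar : ∀ x ∈ K, update x j 0 ∈ K)
    {w y : Fin (d + 1) → ℝ} (hy : y ∈ polarAt (K ∩ {x | 0 ≤ x j}) w) (hj : 0 < y j) :
    y ∈ polarAt K w := by
  intro x hx
  by_cases hxj : 0 ≤ x j
  · exact hy x ⟨hx, hxj⟩
  · push Not at hxj
    have h1 := hy (update x j 0) ⟨hstar x hx, by simp⟩
    rw [sum_update_left] at h1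
    have h2 : y j * (0 - x j) ≥ 0 := mul_nonneg hj.le (by linarith)
    linarith

theorem half_bound {K : Set (Fin (d + 1) → ℝ)} (hK : IsCompact K) (hc : Convex ℝ K)
    (hstar : ∀ x ∈ K, update x j 0 ∈ K) {z : Fin (d + 1) → ℝ} (hz : z ∈ interior K)
    {M : ℝ} (hM : 0 < M)
    (H : ∀ w ∈ interior (K ∩ {x | 0 ≤ x j}),
      M ≤ (volume (K ∩ {x | 0 ≤ x j})).toReal * (volume (polarAt (K ∩ {x | 0 ≤ x j}) w)).toReal)
    {I A0 : ℝ} (hI : I = (volume (K ∩ {x | 0 ≤ x j})).toReal) (hI0 : 0 < I)
    (hA : A0 = (volume (sl j (polarAt K z) 0)).toReal) (hA0 : 0 < A0)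
    {ρ : ℝ} (hρ : 0 < ρ) {a : ℝ} (ha : a = (I / M) * (1 + 1 / ρ) * (A0 / ((d : ℝ) + 1)))
    (hb0 : z j < a) :
    ENNReal.ofReal (1 / ((I / M) * (1 + ρ) + ((d : ℝ) + 1) * (a - z j) / A0)) ≤
      volume (polarAt K z ∩ {y | 0 < y j}) := by
  classical
  obtain ⟨f0, ht, hmax, hlt⟩ := exists_top hK hz j
  have hzK : z ∈ K := interior_subset hz
  have hd1 : (0 : ℝ) < (d : ℝ) + 1 := by positivity
  set i := I / M with hi
  have hipos : 0 < i := by positivity
  have hapos : 0 < a := by rw [ha]; positivity
  set b := a - z j with hb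
  have hbpos : 0 < b := by rw [hb]; linarith
  have hD0fin : volume (sl j (polarAt K z) 0) ≠ ⊤ := by
    intro h
    rw [hA, h] at hA0
    simp at hA0
  by_cases hcase : a < f0
  · set w := update z j a with hw
    have hwint : w ∈ interior K := by
      have hgap : 0 < f0 - z j := by linarith
      have hl0 : 0 ≤ (a - z j) / (f0 - z j) := by
        apply div_nonneg <;> linarith
      have hl1 : (a - z j) / (f0 - z j) < 1 := by
        rw [div_lt_one hgap]; linarith
      have := update_mem_interior (j := j) hc hz ht hl0 hl1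
      have e : (1 - (a - z j) / (f0 - z j)) * z j + (a - z j) / (f0 - z j) * f0 = a := by
        field_simp
        ring
      rwa [e] at this
    set Q := K ∩ {x | 0 ≤ x j} with hQ
    have hwQ : w ∈ interior Q := by
      have hop : IsOpen (interior K ∩ {x : Fin (d + 1) → ℝ | 0 < x j}) :=
        isOpen_interior.inter (isOpen_lt continuous_const (continuous_apply j))
      have hsub : interior K ∩ {x : Fin (d + 1) → ℝ | 0 < x j} ⊆ Q := by
        rintro x ⟨h1, h2⟩
        exact ⟨interior_subset h1, le_of_lt (show 0 < x j from h2)⟩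
      refine interior_maximal hsub hop ⟨hwint, ?_⟩
      show 0 < w j
      rw [hw]
      simpa using hapos
    have hP := H w hwQ
    set P := polarAt Q w with hPdef
    set U := polarAt K w ∩ {y | 0 < y j} with hU
    have hPm : MeasurableSet P := (polarAt_isClosed _ _).measurableSet
    have hUfin : volume U ≠ ⊤ :=
      ((measure_mono inter_subset_left).trans_lt (volume_polar_ne_top hwint).lt_top).ne
    have hdec : volume P ≤ volume U + volume (P ∩ {y | y j < 0}) := by
      have hsub : P ⊆ (U ∪ (P ∩ {y | y j < 0})) ∪ {y | y j = 0} := by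
        intro y hy
        rcases lt_trichotomy (y j) 0 with h | h | h
        · exact Or.inl (Or.inr ⟨hy, h⟩)
        · exact Or.inr h
        · exact Or.inl (Or.inl ⟨polar_half_sub hstar hy h, h⟩)
      calc volume P ≤ volume ((U ∪ (P ∩ {y | y j < 0})) ∪ {y | y j = 0}) := measure_mono hsub
        _ ≤ volume (U ∪ (P ∩ {y | y j < 0})) + volume {y : Fin (d + 1) → ℝ | y j = 0} :=
          measure_union_le _ _
        _ = volume (U ∪ (P ∩ {y | y j < 0})) := by rw [volume_hyperplane]; simp
        _ ≤ _ := measure_union_le _ _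
    have hL := neg_half_bound (j := j) hstar hzK hapos hD0fin
    rw [← hA] at hL
    have hval : A0 * (1 / (((d : ℝ) + 1) * (1 / (1 / a)))) = ρ / (i * (1 + ρ)) := by
      rw [ha]
      field_simp
      ring
    rw [hval] at hL
    have hPreal : (volume P).toReal ≤ (volume U).toReal + ρ / (i * (1 + ρ)) := by
      have h1 : volume P ≤ volume U + ENNReal.ofReal (ρ / (i * (1 + ρ))) :=
        hdec.trans (by gcongr)
      have h2 := ENNReal.toReal_mono (ENNReal.add_ne_top.2 ⟨hUfin, ENNReal.ofReal_ne_top⟩) h1
      rwa [ENNReal.toReal_add hUfin ENNReal.ofReal_ne_top,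
        ENNReal.toReal_ofReal (by positivity)] at h2
    have hP' : 1 / i ≤ (volume P).toReal := by
      rw [hi, one_div_div, div_le_iff₀ hI0]
      rw [← hI] at hP
      linarith
    have hUlow : 1 / (i * (1 + ρ)) ≤ (volume U).toReal := by
      have e : 1 / (i * (1 + ρ)) = 1 / i - ρ / (i * (1 + ρ)) := by
        field_simp
        ring
      rw [e]
      linarith
    have hUpos : 0 < (volume U).toReal := lt_of_lt_of_le (by positivity) hUlow
    have hsl : sl j (polarAt K w) 0 = sl j (polarAt K z) 0 := sl_polar_zero K z a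
    obtain ⟨C, hC⟩ := polarAt_bounded hwint
    have hA0' : 0 < (volume (sl j (polarAt K w) 0)).toReal := by
      rw [hsl, ← hA]; exact hA0
    have hB := berwald_proj (j := j) (W := polarAt K w) (W' := polarAt K z)
      (polarAt_isClosed _ _).measurableSet (polarAt_isClosed _ _).measurableSet
      (polarAt_convex _ _) hC hbpos (by
        intro y hy hyj x hx
        have h1 := hy x hx
        rw [hw, sum_update_right] at h1
        have hden : 0 < 1 + b * y j := by positivity
        have e : ∑ l, ((1 + b * y j)⁻¹ • y) l * (x l - z l)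
            = (1 + b * y j)⁻¹ * ∑ l, y l * (x l - z l) := by
          rw [Finset.mul_sum]
          apply Finset.sum_congr rfl
          intro l _
          simp only [Pi.smul_apply, smul_eq_mul]
          ring
        rw [e, inv_mul_le_iff₀ hden, mul_one]
        have e2 : y j * (z j - a) = - (b * y j) := by rw [hb]; ring
        rw [e2] at h1
        linarith) hUpos hA0'
    rw [hsl, ← hA] at hB
    refine le_trans (ENNReal.ofReal_le_ofReal ?_) hB
    apply one_div_le_one_div_of_le
    · have : 0 < 1 / (volume U).toReal := by positivity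
      positivity
    · have h3 : 1 / (volume U).toReal ≤ i * (1 + ρ) := by
        rw [one_div_le hUpos (by positivity)]
        exact hUlow
      linarith
  · push Not at hcase
    obtain ⟨Y, hY, hYj⟩ := exists_apex hc hz ht hmax hlt
    have hgap : 0 < f0 - z j := by linarith
    have hYpos : 0 < Y j := by rw [hYj]; positivity
    have := pos_half_apex (j := j) (W := polarAt K z) (polarAt_isClosed _ _).measurableSet
      (polarAt_convex _ _) hD0fin hY hYpos
    rw [← hA, hYj] at this
    refine le_trans (ENNReal.ofReal_le_ofReal ?_) this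
    have e : A0 * (1 / (((d : ℝ) + 1) * (1 / (1 / (f0 - z j))))) =
        1 / (((d : ℝ) + 1) * (f0 - z j) / A0) := by
      field_simp
    rw [e]
    apply one_div_le_one_div_of_le (by positivity)
    have h1 : ((d : ℝ) + 1) * (f0 - z j) / A0 ≤ ((d : ℝ) + 1) * b / A0 := by
      apply div_le_div_of_nonneg_right _ hA0.le
      apply mul_le_mul_of_nonneg_left _ hd1.le
      rw [hb]; linarith
    have h2 : 0 ≤ i * (1 + ρ) := by positivity
    linarith

end Vale.Agent.Lib.P248
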