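import Vale.Agent.Lib.P248.LAB6

open MeasureTheory Set Function
open scoped ENNReal Pointwise

namespace Vale.Agent.Lib.P248

variable {d : ℕ} {j : Fin (d + 1)}

lemma exists_ratio {p q Z : ℝ} (hp : 0 < p) (hq : 0 < q) :
    ∃ ρ, 0 < ρ ∧ p * (1 + 1 / ρ) - q * (1 + ρ) = Z := by
  set β := Z + q - p with hβ
  have hD : 0 < β ^ 2 + 4 * p * q := by positivity
  set S := Real.sqrt (β ^ 2 + 4 * p * q) with hS
  have hS2 : S ^ 2 = β ^ 2 + 4 * p * q := Real.sq_sqrt hD.le
  have hS0 : 0 < S := Real.sqrt_pos.2 hD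
  have hgt : |β| < S := by
    apply abs_lt_of_sq_lt_sq _ hS0.le
    rw [hS2]
    nlinarith [mul_pos hp hq]
  have hρ : 0 < (S - β) / (2 * q) := by
    apply div_pos _ (by positivity)
    linarith [le_abs_self β]
  refine ⟨(S - β) / (2 * q), hρ, ?_⟩
  set ρ := (S - β) / (2 * q) with hρdef
  have hquad : q * ρ ^ 2 + β * ρ - p = 0 := by
    rw [hρdef]
    field_simp
    nlinarith
  have hne : ρ ≠ 0 := hρ.ne'
  field_simp
  have : β = Z + q - p := hβ
  rw [this] at hquad
  linarith

lemma half_volume_pos {K : Set (Fin (d + 1) → ℝ)} (hK : IsCompact K) (hc : Convex ℝ K)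
    {z : Fin (d + 1) → ℝ} (hz : z ∈ interior K) (hpos : ∃ x ∈ K, 0 < x j) :
    0 < (volume (K ∩ {x | 0 ≤ x j})).toReal := by
  obtain ⟨x, hx, hxj⟩ := hpos
  have hne : (interior K).Nonempty := ⟨z, hz⟩
  have hx2 : x ∈ closure (interior K) := by
    rw [hc.closure_interior_eq_closure_of_nonempty_interior hne]
    exact subset_closure hx
  have hop : IsOpen {y : Fin (d + 1) → ℝ | 0 < y j} :=
    isOpen_lt continuous_const (continuous_apply j)
  obtain ⟨p, hp1, hp2⟩ := mem_closure_iff.1 hx2 _ hop hxj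
  have hS : IsOpen (interior K ∩ {y : Fin (d + 1) → ℝ | 0 < y j}) := isOpen_interior.inter hop
  have hSne : (interior K ∩ {y : Fin (d + 1) → ℝ | 0 < y j}).Nonempty := ⟨p, hp2, hp1⟩
  have hsub : interior K ∩ {y : Fin (d + 1) → ℝ | 0 < y j} ⊆ K ∩ {x | 0 ≤ x j} := by
    rintro y ⟨h1, h2⟩
    exact ⟨interior_subset h1, le_of_lt (show 0 < y j from h2)⟩
  have h1 : 0 < volume (K ∩ {x | 0 ≤ x j}) :=
    (hS.measure_pos volume hSne).trans_le (measure_mono hsub)
  have hfin : volume (K ∩ {x | 0 ≤ x j}) ≠ ⊤ :=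
    ((measure_mono inter_subset_left).trans_lt hK.measure_lt_top).ne
  exact ENNReal.toReal_pos h1.ne' hfin

/-- The section of the polar has positive volume. -/
lemma A0_pos {K : Set (Fin (d + 1) → ℝ)} (hK : IsCompact K) {z : Fin (d + 1) → ℝ}
    (hz : z ∈ interior K) : 0 < (volume (sl j (polarAt K z) 0)).toReal := by
  obtain ⟨R, hR⟩ := bounded_of_compact hK
  obtain ⟨ε, hε, hbox⟩ := polarAt_box hR (interior_subset hz)
  obtain ⟨C, hC⟩ := polarAt_bounded hz
  have hfin := volume_sl_ne_top (j := j) hC 0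
  have hop : IsOpen (Set.pi univ (fun _ : Fin d => Ioo (0 : ℝ) ε)) :=
    isOpen_set_pi finite_univ (fun _ _ => isOpen_Ioo)
  have hne : (Set.pi univ (fun _ : Fin d => Ioo (0 : ℝ) ε)).Nonempty :=
    ⟨fun _ => ε / 2, fun _ _ => ⟨by positivity, by linarith⟩⟩
  have hsub : Set.pi univ (fun _ : Fin d => Ioo (0 : ℝ) ε) ⊆ sl j (polarAt K z) 0 := by
    intro u hu
    apply hbox
    intro i
    rcases Fin.eq_self_or_eq_succAbove j i with rfl | ⟨k, rfl⟩
    · rw [ins_apply_same]
      exact ⟨le_rfl, hε.le⟩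
    · rw [ins_apply_succAbove]
      have := hu k (mem_univ k)
      exact ⟨this.1.le, this.2.le⟩
  exact ENNReal.toReal_pos ((hop.measure_pos volume hne).trans_le (measure_mono hsub)).ne' hfin

/-- **Gluing lemma.** If `K` projects along the coordinate `j` onto its section `x_j = 0`, the
volume product lower bound passes from its two parts to `K`. -/
theorem glue {K : Set (Fin (d + 1) → ℝ)} (hK : IsCompact K) (hc : Convex ℝ K)
    (hstar : ∀ x ∈ K, update x j 0 ∈ K) {z : Fin (d + 1) → ℝ} (hz : z ∈ interior K)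
    {M : ℝ} (hM : 0 < M) (hpos : ∃ x ∈ K, 0 < x j) (hneg : ∃ x ∈ K, x j < 0)
    (Hp : ∀ w ∈ interior (K ∩ {x | 0 ≤ x j}),
      M ≤ (volume (K ∩ {x | 0 ≤ x j})).toReal * (volume (polarAt (K ∩ {x | 0 ≤ x j}) w)).toReal)
    (Hn : ∀ w ∈ interior ((fl j) ⁻¹' K ∩ {x | 0 ≤ x j}),
      M ≤ (volume ((fl j) ⁻¹' K ∩ {x | 0 ≤ x j})).toReal *
        (volume (polarAt ((fl j) ⁻¹' K ∩ {x | 0 ≤ x j}) w)).toReal) :
    M ≤ (volume K).toReal * (volume (polarAt K z)).toReal := by
  classical
  set K' := (fl j) ⁻¹' K with hK'def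
  set z' := fl j z with hz'def
  have hKm : MeasurableSet K := hK.isClosed.measurableSet
  have himg : K' = fl j '' K := by
    ext x
    constructor
    · intro hx
      exact ⟨fl j x, hx, fl_fl x⟩
    · rintro ⟨y, hy, rfl⟩
      show fl j (fl j y) ∈ K
      rwa [fl_fl]
  have hK' : IsCompact K' := by
    rw [himg]
    exact hK.image fl_continuous
  have hc' : Convex ℝ K' := by
    intro x hx y hy a b ha hb hab
    show fl j (a • x + b • y) ∈ K
    rw [fl_combo]
    exact hc hx hy ha hb hab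
  have hstar' : ∀ x ∈ K', update x j 0 ∈ K' := by
    intro x hx
    show fl j (update x j 0) ∈ K
    rw [fl_update_zero]
    exact hstar _ hx
  have hz' : z' ∈ interior K' := by
    apply preimage_interior_subset_interior_preimage fl_continuous
    show fl j (fl j z) ∈ interior K
    rwa [fl_fl]
  have hpos' : ∃ x ∈ K', 0 < x j := by
    obtain ⟨x, hx, hxj⟩ := hneg
    refine ⟨fl j x, ?_, ?_⟩
    · show fl j (fl j x) ∈ K
      rwa [fl_fl]
    · rw [fl_apply_self]; linarith
  set A0 := (volume (sl j (polarAt K z) 0)).toReal with hA0def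
  have hA0 : 0 < A0 := A0_pos hK hz
  have hsl' : sl j (polarAt K' z') 0 = sl j (polarAt K z) 0 := by
    rw [hK'def, hz'def, polar_fl]
    ext u
    show fl j (ins j 0 u) ∈ polarAt K z ↔ ins j 0 u ∈ polarAt K z
    rw [fl_ins, neg_zero]
  set Ip := (volume (K ∩ {x | 0 ≤ x j})).toReal with hIp
  set In := (volume (K' ∩ {x | 0 ≤ x j})).toReal with hIn
  have hIp0 : 0 < Ip := half_volume_pos hK hc hz hpos
  have hIn0 : 0 < In := half_volume_pos hK' hc' hz' hpos'
  have hd1 : (0 : ℝ) < (d : ℝ) + 1 := by positivity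
  set p := Ip / M with hp
  set q := In / M with hq
  have hp0 : 0 < p := by positivity
  have hq0 : 0 < q := by positivity
  obtain ⟨ρ, hρ, hρeq⟩ := exists_ratio (Z := ((d : ℝ) + 1) * z j / A0) hp0 hq0
  set ap := p * (1 + 1 / ρ) * (A0 / ((d : ℝ) + 1)) with hap
  set an := q * (1 + ρ) * (A0 / ((d : ℝ) + 1)) with han
  have hap0 : 0 < ap := by positivity
  have han0 : 0 < an := by positivity
  have hdiff : ap - an = z j := by
    have h1 : (p * (1 + 1 / ρ) - q * (1 + ρ)) * (A0 / ((d : ℝ) + 1)) = z j := by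
      rw [hρeq]
      field_simp
    rw [hap, han]
    linarith
  have hUp := half_bound (j := j) hK hc hstar hz hM Hp hIp hIp0 hA0def hA0 hρ (a := ap) rfl
    (by linarith)
  have hz'j : z' j = - z j := fl_apply_self z
  have hA0' : A0 = (volume (sl j (polarAt K' z') 0)).toReal := by rw [hsl']
  have hρ' : 0 < 1 / ρ := by positivity
  have hUn := half_bound (j := j) hK' hc' hstar' hz' hM Hn hIn hIn0 hA0' hA0 hρ' (a := an) (by
      rw [han, hq, one_div_one_div]) (by rw [hz'j]; linarith)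
  -- the values
  have e1 : 1 / ((Ip / M) * (1 + ρ) + ((d : ℝ) + 1) * (ap - z j) / A0) = 1 / ((p + q) * (1 + ρ)) := by
    congr 1
    have : ap - z j = an := by linarith
    rw [this, han, ← hp]
    field_simp
  have e2 : 1 / ((In / M) * (1 + 1 / ρ) + ((d : ℝ) + 1) * (an - z' j) / A0)
      = 1 / ((p + q) * (1 + 1 / ρ)) := by
    congr 1
    have : an - z' j = ap := by rw [hz'j]; linarith
    rw [this, hap, ← hq]
    field_simp
    ring
  rw [e1] at hUp
  rw [e2] at hUn
  -- transport the negative half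
  have hPm : MeasurableSet (polarAt K z) := (polarAt_isClosed _ _).measurableSet
  have hneg_eq : polarAt K' z' ∩ {y | 0 < y j} = (fl j) ⁻¹' (polarAt K z ∩ {y | y j < 0}) := by
    rw [hK'def, hz'def, polar_fl]
    ext y
    simp only [mem_inter_iff, mem_preimage, mem_ofPred_eq, fl_apply_self]
    constructor
    · rintro ⟨h1, h2⟩; exact ⟨h1, by linarith⟩
    · rintro ⟨h1, h2⟩; exact ⟨h1, by linarith⟩
  have hmeas2 : MeasurableSet (polarAt K z ∩ {y | y j < 0}) :=
    hPm.inter (measurableSet_lt (measurable_pi_apply j) measurable_const)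
  rw [hneg_eq, volume_fl_preimage hmeas2] at hUn
  have hmeas1 : MeasurableSet (polarAt K z ∩ {y | 0 < y j}) :=
    hPm.inter (measurableSet_lt measurable_const (measurable_pi_apply j))
  have hdisj : Disjoint (polarAt K z ∩ {y | 0 < y j}) (polarAt K z ∩ {y | y j < 0}) := by
    rw [Set.disjoint_left]
    rintro y ⟨_, h1⟩ ⟨_, h2⟩
    exact lt_asymm (show 0 < y j from h1) h2
  have hsum : volume (polarAt K z ∩ {y | 0 < y j}) + volume (polarAt K z ∩ {y | y j < 0}) ≤
      volume (polarAt K z) := by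
    rw [← measure_union hdisj hmeas2]
    exact measure_mono (union_subset inter_subset_left inter_subset_left)
  have hPfin := volume_polar_ne_top hz
  have hpq : 0 < p + q := by positivity
  have hlow : 1 / (p + q) ≤ (volume (polarAt K z)).toReal := by
    have h1 : ENNReal.ofReal (1 / ((p + q) * (1 + ρ))) + ENNReal.ofReal (1 / ((p + q) * (1 + 1 / ρ)))
        ≤ volume (polarAt K z) := (add_le_add hUp hUn).trans hsum
    have h2 : ENNReal.ofReal (1 / (p + q)) ≤ volume (polarAt K z) := by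
      refine le_trans (le_of_eq ?_) h1
      rw [← ENNReal.ofReal_add (by positivity) (by positivity)]
      congr 1
      field_simp
      ring
    exact (ENNReal.ofReal_le_iff_le_toReal hPfin).1 h2
  -- the volume of `K`
  have hKfin : volume K ≠ ⊤ := hK.measure_lt_top.ne
  have hK1 : volume (K ∩ {x | 0 ≤ x j}) ≤ volume (K ∩ {x | 0 < x j}) := by
    have hsub : K ∩ {x | 0 ≤ x j} ⊆ (K ∩ {x | 0 < x j}) ∪ {x | x j = 0} := by
      rintro x ⟨h1, h2⟩
      rcases (show 0 ≤ x j from h2).lt_or_eq with h | h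
      · exact Or.inl ⟨h1, h⟩
      · exact Or.inr h.symm
    calc volume (K ∩ {x | 0 ≤ x j}) ≤ _ := measure_mono hsub
      _ ≤ volume (K ∩ {x | 0 < x j}) + volume {x : Fin (d + 1) → ℝ | x j = 0} := measure_union_le _ _
      _ = _ := by rw [volume_hyperplane]; simp
  have hK2 : volume (K' ∩ {x | 0 ≤ x j}) = volume (K ∩ {x | x j ≤ 0}) := by
    have he : K' ∩ {x | 0 ≤ x j} = (fl j) ⁻¹' (K ∩ {x | x j ≤ 0}) := by
      ext x
      simp only [hK'def, mem_inter_iff, mem_preimage, mem_ofPred_eq, fl_apply_self]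
      constructor
      · rintro ⟨h1, h2⟩; exact ⟨h1, by linarith⟩
      · rintro ⟨h1, h2⟩; exact ⟨h1, by linarith⟩
    rw [he, volume_fl_preimage (hKm.inter (measurableSet_le (measurable_pi_apply j) measurable_const))]
  have hK3 : volume (K ∩ {x | 0 < x j}) + volume (K ∩ {x | x j ≤ 0}) ≤ volume K := by
    have hdj : Disjoint (K ∩ {x | 0 < x j}) (K ∩ {x | x j ≤ 0}) := by
      rw [Set.disjoint_left]
      rintro y ⟨_, h1⟩ ⟨_, h2⟩
      exact absurd (show 0 < y j from h1) (not_lt.mpr h2)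
    rw [← measure_union hdj (hKm.inter (measurableSet_le (measurable_pi_apply j) measurable_const))]
    exact measure_mono (union_subset inter_subset_left inter_subset_left)
  have hKlow : Ip + In ≤ (volume K).toReal := by
    have h1 : volume (K ∩ {x | 0 ≤ x j}) + volume (K' ∩ {x | 0 ≤ x j}) ≤ volume K := by
      rw [hK2]
      exact (add_le_add_left hK1 _).trans hK3
    have hf1 : volume (K ∩ {x | 0 ≤ x j}) ≠ ⊤ :=
      ((measure_mono inter_subset_left).trans_lt hK.measure_lt_top).ne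
    have hf2 : volume (K' ∩ {x | 0 ≤ x j}) ≠ ⊤ :=
      ((measure_mono inter_subset_left).trans_lt hK'.measure_lt_top).ne
    have := ENNReal.toReal_mono hKfin h1
    rwa [ENNReal.toReal_add hf1 hf2] at this
  have hfinal : M = (Ip + In) * (1 / (p + q)) := by
    rw [hp, hq]
    field_simp
  rw [hfinal]
  have hIpn : 0 ≤ Ip + In := by positivity
  exact mul_le_mul hKlow hlow (by positivity) ((hIpn).trans hKlow)

end Vale.Agent.Lib.P248
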