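import Mathlib

namespace Vale.Agent.Lib.P248

/-- Locally anti-blocking sets: with each point `x` the set contains every point `y` with
`y i = t i * x i`, `0 ≤ t i ≤ 1`, that is, the intersection with each closed orthant is anti-blocking
with respect to that orthant. -/
def IsLocallyAntiBlocking {ι : Type*} (K : Set (ι → ℝ)) : Prop :=
  ∀ x ∈ K, ∀ t : ι → ℝ, (∀ i, 0 ≤ t i ∧ t i ≤ 1) → (fun i => t i * x i) ∈ K

end Vale.Agent.Lib.P248
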