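import Vale.Agent.Lib.P248.LAB7
import Vale.Agent.Lib.P248.LABDefs

open MeasureTheory Set Function
open scoped ENNReal Pointwise

namespace Vale.Agent.Lib.P248

lemma IsLocallyAntiBlocking.star {n : ℕ} {K : Set (Fin n → ℝ)} (h : IsLocallyAntiBlocking K)
    {x : Fin n → ℝ} (hx : x ∈ K) (j : Fin n) : update x j 0 ∈ K := by
  have := h x hx (fun i => if i = j then 0 else 1) (by
    intro i
    by_cases hi : i = j <;> simp [hi])
  have e : (fun i => (if i = j then (0 : ℝ) else 1) * x i) = update x j 0 := by
    ext i
    by_cases hi : i = j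
    · subst hi; simp
    · simp [hi]
  rwa [e] at this

lemma IsLocallyAntiBlocking.antiBlocking {n : ℕ} {K : Set (Fin n → ℝ)}
    (h : IsLocallyAntiBlocking K) (hp : ∀ x ∈ K, ∀ i, 0 ≤ x i) : IsAntiBlocking K := by
  refine ⟨hp, ?_⟩
  intro x hx y hy0 hyx
  have := h x hx (fun i => y i / x i) (by
    intro i
    constructor
    · exact div_nonneg (hy0 i) (hp x hx i)
    · exact div_le_one_of_le₀ (hyx i) (hp x hx i))
  have e : (fun i => y i / x i * x i) = y := by
    ext i
    by_cases hi : x i = 0
    · have : y i = 0 := le_antisymm (by rw [← hi]; exact hyx i) (hy0 i)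
      simp [hi, this]
    · field_simp
  rwa [e] at this

lemma IsLocallyAntiBlocking.inter_half {d : ℕ} {K : Set (Fin (d + 1) → ℝ)}
    (h : IsLocallyAntiBlocking K) (j : Fin (d + 1)) :
    IsLocallyAntiBlocking (K ∩ {x | 0 ≤ x j}) := by
  rintro x ⟨hx, hxj⟩ t ht
  exact ⟨h x hx t ht, mul_nonneg (ht j).1 hxj⟩

lemma IsLocallyAntiBlocking.flip {d : ℕ} {K : Set (Fin (d + 1) → ℝ)}
    (h : IsLocallyAntiBlocking K) (j : Fin (d + 1)) :
    IsLocallyAntiBlocking ((fl j) ⁻¹' K) := by
  intro x hx t ht
  show fl j (fun i => t i * x i) ∈ K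
  have e : fl j (fun i => t i * x i) = fun i => t i * fl j x i := by
    ext i
    by_cases hi : i = j
    · subst hi; simp [fl_apply_self]
    · simp [fl_apply_ne, hi]
  rw [e]
  exact h _ hx t ht

/-- The induction on the set of coordinates which may take negative values. -/
theorem lab_ind {d : ℕ} {M : ℝ} (hM : 0 < M)
    (hbase : ∀ (K : Set (Fin (d + 1) → ℝ)), IsCompact K → Convex ℝ K → IsAntiBlocking K →
      ∀ z ∈ interior K, M ≤ (volume K).toReal * (volume (polarAt K z)).toReal)
    (B : Finset (Fin (d + 1))) :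
    ∀ K : Set (Fin (d + 1) → ℝ), IsCompact K → Convex ℝ K → IsLocallyAntiBlocking K →
      (∀ x ∈ K, ∀ i, i ∉ B → 0 ≤ x i) →
      ∀ z ∈ interior K, M ≤ (volume K).toReal * (volume (polarAt K z)).toReal := by
  classical
  induction B using Finset.induction_on with
  | empty =>
    intro K hK hc hl hp z hz
    exact hbase K hK hc (hl.antiBlocking (fun x hx i => hp x hx i (by simp))) z hz
  | insert j B' hj IH =>
    intro K hK hc hl hp z hz
    have hflip : ∀ K₁ : Set (Fin (d + 1) → ℝ), (∀ x ∈ K₁, ∀ i, i ∉ insert j B' → 0 ≤ x i) →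
        ∀ x ∈ (fl j) ⁻¹' K₁, ∀ i, i ≠ j → i ∉ B' → 0 ≤ x i := by
      intro K₁ h1 x hx i hij hiB
      have := h1 _ hx i (by simp [hij, hiB])
      rwa [fl_apply_ne x hij] at this
    by_cases hnn : ∀ x ∈ K, 0 ≤ x j
    · refine IH K hK hc hl ?_ z hz
      intro x hx i hiB
      by_cases hij : i = j
      · subst hij; exact hnn x hx
      · exact hp x hx i (by simp [hij, hiB])
    · by_cases hnp : ∀ x ∈ K, x j ≤ 0
      · -- flip the whole body
        have hz' : fl j z ∈ interior ((fl j) ⁻¹' K) := by
          apply preimage_interior_subset_interior_preimage fl_continuous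
          show fl j (fl j z) ∈ interior K
          rwa [fl_fl]
        have := IH _ (isCompact_fl hK) (convex_fl hc) (hl.flip j) (by
          intro x hx i hiB
          by_cases hij : i = j
          · subst hij
            have h2 := hnp _ hx
            rw [fl_apply_self] at h2
            linarith
          · exact hflip K hp x hx i hij hiB) _ hz'
        rw [polar_fl, volume_fl_preimage hK.isClosed.measurableSet,
          volume_fl_preimage (polarAt_isClosed _ _).measurableSet] at this
        exact this
      · push Not at hnn hnp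
        obtain ⟨x₁, hx₁, hx₁j⟩ := hnn
        obtain ⟨x₂, hx₂, hx₂j⟩ := hnp
        refine glue (j := j) hK hc (fun x hx => hl.star hx j) hz hM ⟨x₂, hx₂, hx₂j⟩ ⟨x₁, hx₁, hx₁j⟩ ?_ ?_
        · intro w hw
          refine IH _ (hK.inter_right (isClosed_le continuous_const (continuous_apply j)))
            (hc.inter (convex_halfSpace_ge (f := fun x : Fin (d + 1) → ℝ => x j)
              ⟨fun _ _ => rfl, fun _ _ => rfl⟩ 0)) (hl.inter_half j) ?_ w hw
          rintro x ⟨hx, hxj⟩ i hiB
          by_cases hij : i = j
          · subst hij; exact hxj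
          · exact hp x hx i (by simp [hij, hiB])
        · intro w hw
          refine IH _ ((isCompact_fl hK).inter_right (isClosed_le continuous_const (continuous_apply j)))
            ((convex_fl hc).inter (convex_halfSpace_ge (f := fun x : Fin (d + 1) → ℝ => x j)
              ⟨fun _ _ => rfl, fun _ _ => rfl⟩ 0)) ((hl.flip j).inter_half j) ?_ w hw
          rintro x ⟨hx, hxj⟩ i hiB
          by_cases hij : i = j
          · subst hij; exact hxj
          · exact hflip K hp x hx i hij hiB

/-- **Mahler's inequality for locally anti-blocking convex bodies.** -/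
theorem lab_mahler {n : ℕ} {K : Set (Fin n → ℝ)} (hc : Convex ℝ K) (hk : IsCompact K)
    (hl : IsLocallyAntiBlocking K) {z : Fin n → ℝ} (hz : z ∈ interior K) :
    ((n : ℝ) + 1) ^ (n + 1) / ((n.factorial : ℝ) ^ 2) ≤
      (volume K).toReal * (volume (polarAt K z)).toReal := by
  have hbase : ∀ (K : Set (Fin n → ℝ)), IsCompact K → Convex ℝ K → IsAntiBlocking K →
      ∀ z ∈ interior K, ((n : ℝ) + 1) ^ (n + 1) / ((n.factorial : ℝ) ^ 2) ≤
        (volume K).toReal * (volume (polarAt K z)).toReal := by
    intro K hK hc hab z hz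
    obtain ⟨h1, -⟩ := antiblocking_mahler hc hK hab hz
    simp only [Fintype.card_fin] at h1
    have hf : (0 : ℝ) < (n.factorial : ℝ) := by positivity
    have hrew : ((n.factorial : ℝ) * (volume K).toReal) *
        ((n.factorial : ℝ) * (volume (polarAt K z)).toReal) =
        (n.factorial : ℝ) ^ 2 * ((volume K).toReal * (volume (polarAt K z)).toReal) := by ring
    rw [hrew] at h1
    rw [div_le_iff₀ (by positivity)]
    linarith
  cases n with
  | zero =>
    apply hbase K hk hc _ z hz
    refine hl.antiBlocking ?_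
    intro x _ i
    exact i.elim0
  | succ d =>
    refine lab_ind (by positivity) hbase Finset.univ K hk hc hl ?_ z hz
    intro x _ i hi
    exact absurd (Finset.mem_univ i) hi

end Vale.Agent.Lib.P248
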