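import Vale.Agent.Lib.P248.Fl

open MeasureTheory Set
open scoped ENNReal

namespace Vale.Agent.Lib.P248

/-- Normalized one-dimensional inequality, under a hypothesis on minima. -/
lemma bbl_normalized {f g h : ℝ → ℝ≥0∞} (hf : Measurable f) (hg : Measurable g) (hh : Measurable h)
    (hf1 : ∀ x, f x ≤ 1) (hg1 : ∀ x, g x ≤ 1)
    (hfs : ∀ r < (1:ℝ≥0∞), ∃ x, r < f x) (hgs : ∀ r < (1:ℝ≥0∞), ∃ x, r < g x)
    {θ : ℝ} (h0 : 0 < θ) (h1 : θ < 1)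
    (H : ∀ x y, min (f x) (g y) ≤ h (θ * x + (1 - θ) * y)) :
    ENNReal.ofReal θ * (∫⁻ x, f x) + ENNReal.ofReal (1 - θ) * (∫⁻ x, g x) ≤ ∫⁻ x, h x := by
  have hantif : Antitone (fun t : ℝ => volume {x | ENNReal.ofReal t < f x}) := by
    intro s t hst
    apply measure_mono
    intro x hx
    exact lt_of_le_of_lt (ENNReal.ofReal_le_ofReal hst) hx
  have hantig : Antitone (fun t : ℝ => volume {x | ENNReal.ofReal t < g x}) := by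
    intro s t hst
    apply measure_mono
    intro x hx
    exact lt_of_le_of_lt (ENNReal.ofReal_le_ofReal hst) hx
  have e1 : ∫⁻ x, f x = ∫⁻ t in Ioo (0:ℝ) 1, volume {x | ENNReal.ofReal t < f x} :=
    layer_cake_le_one volume hf hf1
  have e2 : ∫⁻ x, g x = ∫⁻ t in Ioo (0:ℝ) 1, volume {x | ENNReal.ofReal t < g x} :=
    layer_cake_le_one volume hg hg1
  have e3 : ∫⁻ x, h x = ∫⁻ t in Ioi (0:ℝ), volume {x | ENNReal.ofReal t < h x} :=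
    layer_cake_ennreal volume hh
  rw [e1, e2, e3,
    ← lintegral_const_mul _ hantif.measurable, ← lintegral_const_mul _ hantig.measurable,
    ← lintegral_add_left (hantif.measurable.const_mul _)]
  have hsub : ∫⁻ t in Ioo (0:ℝ) 1, volume {x | ENNReal.ofReal t < h x} ≤
      ∫⁻ t in Ioi (0:ℝ), volume {x | ENNReal.ofReal t < h x} :=
    lintegral_mono_set Ioo_subset_Ioi_self
  refine le_trans ?_ hsub
  apply setLIntegral_mono' measurableSet_Ioo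
  intro t ht
  have ht1 : ENNReal.ofReal t < 1 := by
    rw [← ENNReal.ofReal_one]
    exact (ENNReal.ofReal_lt_ofReal_iff one_pos).mpr ht.2
  obtain ⟨x0, hx0⟩ := hfs _ ht1
  obtain ⟨y0, hy0⟩ := hgs _ ht1
  refine bm1d (measurableSet_lt measurable_const hf) (measurableSet_lt measurable_const hg)
    ⟨x0, hx0⟩ ⟨y0, hy0⟩ h0 h1 (measurableSet_lt measurable_const hh) ?_
  intro x hx y hy
  simp only [mem_ofPred_eq] at hx hy ⊢
  exact lt_of_lt_of_le (lt_min hx hy) (H x y)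

/-- The pointwise inequality behind Ball's lemma. -/
lemma key_real {ρ b₁ b₂ a₁ a₂ : ℝ} (hρ : 0 < ρ) (hb₁ : 0 < b₁) (hb₂ : 0 < b₂) (ha₁ : 0 < a₁)
    (ha₂ : 0 < a₂) :
    ρ * (a₁ + a₂) ^ 2 / (b₁ + b₂) ^ 2 ≤
      (ρ * a₁ ^ 2 / b₁ ^ 2) ^ (a₁ / (a₁ + a₂)) * (ρ * a₂ ^ 2 / b₂ ^ 2) ^ (a₂ / (a₁ + a₂)) := by
  set r := Real.sqrt ρ with hrdef
  have hr : 0 < r := Real.sqrt_pos.2 hρ
  have hr2 : ρ = r ^ 2 := (Real.sq_sqrt hρ.le).symm
  have ha : 0 < a₁ + a₂ := by positivity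
  set l₁ := a₁ / (a₁ + a₂) with hl₁def
  set l₂ := a₂ / (a₁ + a₂) with hl₂def
  have hl₁ : 0 < l₁ := by positivity
  have hl₂ : 0 < l₂ := by positivity
  have hl : l₁ + l₂ = 1 := by
    rw [hl₁def, hl₂def]
    field_simp
  set q₁ := r * a₁ / b₁ with hq₁def
  set q₂ := r * a₂ / b₂ with hq₂def
  have hq₁ : 0 < q₁ := by positivity
  have hq₂ : 0 < q₂ := by positivity
  have am := Real.geom_mean_le_arith_mean2_weighted hl₁.le hl₂.le (inv_pos.2 hq₁).le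
    (inv_pos.2 hq₂).le hl
  have e : l₁ * q₁⁻¹ + l₂ * q₂⁻¹ = (b₁ + b₂) / (r * (a₁ + a₂)) := by
    rw [hl₁def, hl₂def, hq₁def, hq₂def]
    field_simp
  rw [e, Real.inv_rpow hq₁.le, Real.inv_rpow hq₂.le, ← mul_inv] at am
  have hP : 0 < q₁ ^ l₁ * q₂ ^ l₂ := by positivity
  have hlow : r * (a₁ + a₂) / (b₁ + b₂) ≤ q₁ ^ l₁ * q₂ ^ l₂ := by
    have h2 := inv_anti₀ (by positivity) am
    rw [inv_inv, inv_div] at h2
    exact h2
  have s₁ : ρ * a₁ ^ 2 / b₁ ^ 2 = q₁ ^ 2 := by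
    rw [hq₁def, hr2]
    field_simp
  have s₂ : ρ * a₂ ^ 2 / b₂ ^ 2 = q₂ ^ 2 := by
    rw [hq₂def, hr2]
    field_simp
  have p₁ : (q₁ ^ 2) ^ l₁ = (q₁ ^ l₁) ^ 2 := by
    rw [← Real.rpow_natCast, ← Real.rpow_natCast, ← Real.rpow_mul hq₁.le, ← Real.rpow_mul hq₁.le,
      mul_comm]
  have p₂ : (q₂ ^ 2) ^ l₂ = (q₂ ^ l₂) ^ 2 := by
    rw [← Real.rpow_natCast, ← Real.rpow_natCast, ← Real.rpow_mul hq₂.le, ← Real.rpow_mul hq₂.le,
      mul_comm]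
  rw [s₁, s₂, p₁, p₂, ← mul_pow]
  have e2 : ρ * (a₁ + a₂) ^ 2 / (b₁ + b₂) ^ 2 = (r * (a₁ + a₂) / (b₁ + b₂)) ^ 2 := by
    rw [hr2]
    field_simp
  rw [e2]
  exact pow_le_pow_left₀ (by positivity) hlow 2

/-- The Cauchy-Schwarz step behind Ball's lemma. -/
lemma cauchy_real {I₁ I₂ I b₁ b₂ : ℝ} (hI₁ : 0 < I₁) (hI₂ : 0 < I₂) (hb₁ : 0 < b₁) (hb₂ : 0 < b₂)
    (h : (I₁ * b₁ ^ 2 + I₂ * b₂ ^ 2) / 2 ≤ I * ((b₁ + b₂) ^ 2 / 4)) :
    2 / (1 / I₁ + 1 / I₂) ≤ I := by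
  have e : 2 / (1 / I₁ + 1 / I₂) = 2 * I₁ * I₂ / (I₁ + I₂) := by
    field_simp
    ring
  rw [e, div_le_iff₀ (by positivity)]
  have hb : 0 < (b₁ + b₂) ^ 2 := by positivity
  have key : 2 * I₁ * I₂ * (b₁ + b₂) ^ 2 ≤ I * (I₁ + I₂) * (b₁ + b₂) ^ 2 := by
    have h1 : 2 * (I₁ * b₁ ^ 2 + I₂ * b₂ ^ 2) * (I₁ + I₂) ≤ I * (I₁ + I₂) * (b₁ + b₂) ^ 2 := by
      have := mul_le_mul_of_nonneg_right h (show 0 ≤ 4 * (I₁ + I₂) by positivity)
      nlinarith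
    nlinarith [sq_nonneg (I₁ * b₁ - I₂ * b₂)]
  exact le_of_mul_le_mul_right key hb

/-- The transported density. -/
noncomputable def Uf (φ : ℝ → ℝ≥0∞) : ℝ → ℝ≥0∞ :=
  (Ioi (0:ℝ)).indicator (fun a => φ a⁻¹ * ENNReal.ofReal ((a ^ 2)⁻¹))

lemma measurable_Uf {φ : ℝ → ℝ≥0∞} (hφ : Measurable φ) : Measurable (Uf φ) := by
  refine Measurable.indicator ?_ measurableSet_Ioi
  exact (hφ.comp measurable_inv).mul (ENNReal.measurable_ofReal.comp (by fun_prop))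

lemma lintegral_Uf (φ : ℝ → ℝ≥0∞) : ∫⁻ a, Uf φ a = ∫⁻ s in Ioi (0:ℝ), φ s := by
  unfold Uf
  rw [lintegral_indicator measurableSet_Ioi]
  have himg : (fun a : ℝ => a⁻¹) '' Ioi 0 = Ioi 0 := by
    ext x
    constructor
    · rintro ⟨a, ha, rfl⟩
      exact inv_pos.2 (show (0:ℝ) < a from ha)
    · intro hx
      exact ⟨x⁻¹, show (0:ℝ) < x⁻¹ from inv_pos.2 (show (0:ℝ) < x from hx), inv_inv x⟩
  have key := lintegral_image_eq_lintegral_abs_deriv_mul (s := Ioi (0:ℝ))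
    (f := fun a : ℝ => a⁻¹) (f' := fun a => -(a ^ 2)⁻¹) measurableSet_Ioi
    (fun a ha => (hasDerivAt_inv (ne_of_gt ha)).hasDerivWithinAt)
    (fun a _ b _ hab => inv_injective hab) φ
  rw [himg] at key
  rw [key]
  apply setLIntegral_congr_fun measurableSet_Ioi
  intro a ha
  have ha0 : 0 < a := ha
  have : |-(a ^ 2)⁻¹| = (a ^ 2)⁻¹ := by
    rw [abs_neg, abs_of_pos (by positivity)]
  simp only [this, mul_comm]

lemma Uf_pos_imp {φ : ℝ → ℝ≥0∞} {a : ℝ} (h : Uf φ a ≠ 0) : 0 < a := by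
  by_contra ha
  apply h
  unfold Uf
  rw [indicator_of_notMem]
  exact ha

lemma Uf_of_pos (φ : ℝ → ℝ≥0∞) {a : ℝ} (ha : 0 < a) :
    Uf φ a = φ a⁻¹ * ENNReal.ofReal ((a ^ 2)⁻¹) := by
  unfold Uf
  rw [indicator_of_mem]
  exact ha

lemma Uf_bound {φ : ℝ → ℝ≥0∞} {B S : ℝ} (hB : 0 < B)
    (hb : ∀ s, φ s ≤ ENNReal.ofReal B) (hz : ∀ s, S < s → φ s = 0) (a : ℝ) :
    Uf φ a ≤ ENNReal.ofReal (B * S ^ 2) := by
  by_cases ha : 0 < a
  · rw [Uf_of_pos φ ha]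
    by_cases hs : S < a⁻¹
    · rw [hz _ hs]
      simp
    · push Not at hs
      rw [ENNReal.ofReal_mul hB.le]
      refine mul_le_mul' (hb _) (ENNReal.ofReal_le_ofReal ?_)
      rw [← inv_pow]
      exact pow_le_pow_left₀ (by positivity) hs 2
  · unfold Uf
    rw [indicator_of_notMem]
    · exact zero_le
    · exact ha

/-- Properties of the normalization by the supremum. -/
lemma sup_props {U : ℝ → ℝ≥0∞} {C : ℝ≥0∞} (hC : C ≠ ⊤) (hU : ∀ a, U a ≤ C)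
    (hpos : ∃ a, U a ≠ 0) :
    (⨆ a, U a) ≠ 0 ∧ (⨆ a, U a) ≠ ⊤ ∧ (∀ a, U a / (⨆ a, U a) ≤ 1) ∧
      (∀ r < (1:ℝ≥0∞), ∃ a, r < U a / (⨆ a, U a)) := by
  set m := ⨆ a, U a with hm
  have hm0 : m ≠ 0 := by
    obtain ⟨a, ha⟩ := hpos
    intro h0
    apply ha
    have : U a ≤ m := le_iSup U a
    rw [h0] at this
    exact le_antisymm this zero_le
  have hmtop : m ≠ ⊤ := (lt_of_le_of_lt (iSup_le hU) hC.lt_top).ne
  refine ⟨hm0, hmtop, ?_, ?_⟩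
  · intro a
    exact ENNReal.div_le_of_le_mul (by rw [one_mul]; exact le_iSup U a)
  · intro r hr
    have hlt : r * m < m := by
      have := ENNReal.mul_lt_mul_left hm0 hmtop hr
      rwa [one_mul] at this
    obtain ⟨a, ha⟩ := lt_iSup_iff.1 hlt
    refine ⟨a, ?_⟩
    rw [ENNReal.lt_div_iff_mul_lt (Or.inl hm0) (Or.inl hmtop)]
    exact ha

/-- **Ball's lemma** in the form used for shadow systems. -/
theorem ball_lemma {u₁ u₂ u : ℝ → ℝ≥0∞} (hu₁ : Measurable u₁) (hu₂ : Measurable u₂)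
    (hu : Measurable u) {B S : ℝ} (hB : 0 < B)
    (hb₁ : ∀ s, u₁ s ≤ ENNReal.ofReal B) (hb₂ : ∀ s, u₂ s ≤ ENNReal.ofReal B)
    (hz₁ : ∀ s, S < s → u₁ s = 0) (hz₂ : ∀ s, S < s → u₂ s = 0)
    (hI₁ : ∫⁻ s in Ioi (0:ℝ), u₁ s ≠ 0) (hI₂ : ∫⁻ s in Ioi (0:ℝ), u₂ s ≠ 0)
    (hF₁ : ∫⁻ s in Ioi (0:ℝ), u₁ s ≠ ⊤) (hF₂ : ∫⁻ s in Ioi (0:ℝ), u₂ s ≠ ⊤)
    (H : ∀ s₁ s₂, 0 < s₁ → 0 < s₂ →
      u₁ s₁ ^ (s₂ / (s₁ + s₂)) * u₂ s₂ ^ (s₁ / (s₁ + s₂)) ≤ u (2 * s₁ * s₂ / (s₁ + s₂))) :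
    ENNReal.ofReal (2 / (1 / (∫⁻ s in Ioi (0:ℝ), u₁ s).toReal +
      1 / (∫⁻ s in Ioi (0:ℝ), u₂ s).toReal)) ≤ ∫⁻ s in Ioi (0:ℝ), u s := by
  have hU₁m := measurable_Uf hu₁
  have hU₂m := measurable_Uf hu₂
  have hUm := measurable_Uf hu
  have hCt : ENNReal.ofReal (B * S ^ 2) ≠ ⊤ := ENNReal.ofReal_ne_top
  have hp₁ : ∃ a, Uf u₁ a ≠ 0 := by
    by_contra hcon
    push Not at hcon
    apply hI₁
    rw [← lintegral_Uf u₁]
    simp [hcon]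
  have hp₂ : ∃ a, Uf u₂ a ≠ 0 := by
    by_contra hcon
    push Not at hcon
    apply hI₂
    rw [← lintegral_Uf u₂]
    simp [hcon]
  obtain ⟨hm₁0, hm₁t, hf1, hfs⟩ := sup_props hCt (Uf_bound hB hb₁ hz₁) hp₁
  obtain ⟨hm₂0, hm₂t, hg1, hgs⟩ := sup_props hCt (Uf_bound hB hb₂ hz₂) hp₂
  set m₁ := ⨆ a, Uf u₁ a with hm₁
  set m₂ := ⨆ a, Uf u₂ a with hm₂
  have hm₁r : 0 < m₁.toReal := ENNReal.toReal_pos hm₁0 hm₁t
  have hm₂r : 0 < m₂.toReal := ENNReal.toReal_pos hm₂0 hm₂t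
  set b₁ := (Real.sqrt m₁.toReal)⁻¹ with hb₁def
  set b₂ := (Real.sqrt m₂.toReal)⁻¹ with hb₂def
  have hb₁pos : 0 < b₁ := inv_pos.2 (Real.sqrt_pos.2 hm₁r)
  have hb₂pos : 0 < b₂ := inv_pos.2 (Real.sqrt_pos.2 hm₂r)
  have hm₁b : m₁ = ENNReal.ofReal (1 / b₁ ^ 2) := by
    have : 1 / b₁ ^ 2 = m₁.toReal := by
      rw [hb₁def, inv_pow, Real.sq_sqrt hm₁r.le]
      simp
    rw [this, ENNReal.ofReal_toReal hm₁t]
  have hm₂b : m₂ = ENNReal.ofReal (1 / b₂ ^ 2) := by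
    have : 1 / b₂ ^ 2 = m₂.toReal := by
      rw [hb₂def, inv_pow, Real.sq_sqrt hm₂r.le]
      simp
    rw [this, ENNReal.ofReal_toReal hm₂t]
  set Mr : ℝ := 4 / (b₁ + b₂) ^ 2 with hMr
  have hMrpos : 0 < Mr := by positivity
  have hkey := bbl_normalized (f := fun a => Uf u₁ a / m₁) (g := fun a => Uf u₂ a / m₂)
    (h := fun a => Uf u a / ENNReal.ofReal Mr)
    (hU₁m.div_const _) (hU₂m.div_const _) (hUm.div_const _) hf1 hg1 hfs hgs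
    (θ := 1 / 2) (by norm_num) (by norm_num) (by
      intro a₁ a₂
      set R := min (Uf u₁ a₁ / m₁) (Uf u₂ a₂ / m₂) with hR
      by_cases hR0 : R = 0
      · rw [hR0]; exact zero_le
      have hR1 : 0 < Uf u₁ a₁ / m₁ := by
        have : 0 < R := pos_iff_ne_zero.2 hR0
        exact lt_of_lt_of_le this (min_le_left _ _)
      have hR2 : 0 < Uf u₂ a₂ / m₂ := by
        have : 0 < R := pos_iff_ne_zero.2 hR0
        exact lt_of_lt_of_le this (min_le_right _ _)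
      have hU1ne : Uf u₁ a₁ ≠ 0 := by
        intro h0
        rw [h0] at hR1
        simp at hR1
      have hU2ne : Uf u₂ a₂ ≠ 0 := by
        intro h0
        rw [h0] at hR2
        simp at hR2
      have ha₁ : 0 < a₁ := Uf_pos_imp hU1ne
      have ha₂ : 0 < a₂ := Uf_pos_imp hU2ne
      have hRle : R ≤ 1 := (min_le_left _ _).trans (hf1 a₁)
      have hRt : R ≠ ⊤ := (lt_of_le_of_lt hRle ENNReal.one_lt_top).ne
      set ρ := R.toReal with hρdef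
      have hρ : 0 < ρ := ENNReal.toReal_pos hR0 hRt
      have hRρ : R = ENNReal.ofReal ρ := (ENNReal.ofReal_toReal hRt).symm
      -- lower bounds of `u₁`, `u₂`
      have step : ∀ {φ : ℝ → ℝ≥0∞} {m : ℝ≥0∞} {b a : ℝ}, 0 < b → 0 < a → m = ENNReal.ofReal (1 / b ^ 2) →
          R ≤ Uf φ a / m → ENNReal.ofReal (ρ * a ^ 2 / b ^ 2) ≤ φ a⁻¹ := by
        intro φ m b a hb ha hmb hle
        have hm0 : m ≠ 0 := by
          rw [hmb]
          simp only [ne_eq, ENNReal.ofReal_eq_zero, not_le]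
          positivity
        have hmt : m ≠ ⊤ := by rw [hmb]; exact ENNReal.ofReal_ne_top
        rw [ENNReal.le_div_iff_mul_le (Or.inl hm0) (Or.inl hmt), Uf_of_pos φ ha, hRρ, hmb,
          ← ENNReal.ofReal_mul hρ.le] at hle
        have h2 := mul_le_mul_left hle (ENNReal.ofReal (a ^ 2))
        rw [mul_assoc, ← ENNReal.ofReal_mul (by positivity), ← ENNReal.ofReal_mul (by positivity)] at h2
        have e1 : (a ^ 2)⁻¹ * a ^ 2 = 1 := by field_simp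
        have e2 : ρ * (1 / b ^ 2) * a ^ 2 = ρ * a ^ 2 / b ^ 2 := by field_simp
        rw [e1, e2] at h2
        simpa using h2
      have h1 := step hb₁pos ha₁ hm₁b (min_le_left _ _)
      have h2 := step hb₂pos ha₂ hm₂b (min_le_right _ _)
      have hs : 0 < a₁ + a₂ := by positivity
      have hH := H a₁⁻¹ a₂⁻¹ (inv_pos.2 ha₁) (inv_pos.2 ha₂)
      have el₁ : a₂⁻¹ / (a₁⁻¹ + a₂⁻¹) = a₁ / (a₁ + a₂) := by
        field_simp
        ring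
      have el₂ : a₁⁻¹ / (a₁⁻¹ + a₂⁻¹) = a₂ / (a₁ + a₂) := by
        field_simp
        ring
      have el₃ : 2 * a₁⁻¹ * a₂⁻¹ / (a₁⁻¹ + a₂⁻¹) = (1 / 2 * a₁ + (1 - 1 / 2) * a₂)⁻¹ := by
        field_simp
        ring
      rw [el₁, el₂, el₃] at hH
      have hl₁ : 0 < a₁ / (a₁ + a₂) := by positivity
      have hl₂ : 0 < a₂ / (a₁ + a₂) := by positivity
      have hX₁ : 0 < ρ * a₁ ^ 2 / b₁ ^ 2 := by positivity
      have hX₂ : 0 < ρ * a₂ ^ 2 / b₂ ^ 2 := by positivity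
      have hchain : ENNReal.ofReal (ρ * (a₁ + a₂) ^ 2 / (b₁ + b₂) ^ 2) ≤
          u (1 / 2 * a₁ + (1 - 1 / 2) * a₂)⁻¹ := by
        refine le_trans (ENNReal.ofReal_le_ofReal (key_real hρ hb₁pos hb₂pos ha₁ ha₂)) ?_
        rw [ENNReal.ofReal_mul (by positivity), ← ENNReal.ofReal_rpow_of_pos hX₁,
          ← ENNReal.ofReal_rpow_of_pos hX₂]
        exact le_trans (mul_le_mul' (ENNReal.rpow_le_rpow h1 hl₁.le)
          (ENNReal.rpow_le_rpow h2 hl₂.le)) hH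
      set a := 1 / 2 * a₁ + (1 - 1 / 2) * a₂ with hadef
      have ha : 0 < a := by rw [hadef]; positivity
      show R ≤ Uf u a / ENNReal.ofReal Mr
      rw [ENNReal.le_div_iff_mul_le (Or.inl (by simpa using hMrpos)) (Or.inl ENNReal.ofReal_ne_top),
        Uf_of_pos u ha, hRρ, ← ENNReal.ofReal_mul hρ.le]
      have e : ρ * Mr = ρ * (a₁ + a₂) ^ 2 / (b₁ + b₂) ^ 2 * (a ^ 2)⁻¹ := by
        rw [hMr, hadef]
        field_simp
        ring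
      rw [e, ENNReal.ofReal_mul (by positivity)]
      exact mul_le_mul_left hchain _)
  -- integrate
  have ei₁ : ∫⁻ a, Uf u₁ a / m₁ = (∫⁻ s in Ioi (0:ℝ), u₁ s) / m₁ := by
    simp_rw [div_eq_mul_inv]
    rw [lintegral_mul_const _ hU₁m, lintegral_Uf u₁]
  have ei₂ : ∫⁻ a, Uf u₂ a / m₂ = (∫⁻ s in Ioi (0:ℝ), u₂ s) / m₂ := by
    simp_rw [div_eq_mul_inv]
    rw [lintegral_mul_const _ hU₂m, lintegral_Uf u₂]
  have ei : ∫⁻ a, Uf u a / ENNReal.ofReal Mr = (∫⁻ s in Ioi (0:ℝ), u s) / ENNReal.ofReal Mr := by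
    simp_rw [div_eq_mul_inv]
    rw [lintegral_mul_const _ hUm, lintegral_Uf u]
  rw [ei₁, ei₂, ei] at hkey
  set J₁ := ∫⁻ s in Ioi (0:ℝ), u₁ s with hJ₁
  set J₂ := ∫⁻ s in Ioi (0:ℝ), u₂ s with hJ₂
  set J := ∫⁻ s in Ioi (0:ℝ), u s with hJ
  by_cases hJt : J = ⊤
  · rw [hJt]; exact le_top
  have hI₁r : 0 < J₁.toReal := ENNReal.toReal_pos hI₁ hF₁
  have hI₂r : 0 < J₂.toReal := ENNReal.toReal_pos hI₂ hF₂
  rw [← ENNReal.ofReal_toReal hJt]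
  apply ENNReal.ofReal_le_ofReal
  refine cauchy_real hI₁r hI₂r hb₁pos hb₂pos ?_
  -- convert `hkey`
  have hdiv : ∀ {X m : ℝ≥0∞}, X ≠ ⊤ → m ≠ 0 → m ≠ ⊤ → (X / m).toReal = X.toReal / m.toReal := by
    intro X m _ _ _
    rw [ENNReal.toReal_div]
  have hfin : ENNReal.ofReal (1 / 2) * (J₁ / m₁) + ENNReal.ofReal (1 - 1 / 2) * (J₂ / m₂) ≠ ⊤ := by
    apply ENNReal.add_ne_top.2
    constructor
    · exact ENNReal.mul_ne_top ENNReal.ofReal_ne_top (ENNReal.div_ne_top hF₁ hm₁0)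
    · exact ENNReal.mul_ne_top ENNReal.ofReal_ne_top (ENNReal.div_ne_top hF₂ hm₂0)
  have hR : (ENNReal.ofReal (1 / 2) * (J₁ / m₁) + ENNReal.ofReal (1 - 1 / 2) * (J₂ / m₂)).toReal ≤
      (J / ENNReal.ofReal Mr).toReal :=
    ENNReal.toReal_mono (ENNReal.div_ne_top hJt (by simpa using hMrpos)) hkey
  rw [ENNReal.toReal_add (ENNReal.mul_ne_top ENNReal.ofReal_ne_top (ENNReal.div_ne_top hF₁ hm₁0))
    (ENNReal.mul_ne_top ENNReal.ofReal_ne_top (ENNReal.div_ne_top hF₂ hm₂0)),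
    ENNReal.toReal_mul, ENNReal.toReal_mul, ENNReal.toReal_ofReal (by norm_num),
    ENNReal.toReal_ofReal (by norm_num), ENNReal.toReal_div, ENNReal.toReal_div, ENNReal.toReal_div,
    ENNReal.toReal_ofReal hMrpos.le] at hR
  have e₁ : m₁.toReal = 1 / b₁ ^ 2 := by
    rw [hb₁def, inv_pow, Real.sq_sqrt hm₁r.le]
    simp
  have e₂ : m₂.toReal = 1 / b₂ ^ 2 := by
    rw [hb₂def, inv_pow, Real.sq_sqrt hm₂r.le]
    simp
  rw [e₁, e₂, hMr] at hR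
  have e3 : J₁.toReal / (1 / b₁ ^ 2) = J₁.toReal * b₁ ^ 2 := by field_simp
  have e4 : J₂.toReal / (1 / b₂ ^ 2) = J₂.toReal * b₂ ^ 2 := by field_simp
  have e5 : J.toReal / (4 / (b₁ + b₂) ^ 2) = J.toReal * ((b₁ + b₂) ^ 2 / 4) := by field_simp
  rw [e3, e4, e5] at hR
  linarith

end Vale.Agent.Lib.P248
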