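import Vale.Agent.Lib.P248.Mix1

open MeasureTheory Set Function
open scoped ENNReal Pointwise

namespace Vale.Agent.Lib.P248

variable {d : ℕ} {j : Fin (d + 1)}

/-- Lower bound of the volume of a positive part, from harmonic mixing of slices. -/
theorem harm_lower {C₁ C₂ C : Set (Fin (d + 1) → ℝ)} (hC₁ : MeasurableSet C₁)
    (hC₂ : MeasurableSet C₂) (hC : MeasurableSet C) {R : ℝ}
    (hR₁ : ∀ y ∈ C₁, ∀ i, |y i| ≤ R) (hR₂ : ∀ y ∈ C₂, ∀ i, |y i| ≤ R)
    (hI₁ : volume (C₁ ∩ {x | 0 < x j}) ≠ 0) (hI₂ : volume (C₂ ∩ {x | 0 < x j}) ≠ 0)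
    (H : ∀ s₁ s₂ : ℝ, 0 < s₁ → 0 < s₂ → ∀ y₁ ∈ sl j C₁ s₁, ∀ y₂ ∈ sl j C₂ s₂,
      (s₂ / (s₁ + s₂)) • y₁ + (s₁ / (s₁ + s₂)) • y₂ ∈ sl j C (2 * s₁ * s₂ / (s₁ + s₂))) :
    ENNReal.ofReal (2 / (1 / (volume (C₁ ∩ {x | 0 < x j})).toReal +
      1 / (volume (C₂ ∩ {x | 0 < x j})).toReal)) ≤ volume (C ∩ {x | 0 < x j}) := by
  have e : ∀ W : Set (Fin (d + 1) → ℝ), MeasurableSet W →
      volume (W ∩ {x | 0 < x j}) = ∫⁻ s in Ioi (0:ℝ), volume (sl j W s) := by
    intro W hW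
    exact volume_inter_coord j hW measurableSet_Ioi
  have hbox : IsCompact (Set.pi univ (fun _ : Fin d => Icc (-R) R)) :=
    isCompact_univ_pi (fun _ => isCompact_Icc)
  set B : ℝ := (volume (Set.pi univ (fun _ : Fin d => Icc (-R) R))).toReal + 1 with hB
  have hB0 : 0 < B := by positivity
  have hboxB : volume (Set.pi univ (fun _ : Fin d => Icc (-R) R)) ≤ ENNReal.ofReal B := by
    rw [← ENNReal.ofReal_toReal hbox.measure_lt_top.ne]
    apply ENNReal.ofReal_le_ofReal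
    rw [hB]
    linarith
  have hbd : ∀ {W : Set (Fin (d + 1) → ℝ)}, (∀ y ∈ W, ∀ i, |y i| ≤ R) → ∀ s,
      volume (sl j W s) ≤ ENNReal.ofReal B := by
    intro W hW s
    exact (measure_mono (sl_subset_box hW s)).trans hboxB
  have hzero : ∀ {W : Set (Fin (d + 1) → ℝ)}, (∀ y ∈ W, ∀ i, |y i| ≤ R) → ∀ s, R < s →
      volume (sl j W s) = 0 := by
    intro W hW s hs
    rw [sl_eq_empty hW hs]
    simp
  have hfin : ∀ {W : Set (Fin (d + 1) → ℝ)}, (∀ y ∈ W, ∀ i, |y i| ≤ R) →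
      volume (W ∩ {x | 0 < x j}) ≠ ⊤ := by
    intro W hW
    have hc : IsCompact (Set.pi univ (fun _ : Fin (d + 1) => Icc (-R) R)) :=
      isCompact_univ_pi (fun _ => isCompact_Icc)
    refine ((measure_mono ?_).trans_lt hc.measure_lt_top).ne
    rintro y ⟨hy, -⟩ i _
    exact abs_le.mp (hW y hy i)
  rw [e C₁ hC₁, e C₂ hC₂, e C hC]
  refine ball_lemma (measurable_volume_sl j hC₁) (measurable_volume_sl j hC₂)
    (measurable_volume_sl j hC) hB0 (hbd hR₁) (hbd hR₂) (hzero hR₁) (hzero hR₂) ?_ ?_ ?_ ?_ ?_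
  · rw [← e C₁ hC₁]; exact hI₁
  · rw [← e C₂ hC₂]; exact hI₂
  · rw [← e C₁ hC₁]; exact hfin hR₁
  · rw [← e C₂ hC₂]; exact hfin hR₂
  · intro s₁ s₂ h₁ h₂
    have hs : 0 < s₁ + s₂ := by positivity
    have hθ0 : 0 < s₂ / (s₁ + s₂) := by positivity
    have hθ1 : s₂ / (s₁ + s₂) < 1 := by
      rw [div_lt_one hs]
      linarith
    have e1 : s₁ / (s₁ + s₂) = 1 - s₂ / (s₁ + s₂) := by
      field_simp
      ring
    rw [e1]
    refine brunn_minkowski_mul (measurableSet_sl j hC₁ s₁) (measurableSet_sl j hC₂ s₂)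
      (measurableSet_sl j hC _) hθ0 hθ1 ?_
    intro y₁ hy₁ y₂ hy₂
    have := H s₁ s₂ h₁ h₂ y₁ hy₁ y₂ hy₂
    rwa [e1] at this

/-- The positive part of the polar volume at the point of height `ζ` above `y`. -/
noncomputable def Pp (j : Fin (d + 1)) (L : Set (Fin (d + 1) → ℝ)) (y : Fin d → ℝ) (ζ : ℝ) : ℝ :=
  (volume (polarAt L (ins j ζ y) ∩ {x | 0 < x j})).toReal

/-- The negative part of the polar volume at the point of height `ζ` above `y`. -/
noncomputable def Pm (j : Fin (d + 1)) (L : Set (Fin (d + 1) → ℝ)) (y : Fin d → ℝ) (ζ : ℝ) : ℝ :=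
  (volume (polarAt L (ins j ζ y) ∩ {x | x j < 0})).toReal

lemma sum_ins_ins (j : Fin (d + 1)) (s t ζ : ℝ) (u x y : Fin d → ℝ) :
    ∑ i, ins j s u i * (ins j t x i - ins j ζ y i) =
      s * (t - ζ) + ∑ k, u k * (x k - y k) := by
  rw [Fin.sum_univ_succAbove _ j]
  simp

lemma sum_split (j : Fin (d + 1)) (w x z : Fin (d + 1) → ℝ) (ζ : ℝ) (hz : z j = ζ) :
    ∑ i, w i * (x i - update z j (ζ + 0) i) = ∑ i, w i * (x i - z i) := by
  congr 1
  ext i
  by_cases hi : i = j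
  · subst hi; simp [hz]
  · simp [hi]

lemma volume_half_ne_top {L : Set (Fin (d + 1) → ℝ)} {z : Fin (d + 1) → ℝ} (hz : z ∈ interior L)
    (S : Set (Fin (d + 1) → ℝ)) : volume (polarAt L z ∩ S) ≠ ⊤ :=
  ((measure_mono inter_subset_left).trans_lt (volume_polar_ne_top hz).lt_top).ne

lemma polar_box_sym {L : Set (Fin (d + 1) → ℝ)} (hL : IsCompact L) {z : Fin (d + 1) → ℝ}
    (hz : z ∈ L) : ∃ ε > 0, ∀ w : Fin (d + 1) → ℝ, (∀ i, |w i| ≤ ε) → w ∈ polarAt L z := by
  obtain ⟨R, hR⟩ := bounded_of_compact hL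
  have hR0 : 0 ≤ R := (abs_nonneg _).trans (hR z hz 0)
  refine ⟨1 / (((d : ℝ) + 1) * (2 * R + 1)), by positivity, fun w hw x hx => ?_⟩
  set ε := 1 / (((d : ℝ) + 1) * (2 * R + 1)) with hε
  have hb : ∀ i, w i * (x i - z i) ≤ ε * (2 * R + 1) := by
    intro i
    have h1 := abs_le.mp (hR x hx i)
    have h2 := abs_le.mp (hR z hz i)
    have h3 : |x i - z i| ≤ 2 * R + 1 := by
      rw [abs_le]
      constructor <;> linarith [h1.1, h1.2, h2.1, h2.2]
    calc w i * (x i - z i) ≤ |w i * (x i - z i)| := le_abs_self _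
      _ = |w i| * |x i - z i| := abs_mul _ _
      _ ≤ ε * (2 * R + 1) := mul_le_mul (hw i) h3 (abs_nonneg _) (by positivity)
  calc ∑ i, w i * (x i - z i) ≤ ∑ _i : Fin (d + 1), ε * (2 * R + 1) :=
        Finset.sum_le_sum fun i _ => hb i
    _ = ((d : ℝ) + 1) * (ε * (2 * R + 1)) := by
      simp [Finset.sum_const, nsmul_eq_mul]
    _ = 1 := by
      rw [hε]
      field_simp

lemma volume_half_pos {L : Set (Fin (d + 1) → ℝ)} (hL : IsCompact L) {z : Fin (d + 1) → ℝ}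
    (hz : z ∈ L) : volume (polarAt L z ∩ {x | 0 < x j}) ≠ 0 := by
  obtain ⟨ε, hε, hbox⟩ := polar_box_sym hL hz
  have hop : IsOpen (Set.pi univ (fun _ : Fin (d + 1) => Ioo (0 : ℝ) ε)) :=
    isOpen_set_pi finite_univ (fun _ _ => isOpen_Ioo)
  have hne : (Set.pi univ (fun _ : Fin (d + 1) => Ioo (0 : ℝ) ε)).Nonempty :=
    ⟨fun _ => ε / 2, fun _ _ => ⟨by positivity, by linarith⟩⟩
  have hsub : Set.pi univ (fun _ : Fin (d + 1) => Ioo (0 : ℝ) ε) ⊆ polarAt L z ∩ {x | 0 < x j} := by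
    intro u hu
    refine ⟨hbox u (fun i => ?_), (hu j (mem_univ j)).1⟩
    have := hu i (mem_univ i)
    rw [abs_of_pos this.1]
    exact this.2.le
  exact ((hop.measure_pos volume hne).trans_le (measure_mono hsub)).ne'

lemma Pp_pos {L : Set (Fin (d + 1) → ℝ)} (hL : IsCompact L) {y : Fin d → ℝ} {ζ : ℝ}
    (hz : ins j ζ y ∈ interior L) : 0 < Pp j L y ζ :=
  ENNReal.toReal_pos (volume_half_pos hL (interior_subset hz)) (volume_half_ne_top hz _)

lemma polar_pos_mono (L : Set (Fin (d + 1) → ℝ)) (y : Fin d → ℝ) {ζ ζ' : ℝ} (h : ζ ≤ ζ') :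
    polarAt L (ins j ζ y) ∩ {x | 0 < x j} ⊆ polarAt L (ins j ζ' y) ∩ {x | 0 < x j} := by
  rintro w ⟨hw, hwj⟩
  refine ⟨fun x hx => ?_, hwj⟩
  have h1 := hw x hx
  rw [Fin.sum_univ_succAbove _ j] at h1 ⊢
  simp only [ins_apply_same, ins_apply_succAbove] at h1 ⊢
  have hwj' : 0 < w j := hwj
  nlinarith

lemma Pp_mono {L : Set (Fin (d + 1) → ℝ)} {y : Fin d → ℝ} {ζ ζ' : ℝ} (h : ζ ≤ ζ')
    (hz' : ins j ζ' y ∈ interior L) : Pp j L y ζ ≤ Pp j L y ζ' :=
  ENNReal.toReal_mono (volume_half_ne_top hz' _) (measure_mono (polar_pos_mono L y h))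

/-- The comparison of polar volumes at two heights. -/
lemma Pp_squeeze {L : Set (Fin (d + 1) → ℝ)} {y : Fin d → ℝ} {ζ ζ' t : ℝ} (h : ζ ≤ ζ')
    (ht : ζ' < t) (htL : ins j t y ∈ L) (hz : ins j ζ y ∈ interior L) :
    Pp j L y ζ' ≤ (1 + (ζ' - ζ) / (t - ζ')) ^ (d + 1) * Pp j L y ζ := by
  have hδ : 0 < t - ζ' := by linarith
  set κ := (ζ' - ζ) / (t - ζ') with hκ
  have hκ0 : 0 ≤ κ := div_nonneg (by linarith) hδ.le
  set r : ℝ := (1 + κ)⁻¹ with hr
  have hr0 : 0 < r := by positivity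
  have hsub : polarAt L (ins j ζ' y) ∩ {x | 0 < x j} ⊆
      (fun w => r • w) ⁻¹' (polarAt L (ins j ζ y) ∩ {x | 0 < x j}) := by
    rintro w ⟨hw, hwj⟩
    have hwj' : 0 < w j := hwj
    have hs : w j * (t - ζ') ≤ 1 := by
      have := hw _ htL
      rw [← ins_self j w, sum_ins_ins] at this
      simp only [sub_self, mul_zero, Finset.sum_const_zero, add_zero] at this
      exact this
    refine ⟨fun x hx => ?_, ?_⟩
    · have h1 := hw x hx
      rw [Fin.sum_univ_succAbove _ j] at h1 ⊢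
      simp only [ins_apply_same, ins_apply_succAbove, Pi.smul_apply, smul_eq_mul] at h1 ⊢
      have hs2 : w j * (ζ' - ζ) ≤ κ := by
        rw [hκ, le_div_iff₀ hδ]
        have : w j * (ζ' - ζ) * (t - ζ') = (w j * (t - ζ')) * (ζ' - ζ) := by ring
        rw [this]
        have hh : 0 ≤ ζ' - ζ := by linarith
        nlinarith
      have h3 : (w j * (x j - ζ) + ∑ k, w (j.succAbove k) * (x (j.succAbove k) - y k)) ≤ 1 + κ := by
        have e : w j * (x j - ζ) = w j * (x j - ζ') + w j * (ζ' - ζ) := by ring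
        rw [e]
        linarith
      have e2 : r * w j * (x j - ζ) + ∑ k, r * w (j.succAbove k) * (x (j.succAbove k) - y k)
          = r * (w j * (x j - ζ) + ∑ k, w (j.succAbove k) * (x (j.succAbove k) - y k)) := by
        rw [mul_add, Finset.mul_sum]
        congr 1
        · ring
        · apply Finset.sum_congr rfl
          intros
          ring
      rw [e2]
      calc r * _ ≤ r * (1 + κ) := mul_le_mul_of_nonneg_left h3 hr0.le
        _ = 1 := by rw [hr]; field_simp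
    · show 0 < (r • w) j
      simp only [Pi.smul_apply, smul_eq_mul]
      positivity
  have hvol := Measure.addHaar_preimage_smul (volume : Measure (Fin (d + 1) → ℝ)) hr0.ne'
    (polarAt L (ins j ζ y) ∩ {x | 0 < x j})
  rw [Module.finrank_fin_fun] at hvol
  have hle := (measure_mono hsub).trans_eq hvol
  have hP : (volume (polarAt L (ins j ζ' y) ∩ {x | 0 < x j})).toReal ≤
      (ENNReal.ofReal (abs (r ^ (d + 1))⁻¹) *
        volume (polarAt L (ins j ζ y) ∩ {x | 0 < x j})).toReal :=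
    ENNReal.toReal_mono (ENNReal.mul_ne_top ENNReal.ofReal_ne_top (volume_half_ne_top hz _)) hle
  rw [ENNReal.toReal_mul, ENNReal.toReal_ofReal (abs_nonneg _)] at hP
  have e : abs (r ^ (d + 1))⁻¹ = (1 + κ) ^ (d + 1) := by
    rw [hr, inv_pow, inv_inv, abs_of_pos (by positivity)]
  rw [e] at hP
  exact hP

/-- Continuity of the positive part. -/
lemma Pp_continuousAt {L : Set (Fin (d + 1) → ℝ)} (hL : IsCompact L) {y : Fin d → ℝ} {ζ₀ : ℝ}
    (hz : ins j ζ₀ y ∈ interior L) : ContinuousAt (Pp j L y) ζ₀ := by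
  -- a point above inside `L`, and a neighbourhood
  have hop : IsOpen {ζ : ℝ | ins j ζ y ∈ interior L} := by
    have hc : Continuous (fun ζ : ℝ => ins j ζ y) :=
      Continuous.finInsertNth j continuous_id continuous_const
    exact isOpen_interior.preimage hc
  obtain ⟨ε, hε, hball⟩ := Metric.isOpen_iff.1 hop ζ₀ hz
  set t := ζ₀ + ε / 2 with ht
  have htL : ins j t y ∈ L := by
    have : t ∈ Metric.ball ζ₀ ε := by
      rw [Metric.mem_ball, Real.dist_eq, ht]
      have : ζ₀ + ε / 2 - ζ₀ = ε / 2 := by ring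
      rw [this, abs_of_pos (by positivity)]
      linarith
    exact interior_subset (hball this)
  set c : ℝ := 4 / ε with hc
  have hc0 : 0 < c := by positivity
  set P₀ := Pp j L y ζ₀ with hP₀
  have hP₀pos : 0 < P₀ := Pp_pos hL hz
  have hnear : ∀ᶠ ζ in nhds ζ₀, |ζ - ζ₀| < ε / 4 := by
    have := Metric.ball_mem_nhds ζ₀ (show 0 < ε / 4 by positivity)
    filter_upwards [this] with ζ hζ
    rwa [Metric.mem_ball, Real.dist_eq] at hζ
  have hup : ∀ᶠ ζ in nhds ζ₀, Pp j L y ζ ≤ (1 + c * |ζ - ζ₀|) ^ (d + 1) * P₀ := by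
    filter_upwards [hnear] with ζ hζ
    have hzz : ins j ζ y ∈ interior L := by
      apply hball
      rw [Metric.mem_ball, Real.dist_eq]
      linarith
    rcases le_total ζ ζ₀ with h | h
    · have h1 := Pp_mono (j := j) (L := L) (y := y) h hz
      have h2 : (1:ℝ) ≤ (1 + c * |ζ - ζ₀|) ^ (d + 1) := one_le_pow₀ (by
        have := abs_nonneg (ζ - ζ₀)
        nlinarith)
      nlinarith
    · have hlt := (abs_lt.1 hζ).2
      have h1 := Pp_squeeze h (t := t) (by rw [ht]; linarith) htL hz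
      refine h1.trans ?_
      apply mul_le_mul_of_nonneg_right _ hP₀pos.le
      apply pow_le_pow_left₀
      · apply add_nonneg zero_le_one
        apply div_nonneg <;> linarith
      · rw [abs_of_nonneg (by linarith)]
        have h3 : (ζ - ζ₀) / (t - ζ) ≤ c * (ζ - ζ₀) := by
          rw [div_le_iff₀ (by rw [ht]; linarith)]
          have h4 : 1 ≤ c * (t - ζ) := by
            rw [hc, ht]
            rw [div_mul_eq_mul_div, le_div_iff₀ hε]
            linarith
          have h5 : 0 ≤ ζ - ζ₀ := by linarith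
          nlinarith
        linarith
  have hlow : ∀ᶠ ζ in nhds ζ₀, ((1 + c * |ζ - ζ₀|) ^ (d + 1))⁻¹ * P₀ ≤ Pp j L y ζ := by
    filter_upwards [hnear] with ζ hζ
    have hzz : ins j ζ y ∈ interior L := by
      apply hball
      rw [Metric.mem_ball, Real.dist_eq]
      linarith
    have hpos : 0 < (1 + c * |ζ - ζ₀|) ^ (d + 1) := by positivity
    rcases le_total ζ ζ₀ with h | h
    · have hlt := (abs_lt.1 hζ).1
      have h1 := Pp_squeeze h (t := t) (by rw [ht]; linarith) htL hzz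
      rw [inv_mul_le_iff₀ hpos]
      refine h1.trans ?_
      apply mul_le_mul_of_nonneg_right _ (Pp_pos hL hzz).le
      apply pow_le_pow_left₀
      · apply add_nonneg zero_le_one
        apply div_nonneg <;> [linarith; (rw [ht]; linarith)]
      · rw [abs_of_nonpos (by linarith)]
        have h3 : (ζ₀ - ζ) / (t - ζ₀) ≤ c * (-(ζ - ζ₀)) := by
          rw [div_le_iff₀ (by rw [ht]; linarith)]
          have h4 : 1 ≤ c * (t - ζ₀) := by
            rw [hc, ht]
            rw [div_mul_eq_mul_div, le_div_iff₀ hε]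
            linarith
          have h5 : 0 ≤ ζ₀ - ζ := by linarith
          nlinarith
        linarith
    · have h1 := Pp_mono (j := j) (L := L) (y := y) h hzz
      have h2 : ((1 + c * |ζ - ζ₀|) ^ (d + 1))⁻¹ ≤ 1 := by
        apply inv_le_one_of_one_le₀
        exact one_le_pow₀ (by
          have := abs_nonneg (ζ - ζ₀)
          nlinarith)
      nlinarith
  have hcont : Continuous (fun ζ : ℝ => 1 + c * |ζ - ζ₀|) := by fun_prop
  have lim1 : Filter.Tendsto (fun ζ : ℝ => (1 + c * |ζ - ζ₀|) ^ (d + 1) * P₀) (nhds ζ₀) (nhds P₀) := by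
    have : Continuous (fun ζ : ℝ => (1 + c * |ζ - ζ₀|) ^ (d + 1) * P₀) := by fun_prop
    have h0 := this.tendsto ζ₀
    simpa using h0
  have lim2 : Filter.Tendsto (fun ζ : ℝ => ((1 + c * |ζ - ζ₀|) ^ (d + 1))⁻¹ * P₀) (nhds ζ₀)
      (nhds P₀) := by
    have hne : ∀ ζ : ℝ, (1 + c * |ζ - ζ₀|) ^ (d + 1) ≠ 0 := fun ζ => by positivity
    have : Continuous (fun ζ : ℝ => ((1 + c * |ζ - ζ₀|) ^ (d + 1))⁻¹ * P₀) :=
      ((hcont.pow _).inv₀ hne).mul continuous_const
    have h0 := this.tendsto ζ₀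
    simpa using h0
  exact tendsto_of_tendsto_of_tendsto_of_le_of_le' lim2 lim1 hlow hup

end Vale.Agent.Lib.P248
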