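import Vale.Agent.Lib.P248.Mix2

open MeasureTheory Set Function
open scoped ENNReal Pointwise

namespace Vale.Agent.Lib.P248

variable {d : ℕ} {j : Fin (d + 1)}

lemma continuous_ins_left (j : Fin (d + 1)) (y : Fin d → ℝ) : Continuous (fun ζ : ℝ => ins j ζ y) :=
  Continuous.finInsertNth j continuous_id continuous_const

/-- A supporting functional at the top of a fibre, normalized in the coordinate `j`. -/
lemma exists_support_top {L : Set (Fin (d + 1) → ℝ)} (hc : Convex ℝ L) {y : Fin d → ℝ}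
    {t ζ₀ : ℝ} (hζ₀ : ins j ζ₀ y ∈ interior L) (hmax : ∀ t', t < t' → ins j t' y ∉ L) :
    ∃ v : Fin d → ℝ, ∀ τ x', ins j τ x' ∈ L → (τ - t) + ∑ k, v k * (x' k - y k) ≤ 0 := by
  have hne : (interior L).Nonempty := ⟨_, hζ₀⟩
  have hpnot : ins j t y ∉ interior L := by
    intro hp
    have hop : IsOpen {ζ : ℝ | ins j ζ y ∈ interior L} :=
      isOpen_interior.preimage (continuous_ins_left j y)
    obtain ⟨ε, hε, hball⟩ := Metric.isOpen_iff.1 hop t hp
    have h1 : t + ε / 2 ∈ Metric.ball t ε := by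
      rw [Metric.mem_ball, Real.dist_eq]
      have : t + ε / 2 - t = ε / 2 := by ring
      rw [this, abs_of_pos (by positivity)]
      linarith
    exact hmax (t + ε / 2) (by linarith) (interior_subset (hball h1))
  obtain ⟨f, hf⟩ := geometric_hahn_banach_open_point hc.interior isOpen_interior hpnot
  have hfle : ∀ a ∈ L, f a ≤ f (ins j t y) := by
    have hcl : IsClosed {a | f a ≤ f (ins j t y)} := isClosed_le f.continuous continuous_const
    have hsub : closure (interior L) ⊆ {a | f a ≤ f (ins j t y)} :=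
      closure_minimal (fun a ha => (hf a ha).le) hcl
    intro a ha
    apply hsub
    rw [hc.closure_interior_eq_closure_of_nonempty_interior hne]
    exact subset_closure ha
  set n : Fin (d + 1) → ℝ := fun i => f (fun l => if i = l then 1 else 0) with hn
  have hfn : ∀ x : Fin (d + 1) → ℝ, f x = ∑ i, x i * n i := by
    intro x
    have := (f : (Fin (d + 1) → ℝ) →ₗ[ℝ] ℝ).pi_apply_eq_sum_univ x
    simpa [hn, smul_eq_mul] using this
  have hval : ∀ τ x', f (ins j τ x') = τ * n j + ∑ k, x' k * n (j.succAbove k) := by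
    intro τ x'
    rw [hfn, Fin.sum_univ_succAbove _ j]
    simp
  have hpos : 0 < n j := by
    have h1 := hf _ hζ₀
    rw [hval, hval] at h1
    have hζ : ζ₀ ≤ t := by
      by_contra hlt
      push Not at hlt
      exact hmax _ hlt (interior_subset hζ₀)
    have h2 : (ζ₀ - t) * n j < 0 := by linarith
    by_contra hnn
    push Not at hnn
    have : 0 ≤ (ζ₀ - t) * n j := mul_nonneg_of_nonpos_of_nonpos (by linarith) hnn
    linarith
  refine ⟨fun k => n (j.succAbove k) / n j, fun τ x' hx => ?_⟩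
  have h1 := hfle _ hx
  rw [hval, hval] at h1
  have e : (τ - t) + ∑ k, n (j.succAbove k) / n j * (x' k - y k) =
      ((τ * n j + ∑ k, x' k * n (j.succAbove k)) - (t * n j + ∑ k, y k * n (j.succAbove k))) / n j := by
    have : ∑ k, n (j.succAbove k) / n j * (x' k - y k) =
        (∑ k, x' k * n (j.succAbove k) - ∑ k, y k * n (j.succAbove k)) / n j := by
      rw [← Finset.sum_sub_distrib, Finset.sum_div]
      apply Finset.sum_congr rfl
      intros
      field_simp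
    rw [this]
    field_simp
    ring
  rw [e]
  apply div_nonpos_of_nonpos_of_nonneg _ hpos.le
  linarith

/-- Blow up of the positive part at the top of a fibre. -/
lemma Pp_blowup {L : Set (Fin (d + 1) → ℝ)} (hL : IsCompact L) (hc : Convex ℝ L) {y : Fin d → ℝ}
    {t ζ₀ : ℝ} (hζ₀ : ins j ζ₀ y ∈ interior L) (ht : ins j t y ∈ L)
    (hmax : ∀ t', t < t' → ins j t' y ∉ L) (R : ℝ) :
    ∃ ζ₁ < t, ∀ ζ, ζ₁ < ζ → ζ < t → ins j ζ y ∈ interior L → R ≤ Pp j L y ζ := by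
  obtain ⟨v, hv⟩ := exists_support_top hc hζ₀ hmax
  obtain ⟨R₀, hR₀⟩ := bounded_of_compact hL
  have hR₀0 : 0 ≤ R₀ := (abs_nonneg _).trans (hR₀ _ ht 0)
  set ε : ℝ := 1 / (2 * ((d : ℝ) + 1) * (2 * R₀ + 1)) with hε
  have hε0 : 0 < ε := by positivity
  set c : ℝ := (2 * ε) ^ d with hcdef
  have hc0 : 0 < c := by positivity
  set B : ℝ := |R| + 1 with hB
  have hB0 : 0 < B := by positivity
  refine ⟨t - c / (2 * B), by
    have : 0 < c / (2 * B) := by positivity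
    linarith, ?_⟩
  intro ζ h1 h2 hz
  have hδ : 0 < t - ζ := by linarith
  set S : ℝ := 1 / (2 * (t - ζ)) with hS
  have hS0 : 0 < S := by positivity
  -- the slices contain boxes
  have hslice : ∀ s ∈ Ioc (0:ℝ) S, ENNReal.ofReal c ≤ volume (sl j (polarAt L (ins j ζ y)) s) := by
    intro s hs
    have hsub : Icc (fun k => s * v k - ε) (fun k => s * v k + ε) ⊆
        sl j (polarAt L (ins j ζ y)) s := by
      intro w hw x hx
      have hxe : ins j (x j) (fun k => x (j.succAbove k)) = x := ins_self j x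
      rw [← hxe] at hx ⊢
      rw [sum_ins_ins]
      set τ := x j
      set x' : Fin d → ℝ := fun k => x (j.succAbove k) with hx'
      have h3 := hv τ x' hx
      have hs1 : s * (t - ζ) ≤ 1 / 2 := by
        have : s ≤ S := hs.2
        rw [hS] at this
        rw [le_div_iff₀ (by positivity)] at this
        nlinarith
      have hsum : ∑ k, (w k - s * v k) * (x' k - y k) ≤ 1 / 2 := by
        have hb : ∀ k, (w k - s * v k) * (x' k - y k) ≤ ε * (2 * R₀ + 1) := by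
          intro k
          have hk1 := (hw.1 k)
          have hk2 := (hw.2 k)
          have h5 : |w k - s * v k| ≤ ε := by
            rw [abs_le]
            constructor <;> linarith
          have h6 := abs_le.mp (hR₀ _ hx (j.succAbove k))
          have h7 := abs_le.mp (hR₀ _ ht (j.succAbove k))
          simp only [ins_apply_succAbove] at h6 h7
          have h8 : |x' k - y k| ≤ 2 * R₀ + 1 := by
            rw [abs_le]
            constructor <;> linarith [h6.1, h6.2, h7.1, h7.2]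
          calc (w k - s * v k) * (x' k - y k) ≤ |(w k - s * v k) * (x' k - y k)| := le_abs_self _
            _ = |w k - s * v k| * |x' k - y k| := abs_mul _ _
            _ ≤ ε * (2 * R₀ + 1) := mul_le_mul h5 h8 (abs_nonneg _) hε0.le
        calc ∑ k, (w k - s * v k) * (x' k - y k) ≤ ∑ _k : Fin d, ε * (2 * R₀ + 1) :=
              Finset.sum_le_sum fun k _ => hb k
          _ = (d : ℝ) * (ε * (2 * R₀ + 1)) := by
            simp [Finset.sum_const, nsmul_eq_mul]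
          _ ≤ 1 / 2 := by
            rw [hε]
            have h9 : (0:ℝ) < 2 * R₀ + 1 := by positivity
            have h10 : (d : ℝ) * (1 / (2 * ((d : ℝ) + 1) * (2 * R₀ + 1)) * (2 * R₀ + 1)) =
                (d : ℝ) / (2 * ((d : ℝ) + 1)) := by
              field_simp
            rw [h10, div_le_iff₀ (by positivity)]
            linarith
      have e : s * (τ - ζ) + ∑ k, w k * (x' k - y k) =
          s * ((τ - t) + ∑ k, v k * (x' k - y k)) + s * (t - ζ) +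
            ∑ k, (w k - s * v k) * (x' k - y k) := by
        have : ∑ k, w k * (x' k - y k) = s * ∑ k, v k * (x' k - y k) +
            ∑ k, (w k - s * v k) * (x' k - y k) := by
          rw [Finset.mul_sum, ← Finset.sum_add_distrib]
          apply Finset.sum_congr rfl
          intros
          ring
        rw [this]
        ring
      rw [e]
      have h11 : s * ((τ - t) + ∑ k, v k * (x' k - y k)) ≤ 0 :=
        mul_nonpos_of_nonneg_of_nonpos hs.1.le h3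
      linarith
    refine le_trans (le_of_eq ?_) (measure_mono hsub)
    rw [Real.volume_Icc_pi]
    have : ∀ k : Fin d, ENNReal.ofReal ((s * v k + ε) - (s * v k - ε)) = ENNReal.ofReal (2 * ε) := by
      intro k
      congr 1
      ring
    simp_rw [this]
    rw [Finset.prod_const, Finset.card_univ, Fintype.card_fin, ← ENNReal.ofReal_pow (by positivity)]
  have hlow : ENNReal.ofReal (S * c) ≤ volume (polarAt L (ins j ζ y) ∩ {x | 0 < x j}) := by
    have hm : MeasurableSet (polarAt L (ins j ζ y)) := (polarAt_isClosed _ _).measurableSet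
    have e : volume (polarAt L (ins j ζ y) ∩ {x | 0 < x j}) =
        ∫⁻ s in Ioi (0:ℝ), volume (sl j (polarAt L (ins j ζ y)) s) :=
      volume_inter_coord j hm measurableSet_Ioi
    rw [e]
    calc ENNReal.ofReal (S * c) = ∫⁻ _s in Ioc (0:ℝ) S, ENNReal.ofReal c := by
          rw [setLIntegral_const, Real.volume_Ioc, sub_zero, ENNReal.ofReal_mul hS0.le, mul_comm]
      _ ≤ ∫⁻ s in Ioc (0:ℝ) S, volume (sl j (polarAt L (ins j ζ y)) s) :=
          setLIntegral_mono' measurableSet_Ioc hslice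
      _ ≤ _ := lintegral_mono_set Ioc_subset_Ioi_self
  have hreal : S * c ≤ Pp j L y ζ :=
    (ENNReal.ofReal_le_iff_le_toReal (volume_half_ne_top hz _)).1 hlow
  refine le_trans ?_ hreal
  have hlt : t - ζ < c / (2 * B) := by linarith
  have h3 : B ≤ S * c := by
    rw [hS, div_mul_eq_mul_div, one_mul, le_div_iff₀ (by positivity)]
    rw [lt_div_iff₀ (by positivity)] at hlt
    linarith
  have h4 : R ≤ B := by
    rw [hB]
    linarith [le_abs_self R]
  linarith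

lemma ins_neg_fl {y : Fin d → ℝ} (ζ : ℝ) : fl j (ins j ζ y) = ins j (-ζ) y := fl_ins ζ y

lemma fl_interior {L : Set (Fin (d + 1) → ℝ)} {z : Fin (d + 1) → ℝ} (hz : z ∈ interior L) :
    fl j z ∈ interior ((fl j) ⁻¹' L) := by
  apply preimage_interior_subset_interior_preimage fl_continuous
  show fl j (fl j z) ∈ interior L
  rwa [fl_fl]

lemma Pm_eq_Pp (L : Set (Fin (d + 1) → ℝ)) (y : Fin d → ℝ) (ζ : ℝ) :
    Pm j L y ζ = Pp j ((fl j) ⁻¹' L) y (-ζ) := by
  unfold Pm Pp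
  have e : polarAt ((fl j) ⁻¹' L) (ins j (-ζ) y) ∩ {x | 0 < x j} =
      (fl j) ⁻¹' (polarAt L (ins j ζ y) ∩ {x | x j < 0}) := by
    rw [← ins_neg_fl ζ, polar_fl]
    ext w
    simp only [mem_inter_iff, mem_preimage, mem_ofPred_eq, fl_apply_self]
    constructor
    · rintro ⟨h1, h2⟩; exact ⟨h1, by linarith⟩
    · rintro ⟨h1, h2⟩; exact ⟨h1, by linarith⟩
  rw [e, volume_fl_preimage ((polarAt_isClosed _ _).measurableSet.inter
    (measurableSet_lt (measurable_pi_apply j) measurable_const))]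

lemma Pm_continuousAt {L : Set (Fin (d + 1) → ℝ)} (hL : IsCompact L) {y : Fin d → ℝ} {ζ₀ : ℝ}
    (hz : ins j ζ₀ y ∈ interior L) : ContinuousAt (Pm j L y) ζ₀ := by
  have h1 : ins j (-ζ₀) y ∈ interior ((fl j) ⁻¹' L) := by
    rw [← ins_neg_fl ζ₀]
    exact fl_interior hz
  have h2 := Pp_continuousAt (isCompact_fl hL) h1
  have h3 : Pm j L y = (Pp j ((fl j) ⁻¹' L) y) ∘ (fun ζ => -ζ) := by
    ext ζ
    exact Pm_eq_Pp L y ζ
  rw [h3]
  exact ContinuousAt.comp (f := fun ζ : ℝ => -ζ) h2 continuous_neg.continuousAt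

lemma Pm_pos {L : Set (Fin (d + 1) → ℝ)} (hL : IsCompact L) {y : Fin d → ℝ} {ζ : ℝ}
    (hz : ins j ζ y ∈ interior L) : 0 < Pm j L y ζ := by
  rw [Pm_eq_Pp]
  apply Pp_pos (isCompact_fl hL)
  rw [← ins_neg_fl ζ]
  exact fl_interior hz

lemma Pm_anti {L : Set (Fin (d + 1) → ℝ)} {y : Fin d → ℝ} {ζ ζ' : ℝ} (h : ζ ≤ ζ')
    (hz' : ins j ζ y ∈ interior L) : Pm j L y ζ' ≤ Pm j L y ζ := by
  rw [Pm_eq_Pp, Pm_eq_Pp]
  apply Pp_mono (by linarith)
  rw [← ins_neg_fl ζ]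
  exact fl_interior hz'

/-- Blow up of the negative part at the bottom of a fibre. -/
lemma Pm_blowup {L : Set (Fin (d + 1) → ℝ)} (hL : IsCompact L) (hc : Convex ℝ L) {y : Fin d → ℝ}
    {b ζ₀ : ℝ} (hζ₀ : ins j ζ₀ y ∈ interior L) (hb : ins j b y ∈ L)
    (hmin : ∀ t', t' < b → ins j t' y ∉ L) (R : ℝ) :
    ∃ ζ₁, b < ζ₁ ∧ ∀ ζ, b < ζ → ζ < ζ₁ → ins j ζ y ∈ interior L → R ≤ Pm j L y ζ := by
  have h1 : ins j (-ζ₀) y ∈ interior ((fl j) ⁻¹' L) := by
    rw [← ins_neg_fl ζ₀]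
    exact fl_interior hζ₀
  have h2 : ins j (-b) y ∈ (fl j) ⁻¹' L := by
    show fl j (ins j (-b) y) ∈ L
    rw [ins_neg_fl, neg_neg]
    exact hb
  have h3 : ∀ t', -b < t' → ins j t' y ∉ (fl j) ⁻¹' L := by
    intro t' ht' hin
    have h4 : fl j (ins j t' y) ∈ L := hin
    rw [ins_neg_fl] at h4
    exact hmin (-t') (by linarith) h4
  obtain ⟨ζ₁, hζ₁, hbd⟩ := Pp_blowup (isCompact_fl hL) (convex_fl hc) h1 h2 h3 R
  refine ⟨-ζ₁, by linarith, fun ζ h4 h5 h6 => ?_⟩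
  rw [Pm_eq_Pp]
  refine hbd (-ζ) (by linarith) (by linarith) ?_
  rw [← ins_neg_fl ζ]
  exact fl_interior h6

/-- The fibre data of a convex body above a point. -/
structure FibreData (j : Fin (d + 1)) (L : Set (Fin (d + 1) → ℝ)) (y : Fin d → ℝ) (b t : ℝ) : Prop where
  lt : b < t
  memb : ins j b y ∈ L
  memt : ins j t y ∈ L
  lo : ∀ τ, τ < b → ins j τ y ∉ L
  hi : ∀ τ, t < τ → ins j τ y ∉ L
  int : ∀ τ ∈ Ioo b t, ins j τ y ∈ interior L

lemma exists_fibreData {L : Set (Fin (d + 1) → ℝ)} (hL : IsCompact L) (hc : Convex ℝ L)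
    {y : Fin d → ℝ} {ζ₀ : ℝ} (hζ₀ : ins j ζ₀ y ∈ interior L) : ∃ b t, FibreData j L y b t := by
  have hA : IsCompact {τ : ℝ | ins j τ y ∈ L} := by
    have hcl : IsClosed {τ : ℝ | ins j τ y ∈ L} := hL.isClosed.preimage (continuous_ins_left j y)
    obtain ⟨R, hR⟩ := bounded_of_compact hL
    refine Metric.isCompact_of_isClosed_isBounded hcl ?_
    refine (Metric.isBounded_Icc (-R) R).subset ?_
    intro τ hτ
    have := hR _ hτ j
    rw [ins_apply_same] at this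
    exact abs_le.mp this
  have h00 : ins j ζ₀ y ∈ L := interior_subset hζ₀
  have hne : {τ : ℝ | ins j τ y ∈ L}.Nonempty := ⟨ζ₀, h00⟩
  obtain ⟨b, hb, hbmin⟩ := hA.exists_isLeast hne
  obtain ⟨t, ht, htmax⟩ := hA.exists_isGreatest hne
  have hop : IsOpen {ζ : ℝ | ins j ζ y ∈ interior L} :=
    isOpen_interior.preimage (continuous_ins_left j y)
  obtain ⟨ε, hε, hball⟩ := Metric.isOpen_iff.1 hop ζ₀ hζ₀
  have hup : ζ₀ + ε / 2 ∈ {τ : ℝ | ins j τ y ∈ L} := by
    have h1 : ζ₀ + ε / 2 ∈ Metric.ball ζ₀ ε := by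
      rw [Metric.mem_ball, Real.dist_eq]
      have : ζ₀ + ε / 2 - ζ₀ = ε / 2 := by ring
      rw [this, abs_of_pos (by positivity)]
      linarith
    have h2 : ins j (ζ₀ + ε / 2) y ∈ interior L := hball h1
    have h3 : ins j (ζ₀ + ε / 2) y ∈ L := interior_subset h2
    exact h3
  have hdn : ζ₀ - ε / 2 ∈ {τ : ℝ | ins j τ y ∈ L} := by
    have h1 : ζ₀ - ε / 2 ∈ Metric.ball ζ₀ ε := by
      rw [Metric.mem_ball, Real.dist_eq]
      have : ζ₀ - ε / 2 - ζ₀ = -(ε / 2) := by ring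
      rw [this, abs_neg, abs_of_pos (by positivity)]
      linarith
    have h2 : ins j (ζ₀ - ε / 2) y ∈ interior L := hball h1
    have h3 : ins j (ζ₀ - ε / 2) y ∈ L := interior_subset h2
    exact h3
  have h1 : ζ₀ + ε / 2 ≤ t := htmax hup
  have h2 : b ≤ ζ₀ - ε / 2 := hbmin hdn
  refine ⟨b, t, ⟨by linarith, hb, ht, ?_, ?_, ?_⟩⟩
  · intro τ hτ hin
    exact absurd (hbmin hin) (not_le.mpr hτ)
  · intro τ hτ hin
    exact absurd (htmax hin) (not_le.mpr hτ)
  · intro τ hτ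
    -- `τ` lies on a segment from `ζ₀` to an end point
    rcases le_total τ ζ₀ with h | h
    · rcases h.eq_or_lt with rfl | hlt
      · exact hζ₀
      · -- between `b` and `ζ₀`
        have hb' : b < ζ₀ := by linarith [hτ.1]
        set a : ℝ := (ζ₀ - τ) / (ζ₀ - b) with ha
        have ha0 : 0 < a := div_pos (by linarith) (by linarith)
        have ha1 : a < 1 := by
          rw [ha, div_lt_one (by linarith)]
          linarith [hτ.1]
        have hcombo := hc.combo_self_interior_mem_interior hb hζ₀ ha0.le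
          (show 0 < 1 - a by linarith) (by ring)
        rw [ins_add_smul] at hcombo
        have e1 : a * b + (1 - a) * ζ₀ = τ := by
          rw [ha]
          have : ζ₀ - b ≠ 0 := by linarith
          field_simp
          ring
        have e2 : a • y + (1 - a) • y = y := by
          rw [← add_smul]
          simp
        rwa [e1, e2] at hcombo
    · rcases h.eq_or_lt with rfl | hlt
      · exact hζ₀
      · have ht' : ζ₀ < t := by linarith [hτ.2]
        set a : ℝ := (τ - ζ₀) / (t - ζ₀) with ha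
        have ha0 : 0 < a := div_pos (by linarith) (by linarith)
        have ha1 : a < 1 := by
          rw [ha, div_lt_one (by linarith)]
          linarith [hτ.2]
        have hcombo := hc.combo_self_interior_mem_interior ht hζ₀ ha0.le
          (show 0 < 1 - a by linarith) (by ring)
        rw [ins_add_smul] at hcombo
        have e1 : a * t + (1 - a) * ζ₀ = τ := by
          rw [ha]
          have : t - ζ₀ ≠ 0 := by linarith
          field_simp
          ring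
        have e2 : a • y + (1 - a) • y = y := by
          rw [← add_smul]
          simp
        rwa [e1, e2] at hcombo

/-- A point of the open segment at the low end where the cross term is positive. -/
lemma exists_pos_cross {L₁ L₂ : Set (Fin (d + 1) → ℝ)} (h₁ : IsCompact L₁) (h₂ : IsCompact L₂)
    (c₁ : Convex ℝ L₁) (c₂ : Convex ℝ L₂) {y : Fin d → ℝ} {b₁ t₁ b₂ t₂ ζ : ℝ}
    (F₁ : FibreData j L₁ y b₁ t₁) (F₂ : FibreData j L₂ y b₂ t₂)
    (hlo : b₁ + b₂ < 2 * ζ) (hhi : 2 * ζ < t₁ + t₂) :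
    ∃ x, x ∈ Ioo b₁ t₁ ∧ 2 * ζ - x ∈ Ioo b₂ t₂ ∧
      Pp j L₁ y x * Pm j L₂ y (2 * ζ - x) < Pm j L₁ y x * Pp j L₂ y (2 * ζ - x) := by
  set α := max b₁ (2 * ζ - t₂) with hα
  set β := min t₁ (2 * ζ - b₂) with hβ
  have hb₁t₁ := F₁.lt
  have hb₂t₂ := F₂.lt
  have hαβ : α < β := by
    rw [hα, hβ]
    apply max_lt <;> apply lt_min <;> linarith
  have hJ : ∀ x, α < x → x < β → x ∈ Ioo b₁ t₁ ∧ 2 * ζ - x ∈ Ioo b₂ t₂ := by
    intro x h1 h2
    have h3 : b₁ < x := lt_of_le_of_lt (le_max_left _ _) h1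
    have h4 : 2 * ζ - t₂ < x := lt_of_le_of_lt (le_max_right _ _) h1
    have h5 : x < t₁ := lt_of_lt_of_le h2 (min_le_left _ _)
    have h6 : x < 2 * ζ - b₂ := lt_of_lt_of_le h2 (min_le_right _ _)
    exact ⟨⟨h3, h5⟩, ⟨by linarith, by linarith⟩⟩
  set m := (α + β) / 2 with hm
  have hm1 : α < m := by rw [hm]; linarith
  have hm2 : m < β := by rw [hm]; linarith
  obtain ⟨hm₁, hm₂⟩ := hJ m hm1 hm2
  have hi₁ := F₁.int m hm₁
  have hi₂ := F₂.int _ hm₂
  set A := Pp j L₁ y m * Pm j L₂ y (2 * ζ - m) with hA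
  have hA0 : 0 < A := mul_pos (Pp_pos h₁ hi₁) (Pm_pos h₂ hi₂)
  set e₁ := Pm j L₁ y m with he₁
  set e₂ := Pp j L₂ y (2 * ζ - m) with he₂
  have he₁0 : 0 < e₁ := Pm_pos h₁ hi₁
  have he₂0 : 0 < e₂ := Pp_pos h₂ hi₂
  have hcmp : ∀ x, α < x → x ≤ m → x ∈ Ioo b₁ t₁ ∧ 2 * ζ - x ∈ Ioo b₂ t₂ ∧
      Pp j L₁ y x * Pm j L₂ y (2 * ζ - x) ≤ A ∧ e₁ ≤ Pm j L₁ y x ∧ e₂ ≤ Pp j L₂ y (2 * ζ - x) := by
    intro x h1 h2
    obtain ⟨hx₁, hx₂⟩ := hJ x h1 (by linarith)
    have ix₁ := F₁.int x hx₁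
    have ix₂ := F₂.int _ hx₂
    refine ⟨hx₁, hx₂, ?_, Pm_anti h2 ix₁, Pp_mono (by linarith) ix₂⟩
    rw [hA]
    apply mul_le_mul (Pp_mono h2 hi₁) (Pm_anti (by linarith) hi₂) (Pm_pos h₂ ix₂).le
      (Pp_pos h₁ hi₁).le
  rcases le_total (2 * ζ - t₂) b₁ with hcase | hcase
  · -- the lower end is `b₁`
    have hαe : α = b₁ := by rw [hα]; exact max_eq_left hcase
    obtain ⟨ζ₁, hζ₁, hbd⟩ := Pm_blowup h₁ c₁ hi₁ F₁.memb F₁.lo ((A + 1) / e₂)
    set x := (α + min ζ₁ m) / 2 with hx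
    have hmin : α < min ζ₁ m := lt_min (by rw [hαe]; exact hζ₁) hm1
    have hx1 : α < x := by rw [hx]; linarith
    have hx2 : x < min ζ₁ m := by rw [hx]; linarith
    have hx3 : x < ζ₁ := lt_of_lt_of_le hx2 (min_le_left _ _)
    have hx4 : x ≤ m := (lt_of_lt_of_le hx2 (min_le_right _ _)).le
    obtain ⟨hx₁, hx₂, h5, h6, h7⟩ := hcmp x hx1 hx4
    refine ⟨x, hx₁, hx₂, ?_⟩
    have h8 := hbd x hx₁.1 hx3 (F₁.int x hx₁)
    have h9 : (A + 1) / e₂ * e₂ ≤ Pm j L₁ y x * Pp j L₂ y (2 * ζ - x) :=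
      mul_le_mul h8 h7 he₂0.le ((div_pos (by linarith) he₂0).le.trans h8)
    rw [div_mul_cancel₀ _ he₂0.ne'] at h9
    linarith
  · have hαe : α = 2 * ζ - t₂ := by rw [hα]; exact max_eq_right hcase
    obtain ⟨ζ₁, hζ₁, hbd⟩ := Pp_blowup h₂ c₂ hi₂ F₂.memt F₂.hi ((A + 1) / e₁)
    -- `2ζ - x` close to `t₂`
    set x := (α + min (2 * ζ - ζ₁) m) / 2 with hx
    have hmin : α < min (2 * ζ - ζ₁) m := lt_min (by rw [hαe]; linarith) hm1
    have hx1 : α < x := by rw [hx]; linarith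
    have hx2 : x < min (2 * ζ - ζ₁) m := by rw [hx]; linarith
    have hx3 : x < 2 * ζ - ζ₁ := lt_of_lt_of_le hx2 (min_le_left _ _)
    have hx4 : x ≤ m := (lt_of_lt_of_le hx2 (min_le_right _ _)).le
    obtain ⟨hx₁, hx₂, h5, h6, h7⟩ := hcmp x hx1 hx4
    refine ⟨x, hx₁, hx₂, ?_⟩
    have h8 := hbd (2 * ζ - x) (by linarith) hx₂.2 (F₂.int _ hx₂)
    have h9 : e₁ * ((A + 1) / e₁) ≤ Pm j L₁ y x * Pp j L₂ y (2 * ζ - x) :=
      mul_le_mul h6 h8 (div_pos (by linarith) he₁0).le (he₁0.le.trans h6)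
    rw [mul_div_cancel₀ _ he₁0.ne'] at h9
    linarith

/-- Existence of balanced points. -/
theorem exists_balance {L₁ L₂ : Set (Fin (d + 1) → ℝ)} (h₁ : IsCompact L₁) (h₂ : IsCompact L₂)
    (c₁ : Convex ℝ L₁) (c₂ : Convex ℝ L₂) {y : Fin d → ℝ} {b₁ t₁ b₂ t₂ ζ : ℝ}
    (F₁ : FibreData j L₁ y b₁ t₁) (F₂ : FibreData j L₂ y b₂ t₂)
    (hlo : b₁ + b₂ < 2 * ζ) (hhi : 2 * ζ < t₁ + t₂) :
    ∃ x, x ∈ Ioo b₁ t₁ ∧ 2 * ζ - x ∈ Ioo b₂ t₂ ∧
      Pp j L₁ y x * Pm j L₂ y (2 * ζ - x) = Pm j L₁ y x * Pp j L₂ y (2 * ζ - x) := by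
  obtain ⟨x₁, hx₁, hx₁', hlt₁⟩ := exists_pos_cross h₁ h₂ c₁ c₂ F₁ F₂ hlo hhi
  obtain ⟨x₂', hx₂', hx₂, hlt₂⟩ := exists_pos_cross (ζ := ζ) h₂ h₁ c₂ c₁ F₂ F₁ (by linarith) (by linarith)
  set x₂ := 2 * ζ - x₂' with hx₂def
  have e : x₂' = 2 * ζ - x₂ := by rw [hx₂def]; ring
  rw [e] at hlt₂ hx₂'
  set G : ℝ → ℝ := fun x => Pm j L₁ y x * Pp j L₂ y (2 * ζ - x) -
    Pp j L₁ y x * Pm j L₂ y (2 * ζ - x) with hG
  have hseg : ∀ x ∈ uIcc x₁ x₂, x ∈ Ioo b₁ t₁ ∧ 2 * ζ - x ∈ Ioo b₂ t₂ := by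
    intro x hx
    have h3 : min x₁ x₂ ≤ x := hx.1
    have h4 : x ≤ max x₁ x₂ := hx.2
    have h5 : b₁ < min x₁ x₂ := lt_min hx₁.1 hx₂.1
    have h6 : max x₁ x₂ < t₁ := max_lt hx₁.2 hx₂.2
    have h7 : 2 * ζ - t₂ < min x₁ x₂ := lt_min (by linarith [hx₁'.2]) (by linarith [hx₂'.2])
    have h8 : max x₁ x₂ < 2 * ζ - b₂ := max_lt (by linarith [hx₁'.1]) (by linarith [hx₂'.1])
    exact ⟨⟨by linarith, by linarith⟩, ⟨by linarith, by linarith⟩⟩
  have hcont : ContinuousOn G (uIcc x₁ x₂) := by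
    intro x hx
    obtain ⟨h3, h4⟩ := hseg x hx
    apply ContinuousAt.continuousWithinAt
    have i₁ := F₁.int x h3
    have i₂ := F₂.int _ h4
    have hsub : ContinuousAt (fun x : ℝ => 2 * ζ - x) x := by fun_prop
    have c1 : ContinuousAt (fun x => Pp j L₂ y (2 * ζ - x)) x :=
      ContinuousAt.comp (f := fun x : ℝ => 2 * ζ - x) (Pp_continuousAt h₂ i₂) hsub
    have c2 : ContinuousAt (fun x => Pm j L₂ y (2 * ζ - x)) x :=
      ContinuousAt.comp (f := fun x : ℝ => 2 * ζ - x) (Pm_continuousAt h₂ i₂) hsub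
    exact ((Pm_continuousAt h₁ i₁).mul c1).sub ((Pp_continuousAt h₁ i₁).mul c2)
  have hG₁ : 0 < G x₁ := by
    rw [hG]
    simp only
    linarith
  have hG₂ : G x₂ < 0 := by
    rw [hG]
    simp only
    have e3 : 2 * ζ - x₂ = x₂' := by rw [e]
    linarith
  have hmem : (0:ℝ) ∈ uIcc (G x₁) (G x₂) := by
    rw [uIcc_of_ge (by linarith)]
    exact ⟨hG₂.le, hG₁.le⟩
  obtain ⟨x, hx, hGx⟩ := intermediate_value_uIcc hcont hmem
  obtain ⟨h3, h4⟩ := hseg x hx
  refine ⟨x, h3, h4, ?_⟩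
  have : G x = 0 := hGx
  rw [hG] at this
  simp only at this
  linarith

/-- The lower bound for the positive part of the polar of a fibrewise mixture. -/
theorem mix_half {K L₁ L₂ : Set (Fin (d + 1) → ℝ)} (h₁ : IsCompact L₁) (h₂ : IsCompact L₂)
    (hfib : ∀ s x', ins j s x' ∈ K → ∃ t₁ t₂, ins j t₁ x' ∈ L₁ ∧ ins j t₂ x' ∈ L₂ ∧ s = (t₁ + t₂) / 2)
    {y : Fin d → ℝ} {ζ₁ ζ₂ : ℝ} (hz₁ : ins j ζ₁ y ∈ interior L₁) (hz₂ : ins j ζ₂ y ∈ interior L₂) :
    ENNReal.ofReal (2 / (1 / Pp j L₁ y ζ₁ + 1 / Pp j L₂ y ζ₂)) ≤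
      volume (polarAt K (ins j ((ζ₁ + ζ₂) / 2) y) ∩ {x | 0 < x j}) := by
  obtain ⟨R₁, hR₁⟩ := polarAt_bounded hz₁
  obtain ⟨R₂, hR₂⟩ := polarAt_bounded hz₂
  refine harm_lower (R := max R₁ R₂) (polarAt_isClosed _ _).measurableSet
    (polarAt_isClosed _ _).measurableSet (polarAt_isClosed _ _).measurableSet
    (fun w hw i => (hR₁ w hw i).trans (le_max_left _ _))
    (fun w hw i => (hR₂ w hw i).trans (le_max_right _ _))
    (volume_half_pos h₁ (interior_subset hz₁)) (volume_half_pos h₂ (interior_subset hz₂)) ?_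
  intro s₁ s₂ hs₁ hs₂ w₁ hw₁ w₂ hw₂ x hx
  have hxe : ins j (x j) (fun k => x (j.succAbove k)) = x := ins_self j x
  rw [← hxe] at hx ⊢
  obtain ⟨t₁, t₂, ht₁, ht₂, hts⟩ := hfib _ _ hx
  rw [sum_ins_ins]
  have h3 := hw₁ _ ht₁
  have h4 := hw₂ _ ht₂
  rw [sum_ins_ins] at h3 h4
  set x' : Fin d → ℝ := fun k => x (j.succAbove k) with hx'
  have hs : 0 < s₁ + s₂ := by positivity
  set l₁ := s₂ / (s₁ + s₂) with hl₁
  set l₂ := s₁ / (s₁ + s₂) with hl₂
  have hl₁0 : 0 < l₁ := by positivity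
  have hl₂0 : 0 < l₂ := by positivity
  have hl : l₁ + l₂ = 1 := by
    rw [hl₁, hl₂]
    field_simp
    ring
  have h5 := add_le_add (mul_le_mul_of_nonneg_left h3 hl₁0.le) (mul_le_mul_of_nonneg_left h4 hl₂0.le)
  have e1 : l₁ * (s₁ * (t₁ - ζ₁) + ∑ k, w₁ k * (x' k - y k)) +
      l₂ * (s₂ * (t₂ - ζ₂) + ∑ k, w₂ k * (x' k - y k)) =
      2 * s₁ * s₂ / (s₁ + s₂) * (x j - (ζ₁ + ζ₂) / 2) +
        ∑ k, (l₁ • w₁ + l₂ • w₂) k * (x' k - y k) := by
    have e2 : ∑ k, (l₁ • w₁ + l₂ • w₂) k * (x' k - y k) =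
        l₁ * ∑ k, w₁ k * (x' k - y k) + l₂ * ∑ k, w₂ k * (x' k - y k) := by
      rw [Finset.mul_sum, Finset.mul_sum, ← Finset.sum_add_distrib]
      apply Finset.sum_congr rfl
      intro k _
      simp only [Pi.add_apply, Pi.smul_apply, smul_eq_mul]
      ring
    rw [e2, hts, hl₁, hl₂]
    field_simp
    ring
  rw [e1] at h5
  have h6 : l₁ * 1 + l₂ * 1 = 1 := by rw [mul_one, mul_one, hl]
  linarith

/-- The algebra of the final step of the mixing theorem. -/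
lemma final_alg {p₁ p₂ q₁ q₂ A₁ A₂ A M : ℝ} (hp₁ : 0 < p₁) (hp₂ : 0 < p₂) (hq₁ : 0 < q₁)
    (hq₂ : 0 < q₂) (hbal : p₁ * q₂ = q₁ * p₂) (hA₁ : 0 ≤ A₁) (hA₂ : 0 ≤ A₂)
    (hM₁ : M ≤ A₁ * (p₁ + q₁)) (hM₂ : M ≤ A₂ * (p₂ + q₂)) (hA : A₁ + A₂ ≤ 2 * A) :
    M ≤ A * (2 / (1 / p₁ + 1 / p₂) + 2 / (1 / q₁ + 1 / q₂)) := by
  set ρ := q₁ / p₁ with hρ
  have hρ0 : 0 < ρ := by positivity
  have e₁ : q₁ = ρ * p₁ := by
    rw [hρ]
    field_simp
  have e₂ : q₂ = ρ * p₂ := by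
    rw [hρ]
    field_simp
    linarith
  have hA0 : 0 ≤ A := by linarith
  have e : 2 / (1 / p₁ + 1 / p₂) + 2 / (1 / q₁ + 1 / q₂) = 2 * (1 + ρ) * p₁ * p₂ / (p₁ + p₂) := by
    rw [e₁, e₂]
    field_simp
    ring
  rw [e, mul_div_assoc', le_div_iff₀ (by positivity)]
  rw [e₁] at hM₁
  rw [e₂] at hM₂
  have h1 : M * p₂ ≤ A₁ * (1 + ρ) * p₁ * p₂ := by
    have := mul_le_mul_of_nonneg_right hM₁ hp₂.le
    nlinarith
  have h2 : M * p₁ ≤ A₂ * (1 + ρ) * p₁ * p₂ := by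
    have := mul_le_mul_of_nonneg_right hM₂ hp₁.le
    nlinarith
  have h3 : 0 ≤ (1 + ρ) * p₁ * p₂ := by positivity
  have h4 := mul_le_mul_of_nonneg_right hA h3
  nlinarith

/-- **The mixing theorem.** -/
theorem mix {K L₁ L₂ : Set (Fin (d + 1) → ℝ)} (h₁ : IsCompact L₁) (h₂ : IsCompact L₂)
    (c₁ : Convex ℝ L₁) (c₂ : Convex ℝ L₂) (hi₁ : (interior L₁).Nonempty) (hi₂ : (interior L₂).Nonempty)
    (hfib : ∀ s x', ins j s x' ∈ K → ∃ t₁ t₂, ins j t₁ x' ∈ L₁ ∧ ins j t₂ x' ∈ L₂ ∧ s = (t₁ + t₂) / 2)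
    (hvol : (volume L₁).toReal + (volume L₂).toReal ≤ 2 * (volume K).toReal) {M : ℝ}
    (Q₁ : ∀ z ∈ interior L₁, M ≤ (volume L₁).toReal * (volume (polarAt L₁ z)).toReal)
    (Q₂ : ∀ z ∈ interior L₂, M ≤ (volume L₂).toReal * (volume (polarAt L₂ z)).toReal) :
    ∀ z ∈ interior K, M ≤ (volume K).toReal * (volume (polarAt K z)).toReal := by
  intro z hz
  set ζ := z j with hζdef
  set y : Fin d → ℝ := fun k => z (j.succAbove k) with hy
  have hze : ins j ζ y = z := ins_self j z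
  -- interior points of the fibres
  have hfibint : ∀ {L : Set (Fin (d + 1) → ℝ)}, Convex ℝ L → (interior L).Nonempty →
      (∀ s x', ins j s x' ∈ K → ∃ t, ins j t x' ∈ L) → ∃ ζ₀, ins j ζ₀ y ∈ interior L := by
    intro L hcL ⟨p, hp⟩ hf
    have hpe : ins j (p j) (fun k => p (j.succAbove k)) = p := ins_self j p
    set p' : Fin d → ℝ := fun k => p (j.succAbove k) with hp'
    have hcont : Continuous (fun ε : ℝ => z + ε • (z - p)) := by fun_prop
    have hmem : (0:ℝ) ∈ (fun ε : ℝ => z + ε • (z - p)) ⁻¹' interior K := by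
      simpa using hz
    have hopn := (isOpen_interior (s := K)).preimage hcont
    obtain ⟨ε, hε, hball⟩ := Metric.isOpen_iff.1 hopn 0 hmem
    have hin : (ε / 2) ∈ Metric.ball (0:ℝ) ε := by
      rw [Metric.mem_ball, Real.dist_eq, sub_zero, abs_of_pos (by positivity)]
      linarith
    have hq : z + (ε / 2) • (z - p) ∈ K := interior_subset (hball hin)
    set q := z + (ε / 2) • (z - p) with hqdef
    have hqe : ins j (q j) (fun k => q (j.succAbove k)) = q := ins_self j q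
    rw [← hqe] at hq
    obtain ⟨t, ht⟩ := hf _ _ hq
    set e := ε / 2 with he
    have he0 : 0 < e := by positivity
    set a : ℝ := 1 / (1 + e) with ha
    have ha0 : 0 < a := by positivity
    have hb0 : 0 < 1 - a := by
      rw [ha, sub_pos, div_lt_one (by positivity)]
      linarith
    have hcombo := hcL.combo_self_interior_mem_interior ht hp ha0.le hb0 (by ring)
    rw [← hpe, ins_add_smul] at hcombo
    have ex : a • (fun k => q (j.succAbove k)) + (1 - a) • p' = y := by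
      ext k
      simp only [Pi.add_apply, Pi.smul_apply, smul_eq_mul, hqdef, hp', hy, Pi.sub_apply]
      rw [ha]
      field_simp
      ring
    rw [ex] at hcombo
    exact ⟨_, hcombo⟩
  obtain ⟨ζ₀₁, hζ₀₁⟩ := hfibint c₁ hi₁ (fun s x' h => by
    obtain ⟨t₁, _, h3, _⟩ := hfib s x' h
    exact ⟨t₁, h3⟩)
  obtain ⟨ζ₀₂, hζ₀₂⟩ := hfibint c₂ hi₂ (fun s x' h => by
    obtain ⟨_, t₂, _, h3, _⟩ := hfib s x' h
    exact ⟨t₂, h3⟩)
  obtain ⟨b₁, t₁, F₁⟩ := exists_fibreData h₁ c₁ hζ₀₁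
  obtain ⟨b₂, t₂, F₂⟩ := exists_fibreData h₂ c₂ hζ₀₂
  -- `ζ` is strictly inside
  have hop : IsOpen {τ : ℝ | ins j τ y ∈ interior K} :=
    isOpen_interior.preimage (continuous_ins_left j y)
  have hzmem : ζ ∈ {τ : ℝ | ins j τ y ∈ interior K} := by
    show ins j ζ y ∈ interior K
    rw [hze]
    exact hz
  obtain ⟨ε, hε, hball⟩ := Metric.isOpen_iff.1 hop ζ hzmem
  have hup : ins j (ζ + ε / 2) y ∈ K := by
    have h1 : ζ + ε / 2 ∈ Metric.ball ζ ε := by
      rw [Metric.mem_ball, Real.dist_eq]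
      have : ζ + ε / 2 - ζ = ε / 2 := by ring
      rw [this, abs_of_pos (by positivity)]
      linarith
    exact interior_subset (hball h1)
  have hdn : ins j (ζ - ε / 2) y ∈ K := by
    have h1 : ζ - ε / 2 ∈ Metric.ball ζ ε := by
      rw [Metric.mem_ball, Real.dist_eq]
      have : ζ - ε / 2 - ζ = -(ε / 2) := by ring
      rw [this, abs_neg, abs_of_pos (by positivity)]
      linarith
    exact interior_subset (hball h1)
  have hhi : 2 * ζ < t₁ + t₂ := by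
    obtain ⟨τ₁, τ₂, h3, h4, h5⟩ := hfib _ _ hup
    have h6 : τ₁ ≤ t₁ := by
      by_contra hlt
      push Not at hlt
      exact F₁.hi _ hlt h3
    have h7 : τ₂ ≤ t₂ := by
      by_contra hlt
      push Not at hlt
      exact F₂.hi _ hlt h4
    linarith
  have hlo : b₁ + b₂ < 2 * ζ := by
    obtain ⟨τ₁, τ₂, h3, h4, h5⟩ := hfib _ _ hdn
    have h6 : b₁ ≤ τ₁ := by
      by_contra hlt
      push Not at hlt
      exact F₁.lo _ hlt h3
    have h7 : b₂ ≤ τ₂ := by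
      by_contra hlt
      push Not at hlt
      exact F₂.lo _ hlt h4
    linarith
  obtain ⟨x, hx₁, hx₂, hbal⟩ := exists_balance h₁ h₂ c₁ c₂ F₁ F₂ hlo hhi
  set ζ₁ := x with hζ₁
  set ζ₂ := 2 * ζ - x with hζ₂
  have hz₁ := F₁.int _ hx₁
  have hz₂ := F₂.int _ hx₂
  have hmid : (ζ₁ + ζ₂) / 2 = ζ := by rw [hζ₂]; ring
  -- the positive part
  have hpos := mix_half h₁ h₂ hfib hz₁ hz₂
  rw [hmid, hze] at hpos
  -- the negative part, by reflection
  have hfib' : ∀ s x', ins j s x' ∈ (fl j) ⁻¹' K → ∃ t₁ t₂, ins j t₁ x' ∈ (fl j) ⁻¹' L₁ ∧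
      ins j t₂ x' ∈ (fl j) ⁻¹' L₂ ∧ s = (t₁ + t₂) / 2 := by
    intro s x' h
    have h3 : fl j (ins j s x') ∈ K := h
    rw [ins_neg_fl] at h3
    obtain ⟨t₁', t₂', h4, h5, h6⟩ := hfib _ _ h3
    refine ⟨-t₁', -t₂', ?_, ?_, by linarith⟩
    · show fl j (ins j (-t₁') x') ∈ L₁
      rw [ins_neg_fl, neg_neg]
      exact h4
    · show fl j (ins j (-t₂') x') ∈ L₂
      rw [ins_neg_fl, neg_neg]
      exact h5
  have hz₁' : ins j (-ζ₁) y ∈ interior ((fl j) ⁻¹' L₁) := by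
    rw [← ins_neg_fl ζ₁]
    exact fl_interior hz₁
  have hz₂' : ins j (-ζ₂) y ∈ interior ((fl j) ⁻¹' L₂) := by
    rw [← ins_neg_fl ζ₂]
    exact fl_interior hz₂
  have hneg := mix_half (isCompact_fl h₁) (isCompact_fl h₂) hfib' hz₁' hz₂'
  have hmid' : (-ζ₁ + -ζ₂) / 2 = -ζ := by rw [← hmid]; ring
  rw [hmid', ← Pm_eq_Pp, ← Pm_eq_Pp] at hneg
  have hnege : polarAt ((fl j) ⁻¹' K) (ins j (-ζ) y) ∩ {x | 0 < x j} =
      (fl j) ⁻¹' (polarAt K z ∩ {x | x j < 0}) := by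
    rw [← ins_neg_fl ζ, polar_fl, hze]
    ext w
    simp only [mem_inter_iff, mem_preimage, mem_ofPred_eq, fl_apply_self]
    constructor
    · rintro ⟨h3, h4⟩; exact ⟨h3, by linarith⟩
    · rintro ⟨h3, h4⟩; exact ⟨h3, by linarith⟩
  have hPm : MeasurableSet (polarAt K z) := (polarAt_isClosed _ _).measurableSet
  have hmeas2 : MeasurableSet (polarAt K z ∩ {y | y j < 0}) :=
    hPm.inter (measurableSet_lt (measurable_pi_apply j) measurable_const)
  rw [hnege, volume_fl_preimage hmeas2] at hneg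
  -- put things together
  have hdisj : Disjoint (polarAt K z ∩ {y | 0 < y j}) (polarAt K z ∩ {y | y j < 0}) := by
    rw [Set.disjoint_left]
    rintro w ⟨_, h3⟩ ⟨_, h4⟩
    exact lt_asymm (show 0 < w j from h3) h4
  have hsum : volume (polarAt K z ∩ {y | 0 < y j}) + volume (polarAt K z ∩ {y | y j < 0}) ≤
      volume (polarAt K z) := by
    rw [← measure_union hdisj hmeas2]
    exact measure_mono (union_subset inter_subset_left inter_subset_left)
  have hPfin := volume_polar_ne_top hz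
  set p₁ := Pp j L₁ y ζ₁ with hp₁
  set p₂ := Pp j L₂ y ζ₂ with hp₂
  set q₁ := Pm j L₁ y ζ₁ with hq₁
  set q₂ := Pm j L₂ y ζ₂ with hq₂
  have hp₁0 : 0 < p₁ := Pp_pos h₁ hz₁
  have hp₂0 : 0 < p₂ := Pp_pos h₂ hz₂
  have hq₁0 : 0 < q₁ := Pm_pos h₁ hz₁
  have hq₂0 : 0 < q₂ := Pm_pos h₂ hz₂
  have hlow : 2 / (1 / p₁ + 1 / p₂) + 2 / (1 / q₁ + 1 / q₂) ≤ (volume (polarAt K z)).toReal := by
    have h3 := (add_le_add hpos hneg).trans hsum
    rw [← ENNReal.ofReal_add (by positivity) (by positivity)] at h3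
    exact (ENNReal.ofReal_le_iff_le_toReal hPfin).1 h3
  -- the polar volumes of the parts
  have hsplit : ∀ {L : Set (Fin (d + 1) → ℝ)} {ξ : ℝ}, ins j ξ y ∈ interior L →
      (volume (polarAt L (ins j ξ y))).toReal ≤ Pp j L y ξ + Pm j L y ξ := by
    intro L ξ hξ
    unfold Pp Pm
    rw [← ENNReal.toReal_add (volume_half_ne_top hξ _) (volume_half_ne_top hξ _)]
    apply ENNReal.toReal_mono (ENNReal.add_ne_top.2 ⟨volume_half_ne_top hξ _, volume_half_ne_top hξ _⟩)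
    have hsub : polarAt L (ins j ξ y) ⊆ (polarAt L (ins j ξ y) ∩ {x | 0 < x j}) ∪
        (polarAt L (ins j ξ y) ∩ {x | x j < 0}) ∪ {x | x j = 0} := by
      intro w hw
      rcases lt_trichotomy (w j) 0 with h | h | h
      · exact Or.inl (Or.inr ⟨hw, h⟩)
      · exact Or.inr h
      · exact Or.inl (Or.inl ⟨hw, h⟩)
    calc volume (polarAt L (ins j ξ y)) ≤ _ := measure_mono hsub
      _ ≤ volume ((polarAt L (ins j ξ y) ∩ {x | 0 < x j}) ∪
            (polarAt L (ins j ξ y) ∩ {x | x j < 0})) + volume {x : Fin (d + 1) → ℝ | x j = 0} :=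
          measure_union_le _ _
      _ = volume ((polarAt L (ins j ξ y) ∩ {x | 0 < x j}) ∪
            (polarAt L (ins j ξ y) ∩ {x | x j < 0})) := by rw [volume_hyperplane]; simp
      _ ≤ _ := measure_union_le _ _
  have hA₁ : 0 ≤ (volume L₁).toReal := ENNReal.toReal_nonneg
  have hA₂ : 0 ≤ (volume L₂).toReal := ENNReal.toReal_nonneg
  have hM₁ : M ≤ (volume L₁).toReal * (p₁ + q₁) :=
    (Q₁ _ hz₁).trans (mul_le_mul_of_nonneg_left (hsplit hz₁) hA₁)
  have hM₂ : M ≤ (volume L₂).toReal * (p₂ + q₂) :=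
    (Q₂ _ hz₂).trans (mul_le_mul_of_nonneg_left (hsplit hz₂) hA₂)
  have hfinal := final_alg hp₁0 hp₂0 hq₁0 hq₂0 hbal hA₁ hA₂ hM₁ hM₂ hvol
  have hAK : 0 ≤ (volume K).toReal := ENNReal.toReal_nonneg
  exact hfinal.trans (mul_le_mul_of_nonneg_left hlow hAK)

end Vale.Agent.Lib.P248
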