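import Vale.Agent.Lib.P248.Mix3

open MeasureTheory Set Function
open scoped ENNReal Pointwise

namespace Vale.Agent.Lib.P248

/-- Points of three-space. -/
abbrev E3 := Fin 3 → ℝ

/-- The inner product. -/
def ip (a x : E3) : ℝ := a 0 * x 0 + a 1 * x 1 + a 2 * x 2

/-- The cross product. -/
def cr (u w : E3) : E3 :=
  ![u 1 * w 2 - u 2 * w 1, u 2 * w 0 - u 0 * w 2, u 0 * w 1 - u 1 * w 0]

@[simp] lemma cr_0 (u w : E3) : cr u w 0 = u 1 * w 2 - u 2 * w 1 := rfl
@[simp] lemma cr_1 (u w : E3) : cr u w 1 = u 2 * w 0 - u 0 * w 2 := rfl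
@[simp] lemma cr_2 (u w : E3) : cr u w 2 = u 0 * w 1 - u 1 * w 0 := rfl

lemma ext3 {x y : E3} (h0 : x 0 = y 0) (h1 : x 1 = y 1) (h2 : x 2 = y 2) : x = y := by
  ext i
  fin_cases i
  · exact h0
  · exact h1
  · exact h2

lemma ne3 {x : E3} (h : x ≠ 0) : x 0 ≠ 0 ∨ x 1 ≠ 0 ∨ x 2 ≠ 0 := by
  by_contra hcon
  push Not at hcon
  exact h (ext3 (by simpa using hcon.1) (by simpa using hcon.2.1) (by simpa using hcon.2.2))

lemma ip_add (a x y : E3) : ip a (x + y) = ip a x + ip a y := by
  simp only [ip, Pi.add_apply]; ring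

lemma ip_sub (a x y : E3) : ip a (x - y) = ip a x - ip a y := by
  simp only [ip, Pi.sub_apply]; ring

lemma ip_smul (a : E3) (c : ℝ) (x : E3) : ip a (c • x) = c * ip a x := by
  simp only [ip, Pi.smul_apply, smul_eq_mul]; ring

lemma add_ip (a b x : E3) : ip (a + b) x = ip a x + ip b x := by
  simp only [ip, Pi.add_apply]; ring

lemma sub_ip (a b x : E3) : ip (a - b) x = ip a x - ip b x := by
  simp only [ip, Pi.sub_apply]; ring

lemma smul_ip (a x : E3) (c : ℝ) : ip (c • a) x = c * ip a x := by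
  simp only [ip, Pi.smul_apply, smul_eq_mul]; ring

lemma ip_sum {ι : Type*} (a : E3) (s : Finset ι) (w : ι → ℝ) (f : ι → E3) :
    ip a (∑ i ∈ s, w i • f i) = ∑ i ∈ s, w i * ip a (f i) := by
  classical
  induction s using Finset.induction_on with
  | empty => simp [ip]
  | insert i s hi IH =>
    rw [Finset.sum_insert hi, Finset.sum_insert hi, ip_add, ip_smul, IH]

lemma ip_self_pos {a : E3} (h : a ≠ 0) : 0 < ip a a := by
  have h1 : ip a a = a 0 ^ 2 + a 1 ^ 2 + a 2 ^ 2 := by
    simp only [ip]; ring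
  rw [h1]
  rcases ne3 h with h0 | h0 | h0
  · have := pow_pos (abs_pos.2 h0) 2
    rw [sq_abs] at this
    positivity
  · have := pow_pos (abs_pos.2 h0) 2
    rw [sq_abs] at this
    positivity
  · have := pow_pos (abs_pos.2 h0) 2
    rw [sq_abs] at this
    positivity

/-- The sum in the definition of the polar. -/
lemma sum_eq_ip (y x z : E3) : ∑ i, y i * (x i - z i) = ip y x - ip y z := by
  rw [Fin.sum_univ_three]
  simp only [ip]
  ring

/-- Non collinear triples. -/
def NC (p q r : E3) : Prop := cr (q - p) (r - p) ≠ 0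

lemma NC.ne_left {p q r : E3} (h : NC p q r) : p ≠ q := by
  rintro rfl
  apply h
  ext i
  fin_cases i <;> simp [cr]

lemma NC.ne_right {p q r : E3} (h : NC p q r) : p ≠ r := by
  rintro rfl
  apply h
  ext i
  fin_cases i <;> simp [cr]

lemma NC.ne_mid {p q r : E3} (h : NC p q r) : q ≠ r := by
  rintro rfl
  apply h
  ext i
  fin_cases i <;> simp [cr] <;> ring

/-- If `a` is orthogonal to `u` and `w`, it is a multiple of the cross product. -/
lemma exists_mul_cr {a u w : E3} (hu : ip a u = 0) (hw : ip a w = 0) (hn : cr u w ≠ 0) :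
    ∃ κ : ℝ, a = κ • cr u w := by
  set n := cr u w with hndef
  have hpos := ip_self_pos hn
  have h01 : a 0 * n 1 = a 1 * n 0 := by
    simp only [hndef, cr_0, cr_1]
    simp only [ip] at hu hw
    linear_combination (u 2) * hw - (w 2) * hu
  have h02 : a 0 * n 2 = a 2 * n 0 := by
    simp only [hndef, cr_0, cr_2]
    simp only [ip] at hu hw
    linear_combination (- u 1) * hw + (w 1) * hu
  have h12 : a 1 * n 2 = a 2 * n 1 := by
    simp only [hndef, cr_1, cr_2]
    simp only [ip] at hu hw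
    linear_combination (u 0) * hw - (w 0) * hu
  refine ⟨ip a n / ip n n, ?_⟩
  have hne : ip n n ≠ 0 := hpos.ne'
  apply ext3
  · simp only [Pi.smul_apply, smul_eq_mul]
    rw [div_mul_eq_mul_div, eq_div_iff hne]
    simp only [ip]
    linear_combination (n 1) * h01 + (n 2) * h02
  · simp only [Pi.smul_apply, smul_eq_mul]
    rw [div_mul_eq_mul_div, eq_div_iff hne]
    simp only [ip]
    linear_combination (-n 0) * h01 + (n 2) * h12
  · simp only [Pi.smul_apply, smul_eq_mul]
    rw [div_mul_eq_mul_div, eq_div_iff hne]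
    simp only [ip]
    linear_combination (-n 0) * h02 - (n 1) * h12

/-- Uniqueness of the plane through a non collinear triple. -/
lemma plane_unique {a a' : E3} {b b' : ℝ} {p q r : E3} (hnc : NC p q r) (ha : a ≠ 0)
    (hp : ip a p = b) (hq : ip a q = b) (hr : ip a r = b)
    (hp' : ip a' p = b') (hq' : ip a' q = b') (hr' : ip a' r = b') :
    ∃ μ : ℝ, a' = μ • a ∧ b' = μ * b := by
  obtain ⟨κ, hκ⟩ := exists_mul_cr (a := a) (u := q - p) (w := r - p)
    (by rw [ip_sub, hq, hp, sub_self]) (by rw [ip_sub, hr, hp, sub_self]) hnc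
  obtain ⟨κ', hκ'⟩ := exists_mul_cr (a := a') (u := q - p) (w := r - p)
    (by rw [ip_sub, hq', hp', sub_self]) (by rw [ip_sub, hr', hp', sub_self]) hnc
  have hκ0 : κ ≠ 0 := by
    rintro rfl
    apply ha
    rw [hκ, zero_smul]
  refine ⟨κ' / κ, ?_, ?_⟩
  · rw [hκ', hκ, smul_smul]
    congr 1
    field_simp
  · rw [← hp', ← hp, hκ', hκ, smul_ip, smul_ip]
    field_simp

/-- The closed convex hull of a finite set of points. -/
abbrev hull (V : Finset E3) : Set E3 := convexHull ℝ (V : Set E3)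

/-- Weights on a finite set. -/
def Wt (V : Finset E3) (w : E3 → ℝ) : Prop := (∀ v ∈ V, 0 ≤ w v) ∧ ∑ v ∈ V, w v = 1

lemma mem_hull_iff {V : Finset E3} {x : E3} :
    x ∈ hull V ↔ ∃ w, Wt V w ∧ ∑ v ∈ V, w v • v = x := by
  rw [Finset.mem_convexHull']
  constructor
  · rintro ⟨w, h1, h2, h3⟩
    exact ⟨w, ⟨h1, h2⟩, h3⟩
  · rintro ⟨w, ⟨h1, h2⟩, h3⟩
    exact ⟨w, h1, h2, h3⟩

/-- Points of the hull of an image, as combinations with weights on the source. -/
lemma mem_hull_image {V : Finset E3} {f : E3 → E3} {x : E3} :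
    x ∈ hull (V.image f) ↔ ∃ w, Wt V w ∧ ∑ v ∈ V, w v • f v = x := by
  classical
  constructor
  · intro hx
    have hsub : hull (V.image f) ⊆ {x | ∃ w, Wt V w ∧ ∑ v ∈ V, w v • f v = x} := by
      apply convexHull_min
      · intro y hy
        have hy' : y ∈ V.image f := hy
        obtain ⟨v, hv, rfl⟩ := Finset.mem_image.1 hy'
        refine ⟨fun u => if u = v then 1 else 0, ⟨?_, ?_⟩, ?_⟩
        · intro u _
          by_cases hu : u = v <;> simp [hu]
        · simp [hv]
        · simp [hv, ite_smul]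
      · rintro a ⟨w₁, ⟨h₁, h₁'⟩, rfl⟩ b ⟨w₂, ⟨h₂, h₂'⟩, rfl⟩ s t hs ht hst
        refine ⟨fun u => s * w₁ u + t * w₂ u, ⟨?_, ?_⟩, ?_⟩
        · intro u hu
          have := h₁ u hu
          have := h₂ u hu
          positivity
        · rw [Finset.sum_add_distrib, ← Finset.mul_sum, ← Finset.mul_sum, h₁', h₂']
          linarith
        · rw [Finset.smul_sum, Finset.smul_sum, ← Finset.sum_add_distrib]
          apply Finset.sum_congr rfl
          intro u _
          rw [add_smul, mul_smul, mul_smul]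
    exact hsub hx
  · rintro ⟨w, ⟨h1, h2⟩, rfl⟩
    apply (convex_convexHull ℝ _).sum_mem h1 h2
    intro v hv
    apply subset_convexHull
    exact Finset.mem_coe.2 (Finset.mem_image_of_mem f hv)

lemma hull_compact (V : Finset E3) : IsCompact (hull V) :=
  V.finite_toSet.isCompact_convexHull ℝ

lemma hull_convex (V : Finset E3) : Convex ℝ (hull V) := convex_convexHull ℝ _

lemma mem_hull_self {V : Finset E3} {v : E3} (hv : v ∈ V) : v ∈ hull V :=
  subset_convexHull ℝ _ (Finset.mem_coe.2 hv)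

/-- A convex polytope with nonempty interior and vertex set `V`. -/
def IsPoly (V : Finset E3) : Prop :=
  (hull V).extremePoints ℝ = (V : Set E3) ∧ (interior (hull V)).Nonempty

lemma IsPoly.ext_of_mem {V : Finset E3} (h : IsPoly V) {v : E3} (hv : v ∈ V) :
    v ∈ (hull V).extremePoints ℝ := by
  rw [h.1]
  exact Finset.mem_coe.2 hv

/-- Property of extreme points used below. -/
lemma extreme_combo {A : Set E3} {v x₁ x₂ : E3} (hv : v ∈ A.extremePoints ℝ) (h₁ : x₁ ∈ A)
    (h₂ : x₂ ∈ A) {s t : ℝ} (hs : 0 < s) (ht : 0 < t) (hst : s + t = 1)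
    (hcomb : s • x₁ + t • x₂ = v) : x₁ = v ∧ x₂ = v := by
  rw [mem_extremePoints] at hv
  exact hv.2 x₁ h₁ x₂ h₂ ⟨s, t, hs, ht, hst, hcomb⟩

/-- From a vanishing cross product to proportionality. -/
lemma par_of_cr_zero {a b : E3} (h : cr a b = 0) (ha : a ≠ 0) : ∃ t : ℝ, b = t • a := by
  have h0 : a 1 * b 2 - a 2 * b 1 = 0 := by
    have := congrFun h 0
    simpa using this
  have h1 : a 2 * b 0 - a 0 * b 2 = 0 := by
    have := congrFun h 1
    simpa using this
  have h2 : a 0 * b 1 - a 1 * b 0 = 0 := by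
    have := congrFun h 2
    simpa using this
  rcases ne3 ha with hi | hi | hi
  · refine ⟨b 0 / a 0, ?_⟩
    apply ext3
    · simp only [Pi.smul_apply, smul_eq_mul]
      field_simp
    · simp only [Pi.smul_apply, smul_eq_mul]
      field_simp
      linarith
    · simp only [Pi.smul_apply, smul_eq_mul]
      field_simp
      linarith
  · refine ⟨b 1 / a 1, ?_⟩
    apply ext3
    · simp only [Pi.smul_apply, smul_eq_mul]
      field_simp
      linarith
    · simp only [Pi.smul_apply, smul_eq_mul]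
      field_simp
    · simp only [Pi.smul_apply, smul_eq_mul]
      field_simp
      linarith
  · refine ⟨b 2 / a 2, ?_⟩
    apply ext3
    · simp only [Pi.smul_apply, smul_eq_mul]
      field_simp
      linarith
    · simp only [Pi.smul_apply, smul_eq_mul]
      field_simp
      linarith
    · simp only [Pi.smul_apply, smul_eq_mul]
      field_simp

/-- Three distinct vertices are not collinear. -/
lemma IsPoly.nc_of_distinct {V : Finset E3} (h : IsPoly V) {p q r : E3} (hp : p ∈ V) (hq : q ∈ V)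
    (hr : r ∈ V) (hpq : p ≠ q) (hpr : p ≠ r) (hqr : q ≠ r) : NC p q r := by
  intro hcr
  have hu : q - p ≠ 0 := sub_ne_zero.2 hpq.symm
  obtain ⟨t, ht⟩ := par_of_cr_zero hcr hu
  have hr' : r = p + t • (q - p) := by
    rw [← ht]
    abel
  have mp := mem_hull_self hp
  have mq := mem_hull_self hq
  have mr := mem_hull_self hr
  rcases lt_trichotomy t 0 with h0 | h0 | h0
  · -- `p` between `r` and `q`
    have hd : 0 < 1 - t := by linarith
    have := extreme_combo (h.ext_of_mem hp) mr mq (s := 1 / (1 - t)) (t := -t / (1 - t))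
      (by positivity) (div_pos (by linarith) hd) (by field_simp; ring) (by
        rw [hr']
        ext i
        simp only [Pi.add_apply, Pi.smul_apply, Pi.sub_apply, smul_eq_mul]
        field_simp
        ring)
    exact hpr this.1.symm
  · rw [h0, zero_smul, add_zero] at hr'
    exact hpr hr'.symm
  · rcases lt_trichotomy t 1 with h1 | h1 | h1
    · have := extreme_combo (h.ext_of_mem hr) mp mq (s := 1 - t) (t := t) (by linarith) h0
        (by ring) (by
          rw [hr']
          ext i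
          simp only [Pi.add_apply, Pi.smul_apply, Pi.sub_apply, smul_eq_mul]
          ring)
      exact hpr this.1
    · rw [h1, one_smul] at hr'
      apply hqr
      rw [hr']
      abel
    · have := extreme_combo (h.ext_of_mem hq) mr mp (s := 1 / t) (t := (t - 1) / t)
        (by positivity) (div_pos (by linarith) h0) (by field_simp; ring) (by
          rw [hr']
          ext i
          simp only [Pi.add_apply, Pi.smul_apply, Pi.sub_apply, smul_eq_mul]
          field_simp
          ring)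
      exact hpq this.2

/-- The set of vertices of `V` on a plane. -/
noncomputable def onP (V : Finset E3) (a : E3) (b : ℝ) : Finset E3 :=
  V.filter (fun v => ip a v = b)

lemma mem_onP {V : Finset E3} {a : E3} {b : ℝ} {v : E3} : v ∈ onP V a b ↔ v ∈ V ∧ ip a v = b := by
  simp [onP]

/-- Facets: subsets `V ∩ H` for a supporting plane `H`, containing a non collinear triple. -/
def IsFacet (V S : Finset E3) : Prop :=
  ∃ (a : E3) (b : ℝ), a ≠ 0 ∧ (∀ v ∈ V, ip a v ≤ b) ∧ S = onP V a b ∧
    ∃ p ∈ S, ∃ q ∈ S, ∃ r ∈ S, NC p q r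

open Classical in
/-- The finite set of facets. -/
noncomputable def Fac (V : Finset E3) : Finset (Finset E3) :=
  V.powerset.filter (IsFacet V)

lemma IsFacet.subset {V S : Finset E3} (h : IsFacet V S) : S ⊆ V := by
  obtain ⟨a, b, -, -, rfl, -⟩ := h
  intro v hv
  exact (mem_onP.1 hv).1

lemma mem_Fac {V S : Finset E3} : S ∈ Fac V ↔ IsFacet V S := by
  classical
  simp only [Fac, Finset.mem_filter, Finset.mem_powerset]
  exact ⟨fun h => h.2, fun h => ⟨h.subset, h⟩⟩

/-- Complexity of a polytope. -/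
noncomputable def cplx (V : Finset E3) : ℕ := V.card + (Fac V).card

lemma ip_le_on_hull {V : Finset E3} {a : E3} {b : ℝ} (h : ∀ v ∈ V, ip a v ≤ b) {x : E3}
    (hx : x ∈ hull V) : ip a x ≤ b := by
  obtain ⟨w, ⟨h1, h2⟩, rfl⟩ := mem_hull_iff.1 hx
  rw [ip_sum]
  calc ∑ v ∈ V, w v * ip a v ≤ ∑ v ∈ V, w v * b :=
        Finset.sum_le_sum fun v hv => mul_le_mul_of_nonneg_left (h v hv) (h1 v hv)
    _ = b := by rw [← Finset.sum_mul, h2, one_mul]

lemma ip_add_smul_self (a x : E3) (ε : ℝ) : ip a (x + ε • a) = ip a x + ε * ip a a := by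
  rw [ip_add, ip_smul]

/-- An interior point lies strictly on the inner side of any supporting plane. -/
lemma ip_lt_of_interior {A : Set E3} {a : E3} {b : ℝ} (ha : a ≠ 0) (h : ∀ x ∈ A, ip a x ≤ b)
    {z : E3} (hz : z ∈ interior A) : ip a z < b := by
  have hcont : Continuous (fun ε : ℝ => z + ε • a) := by fun_prop
  have hopn := (isOpen_interior (s := A)).preimage hcont
  have hmem : (0:ℝ) ∈ (fun ε : ℝ => z + ε • a) ⁻¹' interior A := by
    simpa using hz
  obtain ⟨ε, hε, hball⟩ := Metric.isOpen_iff.1 hopn 0 hmem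
  have hin : (ε / 2) ∈ Metric.ball (0:ℝ) ε := by
    rw [Metric.mem_ball, Real.dist_eq, sub_zero, abs_of_pos (by positivity)]
    linarith
  have h1 : z + (ε / 2) • a ∈ A := interior_subset (hball hin)
  have h2 := h _ h1
  rw [ip_add_smul_self] at h2
  have h3 := ip_self_pos ha
  have h4 : 0 < ε / 2 * ip a a := by positivity
  linarith

lemma not_all_on_plane {V : Finset E3} (hV : (interior (hull V)).Nonempty) {a : E3} {b : ℝ}
    (ha : a ≠ 0) : ¬ ∀ v ∈ V, ip a v = b := by
  intro h
  obtain ⟨z, hz⟩ := hV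
  have h1 : ∀ x ∈ hull V, ip a x ≤ b := fun x hx => ip_le_on_hull (fun v hv => (h v hv).le) hx
  have h2 : ∀ x ∈ hull V, ip (-a) x ≤ -b := by
    intro x hx
    apply ip_le_on_hull (V := V) _ hx
    intro v hv
    have := h v hv
    simp only [ip, Pi.neg_apply] at this ⊢
    linarith
  have h3 := ip_lt_of_interior ha h1 hz
  have h4 := ip_lt_of_interior (neg_ne_zero.2 ha) h2 hz
  simp only [ip, Pi.neg_apply] at h3 h4
  linarith

lemma onP_congr {V : Finset E3} {a a' : E3} {b b' μ : ℝ} (hμ : μ ≠ 0) (h : a' = μ • a)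
    (hb : b' = μ * b) : onP V a' b' = onP V a b := by
  ext v
  simp only [mem_onP, h, hb, smul_ip]
  constructor
  · rintro ⟨h1, h2⟩
    exact ⟨h1, mul_left_cancel₀ hμ h2⟩
  · rintro ⟨h1, h2⟩
    exact ⟨h1, by rw [h2]⟩

/-- Two facets sharing a non collinear triple are equal. -/
lemma IsFacet.eq_of_triple {V S S' : Finset E3} (h : IsFacet V S) (h' : IsFacet V S') {p q r : E3}
    (hnc : NC p q r) (hp : p ∈ S) (hq : q ∈ S) (hr : r ∈ S) (hp' : p ∈ S') (hq' : q ∈ S')
    (hr' : r ∈ S') : S = S' := by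
  obtain ⟨a, b, ha, -, rfl, -⟩ := h
  obtain ⟨a', b', ha', -, rfl, -⟩ := h'
  obtain ⟨μ, h1, h2⟩ := plane_unique hnc ha (mem_onP.1 hp).2 (mem_onP.1 hq).2 (mem_onP.1 hr).2
    (mem_onP.1 hp').2 (mem_onP.1 hq').2 (mem_onP.1 hr').2
  have hμ : μ ≠ 0 := by
    rintro rfl
    apply ha'
    rw [h1, zero_smul]
  exact (onP_congr hμ h1 h2).symm

/-- A small number for finitely many conditions. -/
lemma exists_small {α : Type*} (F : Finset α) (c s : α → ℝ) (hs : ∀ v ∈ F, 0 < s v) :
    ∃ ε > 0, ∀ v ∈ F, ε * |c v| ≤ s v := by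
  classical
  induction F using Finset.induction_on with
  | empty => exact ⟨1, one_pos, by simp⟩
  | insert a F ha IH =>
    obtain ⟨ε, hε, h⟩ := IH (fun v hv => hs v (Finset.mem_insert_of_mem hv))
    have hsa := hs a (Finset.mem_insert_self a F)
    refine ⟨min ε (s a / (|c a| + 1)), lt_min hε (by positivity), ?_⟩
    intro v hv
    rcases Finset.mem_insert.1 hv with rfl | hv
    · have h1 : min ε (s v / (|c v| + 1)) ≤ s v / (|c v| + 1) := min_le_right _ _
      have h2 : 0 ≤ |c v| := abs_nonneg _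
      calc min ε (s v / (|c v| + 1)) * |c v| ≤ s v / (|c v| + 1) * |c v| :=
            mul_le_mul_of_nonneg_right h1 h2
        _ ≤ s v := by
          rw [div_mul_eq_mul_div, div_le_iff₀ (by positivity)]
          nlinarith
    · have h1 : min ε (s a / (|c a| + 1)) ≤ ε := min_le_left _ _
      calc min ε (s a / (|c a| + 1)) * |c v| ≤ ε * |c v| :=
            mul_le_mul_of_nonneg_right h1 (abs_nonneg _)
        _ ≤ s v := h v hv

/-- Every continuous linear functional is an inner product. -/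
lemma exists_vec_of_dual (f : E3 →L[ℝ] ℝ) : ∃ n : E3, ∀ x, f x = ip n x := by
  refine ⟨fun i => f (fun l => if i = l then 1 else 0), fun x => ?_⟩
  have := (f : E3 →ₗ[ℝ] ℝ).pi_apply_eq_sum_univ x
  simp only [ContinuousLinearMap.coe_coe, smul_eq_mul, Fin.sum_univ_three] at this
  rw [this]
  simp only [ip]
  ring

/-- Separation of a point from a closed convex set. -/
lemma exists_sep {A : Set E3} (hc : Convex ℝ A) (hcl : IsClosed A) {x : E3} (hx : x ∉ A) :
    ∃ (n : E3) (u : ℝ), (∀ a ∈ A, ip n a < u) ∧ u < ip n x := by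
  obtain ⟨f, u, h1, h2⟩ := geometric_hahn_banach_closed_point hc hcl hx
  obtain ⟨n, hn⟩ := exists_vec_of_dual f
  exact ⟨n, u, fun a ha => by rw [← hn]; exact h1 a ha, by rw [← hn]; exact h2⟩

end Vale.Agent.Lib.P248
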