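import Vale.Agent.Lib.P248.Pol1

open MeasureTheory Set Function
open scoped ENNReal Pointwise

namespace Vale.Agent.Lib.P248

lemma ip_comm (a x : E3) : ip a x = ip x a := by
  simp only [ip]; ring

lemma sum_ip {ι : Type*} (x : E3) (s : Finset ι) (w : ι → ℝ) (f : ι → E3) :
    ip (∑ i ∈ s, w i • f i) x = ∑ i ∈ s, w i * ip (f i) x := by
  rw [ip_comm, ip_sum]
  apply Finset.sum_congr rfl
  intro i _
  rw [ip_comm]

/-- Vertices on the plane `⟨y, x - z⟩ = 1`. -/
noncomputable def act (V : Finset E3) (z y : E3) : Finset E3 :=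
  V.filter (fun v => ip y v - ip y z = 1)

lemma mem_act {V : Finset E3} {z y v : E3} : v ∈ act V z y ↔ v ∈ V ∧ ip y v - ip y z = 1 := by
  simp [act]

lemma mem_polar_iff {A : Set E3} {z y : E3} : y ∈ polarAt A z ↔ ∀ x ∈ A, ip y x - ip y z ≤ 1 := by
  constructor
  · intro h x hx
    rw [← sum_eq_ip]
    exact h x hx
  · intro h x hx
    rw [sum_eq_ip]
    exact h x hx

lemma mem_polar_hull {V : Finset E3} {z y : E3} :
    y ∈ polarAt (hull V) z ↔ ∀ v ∈ V, ip y v - ip y z ≤ 1 := by
  rw [mem_polar_iff]
  constructor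
  · intro h v hv
    exact h v (mem_hull_self hv)
  · intro h x hx
    have := ip_le_on_hull (V := V) (a := y) (b := 1 + ip y z) (fun v hv => by linarith [h v hv]) hx
    linarith

/-- If a set of points of a plane missing `z` is collinear, some nonzero vector is orthogonal to
all `v - z`. -/
lemma exists_perp {A : Finset E3} {z y : E3} (hA : ∀ v ∈ A, ip y v - ip y z = 1)
    (hnc : ∀ p ∈ A, ∀ q ∈ A, ∀ r ∈ A, ¬ NC p q r) : ∃ u : E3, u ≠ 0 ∧ ∀ v ∈ A, ip u v = ip u z := by
  classical
  by_cases hne : A.Nonempty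
  · obtain ⟨p, hp⟩ := hne
    have hp1 := hA p hp
    have hpz : p - z ≠ 0 := by
      intro h0
      have : ip y (p - z) = 0 := by rw [h0]; simp [ip]
      rw [ip_sub] at this
      linarith
    by_cases hq : ∃ q ∈ A, q ≠ p
    · obtain ⟨q, hq, hqp⟩ := hq
      refine ⟨cr (p - z) (q - z), ?_, ?_⟩
      · intro hcr
        obtain ⟨t, ht⟩ := par_of_cr_zero hcr hpz
        have h1 := hA q hq
        have h2 : ip y (q - z) = t * ip y (p - z) := by rw [ht, ip_smul]
        rw [ip_sub, ip_sub] at h2
        have ht1 : t = 1 := by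
          rw [hp1, h1] at h2
          linarith
        rw [ht1, one_smul] at ht
        apply hqp
        have := sub_left_injective ht
        exact this
      · intro v hv
        have h0 : ¬ NC p q v := hnc p hp q hq v hv
        unfold NC at h0
        push Not at h0
        have e0 := congrFun h0 0
        have e1 := congrFun h0 1
        have e2 := congrFun h0 2
        simp only [cr_0, cr_1, cr_2, Pi.sub_apply, Pi.zero_apply] at e0 e1 e2
        simp only [ip, cr_0, cr_1, cr_2, Pi.sub_apply]
        linear_combination (p 0 - z 0) * e0 + (p 1 - z 1) * e1 + (p 2 - z 2) * e2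
    · push Not at hq
      by_cases h0 : (p - z) 0 = 0
      · refine ⟨![1, 0, 0], ?_, ?_⟩
        · intro h
          have := congrFun h 0
          simp at this
        · intro v hv
          rw [hq v hv]
          simp only [Pi.sub_apply] at h0
          simp [ip]
          linarith
      · refine ⟨![(p - z) 1, -(p - z) 0, 0], ?_, ?_⟩
        · intro h
          have := congrFun h 1
          simp only [Matrix.cons_val_one, Matrix.cons_val_zero, Pi.zero_apply, neg_eq_zero] at this
          exact h0 this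
        · intro v hv
          rw [hq v hv]
          simp [ip]
          ring
  · rw [Finset.not_nonempty_iff_eq_empty] at hne
    refine ⟨![1, 0, 0], ?_, ?_⟩
    · intro h
      have := congrFun h 0
      simp at this
    · intro v hv
      rw [hne] at hv
      simp at hv

/-- An extreme point of the polar comes with a non collinear triple. -/
lemma ext_polar_nc {V : Finset E3} {z y : E3} (hy : y ∈ (polarAt (hull V) z).extremePoints ℝ) :
    ∃ p ∈ act V z y, ∃ q ∈ act V z y, ∃ r ∈ act V z y, NC p q r := by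
  classical
  by_contra hcon
  push Not at hcon
  have hA : ∀ v ∈ act V z y, ip y v - ip y z = 1 := fun v hv => (mem_act.1 hv).2
  obtain ⟨u, hu, hperp⟩ := exists_perp hA hcon
  have hmem := mem_polar_hull.1 (extremePoints_subset hy)
  obtain ⟨ε, hε, hsmall⟩ := exists_small (V.filter (fun v => v ∉ act V z y))
    (fun v => ip u v - ip u z) (fun v => 1 - (ip y v - ip y z)) (by
      intro v hv
      obtain ⟨hv1, hv2⟩ := Finset.mem_filter.1 hv
      have h1 := hmem v hv1
      have h2 : ip y v - ip y z ≠ 1 := fun h => hv2 (mem_act.2 ⟨hv1, h⟩)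
      have : ip y v - ip y z < 1 := lt_of_le_of_ne h1 h2
      linarith)
  have hP : ∀ c : ℝ, |c| ≤ ε → y + c • u ∈ polarAt (hull V) z := by
    intro c hc
    rw [mem_polar_hull]
    intro v hv
    rw [add_ip, add_ip, smul_ip, smul_ip]
    by_cases hva : v ∈ act V z y
    · have h1 := hA v hva
      have h2 := hperp v hva
      rw [h2]
      linarith
    · have h1 : ε * |ip u v - ip u z| ≤ 1 - (ip y v - ip y z) :=
        hsmall v (Finset.mem_filter.2 ⟨hv, hva⟩)
      have h2 : c * (ip u v - ip u z) ≤ ε * |ip u v - ip u z| := by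
        calc c * (ip u v - ip u z) ≤ |c * (ip u v - ip u z)| := le_abs_self _
          _ = |c| * |ip u v - ip u z| := abs_mul _ _
          _ ≤ _ := mul_le_mul_of_nonneg_right hc (abs_nonneg _)
      linarith
  have h1 := hP ε (by rw [abs_of_pos hε])
  have h2 := hP (-ε) (by rw [abs_neg, abs_of_pos hε])
  have := extreme_combo hy h1 h2 (s := 1 / 2) (t := 1 / 2) (by norm_num) (by norm_num) (by norm_num)
    (by
      ext i
      simp only [Pi.add_apply, Pi.smul_apply, smul_eq_mul]
      ring)
  have h3 : ε • u = 0 := by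
    have h4 := this.1
    exact add_eq_left.1 h4
  rcases smul_eq_zero.1 h3 with h4 | h4
  · exact hε.ne' h4
  · exact hu h4

/-- The set of vertices active at an extreme point of the polar is a facet. -/
lemma act_isFacet {V : Finset E3} {z y : E3} (hmem : y ∈ polarAt (hull V) z)
    (hnc : ∃ p ∈ act V z y, ∃ q ∈ act V z y, ∃ r ∈ act V z y, NC p q r) :
    IsFacet V (act V z y) := by
  obtain ⟨p, hp, q, hq, r, hr, h⟩ := hnc
  refine ⟨y, 1 + ip y z, ?_, ?_, ?_, p, hp, q, hq, r, hr, h⟩
  · rintro rfl
    have := (mem_act.1 hp).2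
    simp [ip] at this
  · intro v hv
    have := mem_polar_hull.1 hmem v hv
    linarith
  · ext v
    simp only [mem_act, mem_onP]
    constructor
    · rintro ⟨h1, h2⟩
      exact ⟨h1, by linarith⟩
    · rintro ⟨h1, h2⟩
      exact ⟨h1, by linarith⟩

/-- The point of the polar attached to a facet. -/
lemma exists_pt_of_facet {V S : Finset E3} (hS : IsFacet V S) {z : E3} (hz : z ∈ interior (hull V)) :
    ∃ y, (∀ v ∈ V, ip y v - ip y z ≤ 1) ∧ act V z y = S := by
  obtain ⟨a, b, ha, hsup, rfl, -⟩ := hS
  have hlt : ip a z < b := ip_lt_of_interior ha (fun x hx => ip_le_on_hull hsup hx) hz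
  set c := b - ip a z with hc
  have hc0 : 0 < c := by linarith
  refine ⟨(1 / c) • a, ?_, ?_⟩
  · intro v hv
    rw [smul_ip, smul_ip, ← mul_sub, div_mul_eq_mul_div, one_mul, div_le_one hc0]
    have := hsup v hv
    linarith
  · ext v
    simp only [mem_act, mem_onP, smul_ip]
    rw [← mul_sub, div_mul_eq_mul_div, one_mul, div_eq_one_iff_eq hc0.ne']
    constructor
    · rintro ⟨h1, h2⟩
      exact ⟨h1, by linarith⟩
    · rintro ⟨h1, h2⟩
      exact ⟨h1, by linarith⟩

/-- Uniqueness of the point with given values on a non collinear triple. -/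
lemma pt_unique {p q r z y y' : E3} (hnc : NC p q r) (hp : ip y p - ip y z = 1)
    (hq : ip y q - ip y z = 1) (hr : ip y r - ip y z = 1) (hp' : ip y' p - ip y' z = 1)
    (hq' : ip y' q - ip y' z = 1) (hr' : ip y' r - ip y' z = 1) : y = y' := by
  have hy : y ≠ 0 := by
    rintro rfl
    simp [ip] at hp
  obtain ⟨μ, h1, h2⟩ := plane_unique (b := 1 + ip y z) (b' := 1 + ip y' z) hnc hy (by linarith)
    (by linarith) (by linarith) (by linarith) (by linarith) (by linarith)
  have hμ : μ = 1 := by
    rw [h1, smul_ip] at h2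
    linarith
  rw [h1, hμ, one_smul]

/-- A point of the polar with a non collinear active triple is extreme. -/
lemma pt_extreme {V : Finset E3} {z y p q r : E3} (hmem : y ∈ polarAt (hull V) z) (hnc : NC p q r)
    (hp : p ∈ act V z y) (hq : q ∈ act V z y) (hr : r ∈ act V z y) :
    y ∈ (polarAt (hull V) z).extremePoints ℝ := by
  rw [mem_extremePoints_iff_left]
  refine ⟨hmem, ?_⟩
  rintro x₁ hx₁ x₂ hx₂ ⟨s, t, hs, ht, hst, rfl⟩
  have key : ∀ v ∈ act V z (s • x₁ + t • x₂), ip x₁ v - ip x₁ z = 1 := by
    intro v hv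
    obtain ⟨hv1, hv2⟩ := mem_act.1 hv
    have h1 := mem_polar_hull.1 hx₁ v hv1
    have h2 := mem_polar_hull.1 hx₂ v hv1
    rw [add_ip, add_ip, smul_ip, smul_ip, smul_ip, smul_ip] at hv2
    by_contra hne
    have hlt : ip x₁ v - ip x₁ z < 1 := lt_of_le_of_ne h1 hne
    have h3 : s * (ip x₁ v - ip x₁ z) < s * 1 := mul_lt_mul_of_pos_left hlt hs
    have h4 : t * (ip x₂ v - ip x₂ z) ≤ t * 1 := mul_le_mul_of_nonneg_left h2 ht.le
    nlinarith
  obtain ⟨-, hp2⟩ := mem_act.1 hp
  obtain ⟨-, hq2⟩ := mem_act.1 hq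
  obtain ⟨-, hr2⟩ := mem_act.1 hr
  exact pt_unique hnc (key p hp) (key q hq) (key r hr) hp2 hq2 hr2

/-- The vertices of the polar polytope correspond bijectively to the facets. -/
theorem polar_vertices {V : Finset E3} {z : E3} (hz : z ∈ interior (hull V)) :
    ∃ W : Finset E3, (W : Set E3) = (polarAt (hull V) z).extremePoints ℝ ∧ W.card = (Fac V).card := by
  classical
  have hch : ∀ S, IsFacet V S → ∃ y, (∀ v ∈ V, ip y v - ip y z ≤ 1) ∧ act V z y = S :=
    fun S hS => exists_pt_of_facet hS hz
  let f : Finset E3 → E3 := fun S => if h : IsFacet V S then Classical.choose (hch S h) else 0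
  have hf : ∀ S, IsFacet V S → (∀ v ∈ V, ip (f S) v - ip (f S) z ≤ 1) ∧ act V z (f S) = S := by
    intro S hS
    simp only [f, dif_pos hS]
    exact Classical.choose_spec (hch S hS)
  refine ⟨(Fac V).image f, ?_, ?_⟩
  · ext y
    simp only [Finset.coe_image, mem_image, Finset.mem_coe]
    constructor
    · rintro ⟨S, hS, rfl⟩
      have hS' := mem_Fac.1 hS
      obtain ⟨h1, h2⟩ := hf S hS'
      obtain ⟨a, b, -, -, -, p, hp, q, hq, r, hr, hnc⟩ := hS'
      rw [← h2] at hp hq hr
      exact pt_extreme (mem_polar_hull.2 h1) hnc hp hq hr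
    · intro hy
      have hnc := ext_polar_nc hy
      have hmem := extremePoints_subset hy
      have hS := act_isFacet hmem hnc
      refine ⟨act V z y, mem_Fac.2 hS, ?_⟩
      obtain ⟨h1, h2⟩ := hf _ hS
      obtain ⟨p, hp, q, hq, r, hr, hn⟩ := hnc
      have hp' := hp
      have hq' := hq
      have hr' := hr
      rw [← h2] at hp' hq' hr'
      exact pt_unique hn (mem_act.1 hp').2 (mem_act.1 hq').2 (mem_act.1 hr').2
        (mem_act.1 hp).2 (mem_act.1 hq).2 (mem_act.1 hr).2
  · apply Finset.card_image_of_injOn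
    intro S hS S' hS' h
    have h1 := (hf S (mem_Fac.1 hS)).2
    have h2 := (hf S' (mem_Fac.1 hS')).2
    rw [← h1, ← h2, h]

/-- A compact convex set whose extreme points are finitely many is their hull. -/
lemma hull_of_ext {P : Set E3} (hP : IsCompact P) (hc : Convex ℝ P) {W : Finset E3}
    (hW : (W : Set E3) = P.extremePoints ℝ) : hull W = P := by
  have h := closure_convexHull_extremePoints hP hc
  rw [← hW] at h
  rw [← h]
  exact ((hull_compact W).isClosed.closure_eq).symm

lemma polar_compact {A : Set E3} {z : E3} (hz : z ∈ interior A) : IsCompact (polarAt A z) := by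
  obtain ⟨R, hR⟩ := polarAt_bounded hz
  apply Metric.isCompact_of_isClosed_isBounded (polarAt_isClosed _ _)
  have hc : IsCompact (Set.pi univ (fun _ : Fin 3 => Icc (-R) R)) :=
    isCompact_univ_pi (fun _ => isCompact_Icc)
  refine hc.isBounded.subset ?_
  intro y hy i _
  exact abs_le.mp (hR y hy i)

/-- The polar (with respect to a point of the set) as seen by separation. -/
lemma exists_polar_sep {A : Set E3} (hc : Convex ℝ A) (hcl : IsClosed A) {z x : E3} (hz : z ∈ A)
    (hx : x ∉ A) : ∃ y ∈ polarAt A z, 1 < ip y x - ip y z := by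
  obtain ⟨n, u, h1, h2⟩ := exists_sep hc hcl hx
  have hzu := h1 z hz
  set c := u - ip n z with hcdef
  have hc0 : 0 < c := by linarith
  refine ⟨(1 / c) • n, ?_, ?_⟩
  · rw [mem_polar_iff]
    intro a ha
    rw [smul_ip, smul_ip, ← mul_sub, div_mul_eq_mul_div, one_mul, div_le_one hc0]
    have := h1 a ha
    linarith
  · rw [smul_ip, smul_ip, ← mul_sub, div_mul_eq_mul_div, one_mul, one_lt_div hc0]
    linarith

/-- **Bipolar theorem.** -/
lemma polar_polar {A : Set E3} (hc : Convex ℝ A) (hcl : IsClosed A) {z : E3} (hz : z ∈ A) :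
    polarAt (polarAt A z) 0 = (fun x => x + z) ⁻¹' A := by
  ext x
  simp only [mem_preimage]
  constructor
  · intro hx
    by_contra hnot
    obtain ⟨y, hy, hlt⟩ := exists_polar_sep hc hcl hz hnot
    have := (mem_polar_iff.1 hx) y hy
    rw [ip_add] at hlt
    have e : ip x 0 = 0 := by simp [ip]
    rw [e, sub_zero, ip_comm] at this
    linarith
  · intro hx
    rw [mem_polar_iff]
    intro y hy
    have := (mem_polar_iff.1 hy) _ hx
    rw [ip_add] at this
    have e : ip x 0 = 0 := by simp [ip]
    rw [e, sub_zero, ip_comm]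
    linarith

/-- Extreme points of a translate. -/
lemma ext_translate {A : Set E3} {z x : E3} :
    x ∈ ((fun x => x + z) ⁻¹' A).extremePoints ℝ ↔ x + z ∈ A.extremePoints ℝ := by
  rw [mem_extremePoints_iff_left, mem_extremePoints_iff_left]
  constructor
  · rintro ⟨h1, h2⟩
    refine ⟨h1, ?_⟩
    rintro a₁ ha₁ a₂ ha₂ ⟨s, t, hs, ht, hst, he⟩
    have h3 := h2 (a₁ - z) (by simpa using ha₁) (a₂ - z) (by simpa using ha₂)
      ⟨s, t, hs, ht, hst, by
        ext i
        have := congrFun he i
        simp only [Pi.add_apply, Pi.smul_apply, smul_eq_mul, Pi.sub_apply] at this ⊢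
        have hst' : t = 1 - s := by linarith
        rw [hst'] at this ⊢
        linarith⟩
    rw [← h3]
    simp
  · rintro ⟨h1, h2⟩
    refine ⟨h1, ?_⟩
    rintro a₁ ha₁ a₂ ha₂ ⟨s, t, hs, ht, hst, he⟩
    have h3 := h2 (a₁ + z) ha₁ (a₂ + z) ha₂
      ⟨s, t, hs, ht, hst, by
        ext i
        have := congrFun he i
        simp only [Pi.add_apply, Pi.smul_apply, smul_eq_mul] at this ⊢
        have hst' : t = 1 - s := by linarith
        rw [hst'] at this ⊢
        linarith⟩
    exact add_right_cancel h3

/-- The polar polytope of a polytope. -/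
theorem polar_poly {V : Finset E3} (hV : IsPoly V) {z : E3} (hz : z ∈ interior (hull V)) :
    ∃ W : Finset E3, IsPoly W ∧ hull W = polarAt (hull V) z ∧ W.card = (Fac V).card ∧
      (Fac W).card = V.card ∧ (0 : E3) ∈ interior (hull W) ∧
      polarAt (hull W) 0 = (fun x => x + z) ⁻¹' hull V := by
  classical
  obtain ⟨W, hW, hcard⟩ := polar_vertices hz
  have hcomp := polar_compact hz
  have hconv := polarAt_convex (hull V) z
  have hhull : hull W = polarAt (hull V) z := hull_of_ext hcomp hconv hW
  have hzK : z ∈ hull V := interior_subset hz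
  obtain ⟨ε, hε, hbox⟩ := polar_box_sym (d := 2) (hull_compact V) hzK
  have h0 : (0 : E3) ∈ interior (hull W) := by
    rw [hhull, mem_interior]
    refine ⟨Set.pi univ (fun _ : Fin 3 => Ioo (-ε) ε), ?_, ?_, ?_⟩
    · intro y hy
      apply hbox
      intro i
      have := hy i (mem_univ i)
      exact abs_le.2 ⟨this.1.le, this.2.le⟩
    · exact isOpen_set_pi finite_univ (fun _ _ => isOpen_Ioo)
    · intro i _
      simp [hε]
  have hpp : polarAt (hull W) 0 = (fun x => x + z) ⁻¹' hull V := by
    rw [hhull]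
    exact polar_polar (hull_convex V) (hull_compact V).isClosed hzK
  refine ⟨W, ⟨?_, ⟨0, h0⟩⟩, hhull, hcard, ?_, h0, hpp⟩
  · rw [hhull, hW]
  · obtain ⟨W₂, hW₂, hcard₂⟩ := polar_vertices h0
    rw [← hcard₂]
    have himg : W₂ = V.image (fun v => v - z) := by
      apply Finset.coe_injective
      rw [hW₂, hpp]
      ext x
      rw [ext_translate, hV.1]
      simp only [Finset.coe_image, mem_image, Finset.mem_coe]
      constructor
      · intro h
        exact ⟨x + z, h, by simp⟩
      · rintro ⟨v, hv, rfl⟩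
        simpa using hv
    rw [himg]
    apply Finset.card_image_of_injective
    intro a b hab
    exact sub_left_injective hab

end Vale.Agent.Lib.P248
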