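import Vale.Agent.Lib.P248.Pol2

open MeasureTheory Set Function
open scoped ENNReal Pointwise

namespace Vale.Agent.Lib.P248

/-- An affine function of the first two coordinates. -/
def pl (α β γ : ℝ) (x : E3) : ℝ := α * x 0 + β * x 1 + γ

/-- The determinant of a triple of points projected to the first two coordinates. -/
def D2 (p q r : E3) : ℝ := (q 0 - p 0) * (r 1 - p 1) - (q 1 - p 1) * (r 0 - p 0)

lemma D2_eq_cr (p q r : E3) : D2 p q r = cr (q - p) (r - p) 2 := by
  simp [D2, cr]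

lemma NC_of_D2 {p q r : E3} (h : D2 p q r ≠ 0) : NC p q r := by
  intro hcr
  apply h
  rw [D2_eq_cr, hcr]
  rfl

/-- Affine functions agreeing on a triple with non vanishing determinant are equal. -/
lemma pl_unique {α β γ α' β' γ' : ℝ} {p q r : E3} (hD : D2 p q r ≠ 0)
    (hp : pl α β γ p = pl α' β' γ' p) (hq : pl α β γ q = pl α' β' γ' q)
    (hr : pl α β γ r = pl α' β' γ' r) : α = α' ∧ β = β' ∧ γ = γ' := by
  simp only [pl] at hp hq hr
  have h1 : (α - α') * D2 p q r = 0 := by
    simp only [D2]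
    linear_combination (r 1 - p 1) * (hq - hp) - (q 1 - p 1) * (hr - hp)
  have h2 : (β - β') * D2 p q r = 0 := by
    simp only [D2]
    linear_combination (-(r 0 - p 0)) * (hq - hp) + (q 0 - p 0) * (hr - hp)
  have h3 : α = α' := by
    rcases mul_eq_zero.1 h1 with h | h
    · linarith
    · exact absurd h hD
  have h4 : β = β' := by
    rcases mul_eq_zero.1 h2 with h | h
    · linarith
    · exact absurd h hD
  refine ⟨h3, h4, ?_⟩
  rw [h3, h4] at hp
  linarith

/-- Interpolation by an affine function. -/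
lemma exists_pl {p q r : E3} (hD : D2 p q r ≠ 0) (a b c : ℝ) :
    ∃ α β γ, pl α β γ p = a ∧ pl α β γ q = b ∧ pl α β γ r = c := by
  set D := D2 p q r with hDdef
  refine ⟨((b - a) * (r 1 - p 1) - (c - a) * (q 1 - p 1)) / D,
    ((c - a) * (q 0 - p 0) - (b - a) * (r 0 - p 0)) / D,
    a - ((b - a) * (r 1 - p 1) - (c - a) * (q 1 - p 1)) / D * p 0 -
      ((c - a) * (q 0 - p 0) - (b - a) * (r 0 - p 0)) / D * p 1, ?_, ?_, ?_⟩
  · simp only [pl]
    ring
  · simp only [pl]
    have : D = (q 0 - p 0) * (r 1 - p 1) - (q 1 - p 1) * (r 0 - p 0) := rfl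
    field_simp
    rw [this]
    ring
  · simp only [pl]
    have : D = (q 0 - p 0) * (r 1 - p 1) - (q 1 - p 1) * (r 0 - p 0) := rfl
    field_simp
    rw [this]
    ring

/-- Non vertical facets with their equations. -/
structure IsNV (V S : Finset E3) (σ α β γ : ℝ) : Prop where
  sg : σ = 1 ∨ σ = -1
  supp : ∀ v ∈ V, 0 ≤ σ * (pl α β γ v - v 2)
  eq : S = V.filter (fun v => v 2 = pl α β γ v)
  nc : ∃ p ∈ S, ∃ q ∈ S, ∃ r ∈ S, D2 p q r ≠ 0

lemma IsNV.sub {V S : Finset E3} {σ α β γ : ℝ} (h : IsNV V S σ α β γ) : S ⊆ V := by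
  rw [h.eq]
  exact Finset.filter_subset _ _

lemma IsNV.on {V S : Finset E3} {σ α β γ : ℝ} (h : IsNV V S σ α β γ) {u : E3} (hu : u ∈ S) :
    u 2 = pl α β γ u := by
  rw [h.eq] at hu
  exact (Finset.mem_filter.1 hu).2

lemma IsNV.mem {V S : Finset E3} {σ α β γ : ℝ} (h : IsNV V S σ α β γ) {u : E3} (hu : u ∈ V)
    (he : u 2 = pl α β γ u) : u ∈ S := by
  rw [h.eq]
  exact Finset.mem_filter.2 ⟨hu, he⟩

lemma sg_ne {σ : ℝ} (h : σ = 1 ∨ σ = -1) : σ ≠ 0 := by
  rcases h with rfl | rfl <;> norm_num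

lemma sg_sq {σ : ℝ} (h : σ = 1 ∨ σ = -1) : σ * σ = 1 := by
  rcases h with rfl | rfl <;> norm_num

/-- A non vertical facet is a facet. -/
lemma IsNV.isFacet {V S : Finset E3} {σ α β γ : ℝ} (h : IsNV V S σ α β γ) : IsFacet V S := by
  obtain ⟨p, hp, q, hq, r, hr, hD⟩ := h.nc
  refine ⟨![-σ * α, -σ * β, σ], σ * γ, ?_, ?_, ?_, p, hp, q, hq, r, hr, NC_of_D2 hD⟩
  · intro h0
    have := congrFun h0 2
    simp only [Matrix.cons_val, Pi.zero_apply] at this
    exact sg_ne h.sg this
  · intro v hv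
    have := h.supp v hv
    simp only [pl] at this
    simp only [ip, Matrix.cons_val]
    nlinarith
  · rw [h.eq]
    ext v
    rw [Finset.mem_filter, mem_onP]
    have hσ := sg_ne h.sg
    have e : ip ![-σ * α, -σ * β, σ] v = σ * (v 2 - α * v 0 - β * v 1) := by
      simp only [ip, Matrix.cons_val]
      ring
    rw [e]
    simp only [pl]
    constructor
    · rintro ⟨h1, h2⟩
      refine ⟨h1, ?_⟩
      rw [h2]
      ring
    · rintro ⟨h1, h2⟩
      refine ⟨h1, ?_⟩
      apply mul_left_cancel₀ hσ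
      linarith [h2]

/-- From a point of the polar with a non collinear active triple and non vertical normal to a
non vertical facet. -/
lemma isNV_of_polar {V : Finset E3} {z y : E3} {σ : ℝ} (hσ : σ = 1 ∨ σ = -1)
    (hmem : y ∈ polarAt (hull V) z) (hs : 0 < σ * y 2)
    (hnc : ∃ p ∈ act V z y, ∃ q ∈ act V z y, ∃ r ∈ act V z y, NC p q r) :
    IsNV V (act V z y) σ (-y 0 / y 2) (-y 1 / y 2) ((1 + ip y z) / y 2) := by
  have hy2 : y 2 ≠ 0 := by
    intro h0
    rw [h0, mul_zero] at hs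
    exact lt_irrefl _ hs
  have key : ∀ v : E3, pl (-y 0 / y 2) (-y 1 / y 2) ((1 + ip y z) / y 2) v - v 2 =
      (1 + ip y z - ip y v) / y 2 := by
    intro v
    simp only [pl]
    field_simp
    simp only [ip]
    ring
  refine ⟨hσ, ?_, ?_, ?_⟩
  · intro v hv
    rw [key]
    have h1 := mem_polar_hull.1 hmem v hv
    have h2 : σ * ((1 + ip y z - ip y v) / y 2) = (1 + ip y z - ip y v) / (σ * y 2) := by
      have h3 := sg_sq hσ
      have h4 := sg_ne hσ
      field_simp
      nlinarith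
    rw [h2]
    apply div_nonneg _ hs.le
    linarith
  · ext v
    simp only [mem_act, Finset.mem_filter]
    constructor
    · rintro ⟨h1, h2⟩
      refine ⟨h1, ?_⟩
      have := key v
      have e : 1 + ip y z - ip y v = 0 := by linarith
      rw [e, zero_div] at this
      linarith
    · rintro ⟨h1, h2⟩
      refine ⟨h1, ?_⟩
      have := key v
      rw [← h2, sub_self] at this
      have h3 := (div_eq_zero_iff.1 this.symm).resolve_right hy2
      linarith
  · obtain ⟨p, hp, q, hq, r, hr, hn⟩ := hnc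
    refine ⟨p, hp, q, hq, r, hr, ?_⟩
    intro hD
    have h1 := (mem_act.1 hp).2
    have h2 := (mem_act.1 hq).2
    have h3 := (mem_act.1 hr).2
    obtain ⟨κ, hκ⟩ := exists_mul_cr (a := y) (u := q - p) (w := r - p)
      (by rw [ip_sub]; linarith) (by rw [ip_sub]; linarith) hn
    apply hy2
    rw [hκ]
    simp only [Pi.smul_apply, smul_eq_mul]
    rw [← D2_eq_cr, hD, mul_zero]

/-- The unit vector of the last coordinate. -/
def e2 : E3 := ![0, 0, 1]

lemma ip_e2 (y : E3) : ip y e2 = y 2 := by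
  simp [ip, e2]

/-- A point of the polytope which is highest on its vertical line, in the direction `σ`, lies on
a non vertical facet oriented by `σ`. -/
theorem exists_nv_facet {V : Finset E3} {z : E3} (hz : z ∈ interior (hull V)) {σ : ℝ}
    (hσ : σ = 1 ∨ σ = -1) {x : E3} (hx : x ∈ hull V)
    (hmax : ∀ ε > 0, x + (ε * σ) • e2 ∉ hull V) :
    ∃ S α β γ, IsNV V S σ α β γ ∧ x 2 = pl α β γ x := by
  classical
  obtain ⟨W, hW, -⟩ := polar_vertices hz
  have hhull : hull W = polarAt (hull V) z :=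
    hull_of_ext (polar_compact hz) (polarAt_convex _ _) hW
  have hWmem : ∀ y ∈ W, y ∈ (polarAt (hull V) z).extremePoints ℝ := by
    intro y hy
    rw [← hW]
    exact Finset.mem_coe.2 hy
  have hWle : ∀ y ∈ W, ip y x - ip y z ≤ 1 := fun y hy =>
    mem_polar_iff.1 (extremePoints_subset (hWmem y hy)) x hx
  by_cases hex : ∃ y ∈ W, 0 < σ * y 2 ∧ ip y x - ip y z = 1
  · obtain ⟨y, hy, hs, he⟩ := hex
    have hN := isNV_of_polar hσ (extremePoints_subset (hWmem y hy)) hs (ext_polar_nc (hWmem y hy))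
    refine ⟨_, _, _, _, hN, ?_⟩
    have hy2 : y 2 ≠ 0 := by
      intro h0
      rw [h0, mul_zero] at hs
      exact lt_irrefl _ hs
    simp only [pl]
    field_simp
    simp only [ip] at he ⊢
    linarith
  · exfalso
    push Not at hex
    obtain ⟨ε, hε, hsmall⟩ := exists_small (W.filter (fun y => 0 < σ * y 2)) (fun y => y 2)
      (fun y => 1 - (ip y x - ip y z)) (by
        intro y hy
        obtain ⟨h1, h2⟩ := Finset.mem_filter.1 hy
        have := lt_of_le_of_ne (hWle y h1) (hex y h1 h2)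
        linarith)
    apply hmax ε hε
    by_contra hnot
    obtain ⟨y₀, hy₀, hlt⟩ := exists_polar_sep (hull_convex V) (hull_compact V).isClosed
      (interior_subset hz) hnot
    rw [← hhull] at hy₀
    obtain ⟨μ, ⟨hμ, hμ1⟩, rfl⟩ := mem_hull_iff.1 hy₀
    rw [sum_ip, sum_ip, ← Finset.sum_sub_distrib] at hlt
    have hbd : ∑ y ∈ W, (μ y * ip y (x + (ε * σ) • e2) - μ y * ip y z) ≤ ∑ y ∈ W, μ y := by
      apply Finset.sum_le_sum
      intro y hy
      rw [← mul_sub]
      have hy1 : ip y (x + (ε * σ) • e2) - ip y z ≤ 1 := by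
        rw [ip_add, ip_smul, ip_e2]
        by_cases hs : 0 < σ * y 2
        · have h1 : ε * |y 2| ≤ 1 - (ip y x - ip y z) :=
            hsmall y (Finset.mem_filter.2 ⟨hy, hs⟩)
          have h2 : σ * y 2 ≤ |y 2| := by
            rcases hσ with rfl | rfl
            · rw [one_mul]; exact le_abs_self _
            · linarith [neg_abs_le (y 2)]
          have h3 : ε * (σ * y 2) ≤ ε * |y 2| := mul_le_mul_of_nonneg_left h2 hε.le
          nlinarith
        · push Not at hs
          have h1 := hWle y hy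
          have h2 : ε * (σ * y 2) ≤ 0 := mul_nonpos_of_nonneg_of_nonpos hε.le hs
          nlinarith
      calc μ y * (ip y (x + (ε * σ) • e2) - ip y z) ≤ μ y * 1 :=
            mul_le_mul_of_nonneg_left hy1 (hμ y hy)
        _ = μ y := mul_one _
    rw [hμ1] at hbd
    linarith

/-- Weighted means. -/
def bar (V : Finset E3) (w : E3 → ℝ) (φ : E3 → ℝ) : ℝ := ∑ v ∈ V, w v * φ v

lemma bar_congr {V : Finset E3} {w φ ψ : E3 → ℝ} (h : ∀ v ∈ V, w v ≠ 0 → φ v = ψ v) :
    bar V w φ = bar V w ψ := by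
  apply Finset.sum_congr rfl
  intro v hv
  by_cases hw : w v = 0
  · simp [hw]
  · rw [h v hv hw]

lemma bar_mono {V : Finset E3} {w φ ψ : E3 → ℝ} (hw : ∀ v ∈ V, 0 ≤ w v) (h : ∀ v ∈ V, φ v ≤ ψ v) :
    bar V w φ ≤ bar V w ψ :=
  Finset.sum_le_sum fun v hv => mul_le_mul_of_nonneg_left (h v hv) (hw v hv)

lemma bar_pl {V : Finset E3} {w : E3 → ℝ} (hw : Wt V w) (α β γ : ℝ) :
    bar V w (pl α β γ) = α * bar V w (fun v => v 0) + β * bar V w (fun v => v 1) + γ := by
  simp only [bar, pl, Finset.mul_sum]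
  have : γ = ∑ v ∈ V, w v * γ := by
    rw [← Finset.sum_mul, hw.2, one_mul]
  conv_rhs => rw [this]
  rw [← Finset.sum_add_distrib, ← Finset.sum_add_distrib]
  apply Finset.sum_congr rfl
  intros
  ring

lemma bar_add {V : Finset E3} (w φ ψ : E3 → ℝ) :
    bar V w (fun v => φ v + ψ v) = bar V w φ + bar V w ψ := by
  simp only [bar, mul_add, Finset.sum_add_distrib]

/-- Coordinates of a combination. -/
lemma sum_smul_apply {V : Finset E3} (w : E3 → ℝ) (f : E3 → E3) (i : Fin 3) :
    (∑ v ∈ V, w v • f v) i = ∑ v ∈ V, w v * f v i := by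
  rw [Finset.sum_apply]
  simp

/-- Weights realizing a top point of the polytope are supported on the facet. -/
lemma weights_on_facet {V S : Finset E3} {σ α β γ : ℝ} (hN : IsNV V S σ α β γ) {w : E3 → ℝ}
    (hw : Wt V w) (he : bar V w (fun v => v 2) = pl α β γ ![bar V w (fun v => v 0),
      bar V w (fun v => v 1), 0]) : ∀ v ∈ V, w v ≠ 0 → v ∈ S := by
  have h1 : bar V w (pl α β γ) = bar V w (fun v => v 2) := by
    rw [bar_pl hw, he]
    simp [pl]
  have h2 : ∑ v ∈ V, w v * (σ * (pl α β γ v - v 2)) = 0 := by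
    have : ∑ v ∈ V, w v * (σ * (pl α β γ v - v 2)) =
        σ * (bar V w (pl α β γ) - bar V w (fun v => v 2)) := by
      simp only [bar, Finset.mul_sum, ← Finset.sum_sub_distrib]
      apply Finset.sum_congr rfl
      intros
      ring
    rw [this, h1, sub_self, mul_zero]
  have hnn : ∀ v ∈ V, 0 ≤ w v * (σ * (pl α β γ v - v 2)) := fun v hv =>
    mul_nonneg (hw.1 v hv) (hN.supp v hv)
  have h3 := (Finset.sum_eq_zero_iff_of_nonneg hnn).1 h2
  intro v hv hwv
  have h4 := h3 v hv
  have h5 := (mul_eq_zero.1 h4).resolve_left hwv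
  have h6 := (mul_eq_zero.1 h5).resolve_left (sg_ne hN.sg)
  exact hN.mem hv (by linarith)

/-- The lift of a vertex to new height. -/
def lift (h : E3 → ℝ) (v : E3) : E3 := ![v 0, v 1, h v]

@[simp] lemma lift_0 (h : E3 → ℝ) (v : E3) : lift h v 0 = v 0 := rfl
@[simp] lemma lift_1 (h : E3 → ℝ) (v : E3) : lift h v 1 = v 1 := rfl
@[simp] lemma lift_2 (h : E3 → ℝ) (v : E3) : lift h v 2 = h v := rfl

/-- The polytope with vertices lifted to new heights. -/
noncomputable def hullH (V : Finset E3) (h : E3 → ℝ) : Set E3 := hull (V.image (lift h))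

lemma hullH_compact (V : Finset E3) (h : E3 → ℝ) : IsCompact (hullH V h) := hull_compact _

lemma hullH_convex (V : Finset E3) (h : E3 → ℝ) : Convex ℝ (hullH V h) := hull_convex _

lemma lift_self : lift (fun v => v 2) = id := by
  ext v i
  fin_cases i <;> rfl

lemma hullH_self (V : Finset E3) : hullH V (fun v => v 2) = hull V := by
  unfold hullH
  rw [lift_self, Finset.image_id]

lemma mem_hullH {V : Finset E3} {h : E3 → ℝ} {x : E3} :
    x ∈ hullH V h ↔ ∃ w, Wt V w ∧ bar V w (fun v => v 0) = x 0 ∧ bar V w (fun v => v 1) = x 1 ∧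
      bar V w h = x 2 := by
  unfold hullH
  rw [mem_hull_image]
  constructor
  · rintro ⟨w, hw, rfl⟩
    refine ⟨w, hw, ?_, ?_, ?_⟩ <;> rw [sum_smul_apply] <;> rfl
  · rintro ⟨w, hw, h0, h1, h2⟩
    refine ⟨w, hw, ?_⟩
    apply ext3
    · rw [sum_smul_apply, ← h0]; rfl
    · rw [sum_smul_apply, ← h1]; rfl
    · rw [sum_smul_apply, ← h2]; rfl

/-- Heights compatible with the facet structure of `V`. -/
def Valid (V : Finset E3) (h : E3 → ℝ) : Prop :=
  ∀ S σ α β γ, IsNV V S σ α β γ → ∃ α' β' γ', (∀ u ∈ S, h u = pl α' β' γ' u) ∧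
    ∀ v ∈ V, 0 ≤ σ * (pl α' β' γ' v - h v)

lemma valid_self (V : Finset E3) : Valid V (fun v => v 2) := by
  intro S σ α β γ hN
  exact ⟨α, β, γ, fun u hu => hN.on hu, hN.supp⟩

/-- A top point of the polytope above a base point and the weights representing it. -/
theorem top_weights {V : Finset E3} {z : E3} (hz : z ∈ interior (hull V)) {σ : ℝ}
    (hσ : σ = 1 ∨ σ = -1) {w₀ : E3 → ℝ} (hw₀ : Wt V w₀) :
    ∃ S α β γ w, IsNV V S σ α β γ ∧ Wt V w ∧ bar V w (fun v => v 0) = bar V w₀ (fun v => v 0) ∧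
      bar V w (fun v => v 1) = bar V w₀ (fun v => v 1) ∧ ∀ v ∈ V, w v ≠ 0 → v ∈ S := by
  set y₀ := bar V w₀ (fun v => v 0) with hy₀
  set y₁ := bar V w₀ (fun v => v 1) with hy₁
  -- the compact fibre
  set A : Set E3 := hull V ∩ {x | x 0 = y₀ ∧ x 1 = y₁} with hA
  have hAc : IsCompact A := by
    apply (hull_compact V).inter_right
    exact (isClosed_eq (continuous_apply 0) continuous_const).inter
      (isClosed_eq (continuous_apply 1) continuous_const)
  have hAne : A.Nonempty := by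
    refine ⟨∑ v ∈ V, w₀ v • v, mem_hull_iff.2 ⟨w₀, hw₀, rfl⟩, ?_, ?_⟩
    · rw [sum_smul_apply]; rfl
    · rw [sum_smul_apply]; rfl
  have hcont : Continuous (fun x : E3 => σ * x 2) := continuous_const.mul (continuous_apply 2)
  obtain ⟨x, hx, hxmax⟩ := hAc.exists_isMaxOn hAne hcont.continuousOn
  have hxmax' : ∀ x' ∈ A, σ * x' 2 ≤ σ * x 2 := fun x' hx' => hxmax hx'
  obtain ⟨S, α, β, γ, hN, he⟩ := exists_nv_facet hz hσ hx.1 (by
    intro ε hε hin
    have h1 : x + (ε * σ) • e2 ∈ A := by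
      refine ⟨hin, ?_, ?_⟩
      · simp [e2, hx.2.1]
      · simp [e2, hx.2.2]
    have h2 := hxmax' _ h1
    simp only [Pi.add_apply, Pi.smul_apply, smul_eq_mul, e2, Matrix.cons_val] at h2
    have h3 := sg_sq hσ
    nlinarith)
  obtain ⟨w, hw, hxw⟩ := mem_hull_iff.1 hx.1
  have hc0 : bar V w (fun v => v 0) = x 0 := by
    rw [← hxw, sum_smul_apply]; rfl
  have hc1 : bar V w (fun v => v 1) = x 1 := by
    rw [← hxw, sum_smul_apply]; rfl
  have hc2 : bar V w (fun v => v 2) = x 2 := by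
    rw [← hxw, sum_smul_apply]; rfl
  refine ⟨S, α, β, γ, w, hN, hw, by rw [hc0]; exact hx.2.1, by rw [hc1]; exact hx.2.2, ?_⟩
  apply weights_on_facet hN hw
  rw [hc0, hc1, hc2, he]
  simp [pl]

/-- On weights supported on a facet, a valid height takes the value of its plane. -/
lemma bar_of_support {V S : Finset E3} {w h : E3 → ℝ} (hw : Wt V w) {α β γ : ℝ}
    (hs : ∀ v ∈ V, w v ≠ 0 → v ∈ S) (hh : ∀ u ∈ S, h u = pl α β γ u) :
    bar V w h = α * bar V w (fun v => v 0) + β * bar V w (fun v => v 1) + γ := by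
  rw [← bar_pl hw]
  exact bar_congr (fun v hv hwv => hh v (hs v hv hwv))

/-- The bound of all points above a base point by the plane of a facet. -/
lemma bar_le_plane {V : Finset E3} {σ α β γ : ℝ} {w h : E3 → ℝ} (hw : Wt V w)
    (hsup : ∀ v ∈ V, 0 ≤ σ * (pl α β γ v - h v)) :
    σ * bar V w h ≤ σ * (α * bar V w (fun v => v 0) + β * bar V w (fun v => v 1) + γ) := by
  rw [← bar_pl hw]
  have : σ * bar V w (pl α β γ) - σ * bar V w h = ∑ v ∈ V, w v * (σ * (pl α β γ v - h v)) := by
    simp only [bar, Finset.mul_sum, ← Finset.sum_sub_distrib]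
    apply Finset.sum_congr rfl
    intros
    ring
  have h2 : 0 ≤ ∑ v ∈ V, w v * (σ * (pl α β γ v - h v)) :=
    Finset.sum_nonneg fun v hv => mul_nonneg (hw.1 v hv) (hsup v hv)
  linarith

/-- The extremal weights in direction `σ` above a base point, uniformly in the valid height. -/
theorem extremal_weights {V : Finset E3} {z : E3} (hz : z ∈ interior (hull V)) {σ : ℝ}
    (hσ : σ = 1 ∨ σ = -1) {w₀ : E3 → ℝ} (hw₀ : Wt V w₀) :
    ∃ w, Wt V w ∧ bar V w (fun v => v 0) = bar V w₀ (fun v => v 0) ∧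
      bar V w (fun v => v 1) = bar V w₀ (fun v => v 1) ∧
      ∀ h, Valid V h → ∀ w', Wt V w' → bar V w' (fun v => v 0) = bar V w₀ (fun v => v 0) →
        bar V w' (fun v => v 1) = bar V w₀ (fun v => v 1) → σ * bar V w' h ≤ σ * bar V w h := by
  obtain ⟨S, α, β, γ, w, hN, hw, h0, h1, hs⟩ := top_weights hz hσ hw₀
  refine ⟨w, hw, h0, h1, ?_⟩
  intro h hh w' hw' h0' h1'
  obtain ⟨α', β', γ', hon, hsup⟩ := hh S σ α β γ hN
  have h3 := bar_le_plane hw' hsup
  rw [bar_of_support hw hs hon, h0, h1]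
  rw [h0', h1'] at h3
  exact h3

/-- Fibres of the lifted polytopes. -/
theorem fibre_eq {V : Finset E3} {z : E3} (hz : z ∈ interior (hull V)) {w₀ : E3 → ℝ}
    (hw₀ : Wt V w₀) :
    ∃ wp wm, ∀ h, Valid V h → bar V wm h ≤ bar V wp h ∧ ∀ x : E3,
      x 0 = bar V w₀ (fun v => v 0) → x 1 = bar V w₀ (fun v => v 1) →
      (x ∈ hullH V h ↔ bar V wm h ≤ x 2 ∧ x 2 ≤ bar V wp h) := by
  obtain ⟨wp, hp, hp0, hp1, hpm⟩ := extremal_weights hz (Or.inl rfl) hw₀
  obtain ⟨wm, hm, hm0, hm1, hmm⟩ := extremal_weights hz (Or.inr rfl) hw₀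
  refine ⟨wp, wm, fun h hh => ?_⟩
  constructor
  · have := hmm h hh wp hp hp0 hp1
    linarith
  intro x hx0 hx1
  constructor
  · intro hx
    obtain ⟨w, hw, h0, h1, h2⟩ := mem_hullH.1 hx
    rw [hx0] at h0
    rw [hx1] at h1
    have a1 := hpm h hh w hw h0 h1
    have a2 := hmm h hh w hw h0 h1
    rw [← h2]
    constructor <;> linarith
  · rintro ⟨h1, h2⟩
    -- a combination of the two extremal weights
    have hle : bar V wm h ≤ bar V wp h := h1.trans h2
    rcases hle.eq_or_lt with heq | hlt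
    · refine mem_hullH.2 ⟨wp, hp, by rw [hp0, hx0], by rw [hp1, hx1], ?_⟩
      linarith
    · set t := (x 2 - bar V wm h) / (bar V wp h - bar V wm h) with ht
      have hd : 0 < bar V wp h - bar V wm h := by linarith
      have ht0 : 0 ≤ t := div_nonneg (by linarith) hd.le
      have ht1 : t ≤ 1 := by
        rw [ht, div_le_one hd]
        linarith
      have hcomb : ∀ φ : E3 → ℝ, bar V (fun v => t * wp v + (1 - t) * wm v) φ =
          t * bar V wp φ + (1 - t) * bar V wm φ := by
        intro φ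
        simp only [bar, Finset.mul_sum, ← Finset.sum_add_distrib]
        apply Finset.sum_congr rfl
        intros
        ring
      refine mem_hullH.2 ⟨fun v => t * wp v + (1 - t) * wm v, ⟨?_, ?_⟩, ?_, ?_, ?_⟩
      · intro v hv
        have h3 := hp.1 v hv
        have h4 := hm.1 v hv
        have h5 : 0 ≤ 1 - t := by linarith
        positivity
      · rw [Finset.sum_add_distrib, ← Finset.mul_sum, ← Finset.mul_sum, hp.2, hm.2]
        ring
      · rw [hcomb, hp0, hm0, hx0]
        ring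
      · rw [hcomb, hp1, hm1, hx1]
        ring
      · rw [hcomb, ht]
        field_simp
        ring

end Vale.Agent.Lib.P248
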