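import Vale.Agent.Lib.P248.Pol3

open MeasureTheory Set Function
open scoped ENNReal Pointwise

namespace Vale.Agent.Lib.P248

/-- Fubini, integrating first over the fibres of the coordinate `j`. -/
lemma volume_eq_fib {d : ℕ} (j : Fin (d + 1)) {W : Set (Fin (d + 1) → ℝ)} (hW : MeasurableSet W) :
    volume W = ∫⁻ y : Fin d → ℝ, volume {τ : ℝ | ins j τ y ∈ W} := by
  have mp := volume_preserving_piFinSuccAbove (fun _ : Fin (d + 1) => ℝ) j
  have h1 : volume W = volume (prodSet j W) := by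
    have := (mp.symm).measure_preimage (s := W) hW.nullMeasurableSet
    exact this.symm
  rw [h1, Measure.volume_eq_prod, Measure.prod_apply_symm (measurable_prodSet j hW)]
  rfl

lemma measurable_volume_fib {d : ℕ} (j : Fin (d + 1)) {W : Set (Fin (d + 1) → ℝ)}
    (hW : MeasurableSet W) : Measurable (fun y : Fin d → ℝ => volume {τ : ℝ | ins j τ y ∈ W}) :=
  measurable_measure_prodMk_right (measurable_prodSet j hW)

/-- The point of height `τ` above a base point. -/
abbrev up (τ : ℝ) (y : Fin 2 → ℝ) : E3 := ins (d := 2) 2 τ y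

lemma up_0 (τ : ℝ) (y : Fin 2 → ℝ) : up τ y 0 = y 0 := rfl
lemma up_1 (τ : ℝ) (y : Fin 2 → ℝ) : up τ y 1 = y 1 := rfl
lemma up_2 (τ : ℝ) (y : Fin 2 → ℝ) : up τ y 2 = τ := rfl

lemma up_eta (x : E3) : up (x 2) ![x 0, x 1] = x := by
  apply ext3 <;> rfl

/-- The fibrewise identity behind the additivity of the volume. -/
lemma fibre_add {V : Finset E3} {z : E3} (hz : z ∈ interior (hull V)) {h₁ h₂ : E3 → ℝ}
    (v₁ : Valid V h₁) (v₂ : Valid V h₂) (hv : ∀ v ∈ V, v 2 = (h₁ v + h₂ v) / 2) (y : Fin 2 → ℝ) :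
    volume {τ : ℝ | up τ y ∈ hullH V h₁} + volume {τ : ℝ | up τ y ∈ hullH V h₂} =
      2 * volume {τ : ℝ | up τ y ∈ hull V} := by
  by_cases hy : ∃ w₀, Wt V w₀ ∧ bar V w₀ (fun v => v 0) = y 0 ∧ bar V w₀ (fun v => v 1) = y 1
  · obtain ⟨w₀, hw₀, h0, h1⟩ := hy
    obtain ⟨wp, wm, H⟩ := fibre_eq hz hw₀
    have hfib : ∀ h, Valid V h → {τ : ℝ | up τ y ∈ hullH V h} = Icc (bar V wm h) (bar V wp h) := by
      intro h hh
      ext τ
      have := (H h hh).2 (up τ y) (by rw [up_0, h0]) (by rw [up_1, h1])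
      simp only [mem_ofPred_eq, mem_Icc]
      rw [this, up_2]
    have hself : ∀ w : E3 → ℝ, bar V w (fun v => v 2) = (bar V w h₁ + bar V w h₂) / 2 := by
      intro w
      simp only [bar]
      rw [← Finset.sum_add_distrib, Finset.sum_div]
      apply Finset.sum_congr rfl
      intro v hv'
      rw [hv v hv']
      ring
    have e0 := hfib _ (valid_self V)
    rw [hullH_self] at e0
    rw [hfib h₁ v₁, hfib h₂ v₂, e0, Real.volume_Icc, Real.volume_Icc, Real.volume_Icc, hself, hself]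
    have l₁ : 0 ≤ bar V wp h₁ - bar V wm h₁ := by linarith [(H h₁ v₁).1]
    have l₂ : 0 ≤ bar V wp h₂ - bar V wm h₂ := by linarith [(H h₂ v₂).1]
    rw [← ENNReal.ofReal_add l₁ l₂]
    have e : (2 : ℝ≥0∞) = ENNReal.ofReal 2 := by simp
    rw [e, ← ENNReal.ofReal_mul (by norm_num)]
    congr 1
    ring
  · have hempty : ∀ h : E3 → ℝ, {τ : ℝ | up τ y ∈ hullH V h} = ∅ := by
      intro h
      ext τ
      simp only [mem_ofPred_eq, mem_empty_iff_false, iff_false]
      intro hin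
      obtain ⟨w, hw, h0, h1, -⟩ := mem_hullH.1 hin
      exact hy ⟨w, hw, h0, h1⟩
    have e0 := hempty (fun v => v 2)
    rw [hullH_self] at e0
    rw [hempty h₁, hempty h₂, e0]
    simp

/-- Additivity of the volume along a height move. -/
theorem vol_add {V : Finset E3} {z : E3} (hz : z ∈ interior (hull V)) {h₁ h₂ : E3 → ℝ}
    (v₁ : Valid V h₁) (v₂ : Valid V h₂) (hv : ∀ v ∈ V, v 2 = (h₁ v + h₂ v) / 2) :
    (volume (hullH V h₁)).toReal + (volume (hullH V h₂)).toReal = 2 * (volume (hull V)).toReal := by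
  have hm₁ : MeasurableSet (hullH V h₁) := (hullH_compact V h₁).isClosed.measurableSet
  have hm₂ : MeasurableSet (hullH V h₂) := (hullH_compact V h₂).isClosed.measurableSet
  have hm : MeasurableSet (hull V) := (hull_compact V).isClosed.measurableSet
  have key : volume (hullH V h₁) + volume (hullH V h₂) = 2 * volume (hull V) := by
    rw [volume_eq_fib (d := 2) 2 hm₁, volume_eq_fib (d := 2) 2 hm₂, volume_eq_fib (d := 2) 2 hm,
      ← lintegral_add_left (measurable_volume_fib (d := 2) 2 hm₁),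
      ← lintegral_const_mul _ (measurable_volume_fib (d := 2) 2 hm)]
    apply lintegral_congr
    intro y
    exact fibre_add hz v₁ v₂ hv y
  have hf₁ : volume (hullH V h₁) ≠ ⊤ := (hullH_compact V h₁).measure_lt_top.ne
  have hf₂ : volume (hullH V h₂) ≠ ⊤ := (hullH_compact V h₂).measure_lt_top.ne
  have := congrArg ENNReal.toReal key
  rw [ENNReal.toReal_add hf₁ hf₂, ENNReal.toReal_mul] at this
  simpa using this

/-- **A height move preserves the lower bound.** -/
theorem move_Q {V : Finset E3} {z₀ : E3} (hz₀ : z₀ ∈ interior (hull V)) {h₁ h₂ : E3 → ℝ}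
    (v₁ : Valid V h₁) (v₂ : Valid V h₂) (hv : ∀ v ∈ V, v 2 = (h₁ v + h₂ v) / 2)
    (hi₁ : (interior (hullH V h₁)).Nonempty) (hi₂ : (interior (hullH V h₂)).Nonempty) {M : ℝ}
    (Q₁ : ∀ z ∈ interior (hullH V h₁),
      M ≤ (volume (hullH V h₁)).toReal * (volume (polarAt (hullH V h₁) z)).toReal)
    (Q₂ : ∀ z ∈ interior (hullH V h₂),
      M ≤ (volume (hullH V h₂)).toReal * (volume (polarAt (hullH V h₂) z)).toReal) :
    ∀ z ∈ interior (hull V), M ≤ (volume (hull V)).toReal * (volume (polarAt (hull V) z)).toReal := by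
  refine mix (d := 2) (j := 2) (hullH_compact V h₁) (hullH_compact V h₂) (hullH_convex V h₁)
    (hullH_convex V h₂) hi₁ hi₂ ?_ (vol_add hz₀ v₁ v₂ hv).le Q₁ Q₂
  intro s x' hx
  rw [← hullH_self] at hx
  obtain ⟨w, hw, h0, h1, h2⟩ := mem_hullH.1 hx
  refine ⟨bar V w h₁, bar V w h₂, ?_, ?_, ?_⟩
  · exact mem_hullH.2 ⟨w, hw, h0, h1, rfl⟩
  · exact mem_hullH.2 ⟨w, hw, h0, h1, rfl⟩
  · have : s = bar V w (fun v => v 2) := h2.symm
    rw [this]
    simp only [bar]
    rw [← Finset.sum_add_distrib, Finset.sum_div]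
    apply Finset.sum_congr rfl
    intro v hv'
    rw [hv v hv']
    ring

end Vale.Agent.Lib.P248
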