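import Vale.Agent.Lib.P248.Pol4

open MeasureTheory Set Function
open scoped ENNReal Pointwise

namespace Vale.Agent.Lib.P248

lemma pl_congr {x y : E3} (α β γ : ℝ) (h0 : x 0 = y 0) (h1 : x 1 = y 1) :
    pl α β γ x = pl α β γ y := by
  simp only [pl, h0, h1]

@[simp] lemma pl_lift (α β γ : ℝ) (h : E3 → ℝ) (v : E3) : pl α β γ (lift h v) = pl α β γ v := rfl

/-- A supporting plane of the lifted vertices supports the lifted polytope. -/
lemma supp_on_hullH {V : Finset E3} {h : E3 → ℝ} {σ α β γ : ℝ}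
    (hsup : ∀ v ∈ V, 0 ≤ σ * (pl α β γ v - h v)) {x : E3} (hx : x ∈ hullH V h) :
    0 ≤ σ * (pl α β γ x - x 2) := by
  obtain ⟨w, hw, h0, h1, h2⟩ := mem_hullH.1 hx
  have := bar_le_plane hw hsup
  rw [h0, h1, h2] at this
  simp only [pl]
  linarith

lemma supp_on_hull {V : Finset E3} {σ α β γ : ℝ}
    (hsup : ∀ v ∈ V, 0 ≤ σ * (pl α β γ v - v 2)) {x : E3} (hx : x ∈ hull V) :
    0 ≤ σ * (pl α β γ x - x 2) := by
  rw [← hullH_self] at hx
  exact supp_on_hullH hsup hx

open Classical in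
/-- The vertices of the lifted polytope. -/
noncomputable def vertsH (V : Finset E3) (h : E3 → ℝ) : Finset E3 :=
  (V.image (lift h)).filter (fun x => x ∈ (hullH V h).extremePoints ℝ)

lemma coe_vertsH (V : Finset E3) (h : E3 → ℝ) :
    (vertsH V h : Set E3) = (hullH V h).extremePoints ℝ := by
  classical
  ext x
  simp only [vertsH, Finset.coe_filter, mem_ofPred_eq]
  constructor
  · rintro ⟨-, h2⟩
    exact h2
  · intro h2
    refine ⟨?_, h2⟩
    have := extremePoints_convexHull_subset h2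
    exact Finset.mem_coe.1 this

lemma hull_vertsH (V : Finset E3) (h : E3 → ℝ) : hull (vertsH V h) = hullH V h :=
  hull_of_ext (hullH_compact V h) (hullH_convex V h) (coe_vertsH V h)

lemma isPoly_vertsH {V : Finset E3} {h : E3 → ℝ} (hi : (interior (hullH V h)).Nonempty) :
    IsPoly (vertsH V h) := by
  constructor
  · rw [hull_vertsH, coe_vertsH]
  · rw [hull_vertsH]
    exact hi

lemma vertsH_sub {V : Finset E3} {h : E3 → ℝ} {x : E3} (hx : x ∈ vertsH V h) :
    ∃ v ∈ V, x = lift h v := by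
  classical
  have h1 := (Finset.mem_filter.1 hx).1
  obtain ⟨v, hv, rfl⟩ := Finset.mem_image.1 h1
  exact ⟨v, hv, rfl⟩

lemma lift_mem {V : Finset E3} (h : E3 → ℝ) {v : E3} (hv : v ∈ V) : lift h v ∈ hullH V h := by
  classical
  exact mem_hull_self (Finset.mem_image_of_mem _ hv)

lemma vertsH_card_le (V : Finset E3) (h : E3 → ℝ) : (vertsH V h).card ≤ V.card := by
  classical
  exact (Finset.card_filter_le _ _).trans Finset.card_image_le

lemma exists_vec_of_lin (f : E3 →ₗ[ℝ] ℝ) : ∃ n : E3, ∀ x, f x = ip n x := by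
  refine ⟨fun i => f (fun l => if i = l then 1 else 0), fun x => ?_⟩
  have := f.pi_apply_eq_sum_univ x
  simp only [smul_eq_mul, Fin.sum_univ_three] at this
  rw [this]
  simp only [ip]
  ring

/-- A finite set whose hull has empty interior lies in a plane. -/
lemma exists_plane_of_no_interior {A : Finset E3} (hne : A.Nonempty)
    (h : ¬ (interior (hull A)).Nonempty) : ∃ a b, a ≠ 0 ∧ ∀ x ∈ A, ip a x = b := by
  rw [interior_convexHull_nonempty_iff_affineSpan_eq_top] at h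
  obtain ⟨p, hp⟩ := hne
  have hne' : ((affineSpan ℝ (A : Set E3) : AffineSubspace ℝ E3) : Set E3).Nonempty :=
    ⟨p, subset_affineSpan ℝ _ (Finset.mem_coe.2 hp)⟩
  rw [← AffineSubspace.direction_eq_top_iff_of_nonempty hne', direction_affineSpan] at h
  have hlt : vectorSpan ℝ (A : Set E3) < ⊤ := lt_top_iff_ne_top.2 h
  obtain ⟨f, hf, hle⟩ := Submodule.exists_le_ker_of_lt_top _ hlt
  obtain ⟨n, hn⟩ := exists_vec_of_lin f
  refine ⟨n, ip n p, ?_, ?_⟩
  · rintro rfl
    apply hf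
    ext x
    simp [hn, ip]
  · intro x hx
    have h1 : x - p ∈ vectorSpan ℝ (A : Set E3) :=
      vsub_mem_vectorSpan ℝ (Finset.mem_coe.2 hx) (Finset.mem_coe.2 hp)
    have h2 := hle h1
    rw [LinearMap.mem_ker, hn, ip_sub] at h2
    linarith

/-- A lifted polytope has nonempty interior as soon as the heights are not all on one plane. -/
lemma interior_of_gap {V S : Finset E3} {h : E3 → ℝ} (hV : (interior (hull V)).Nonempty)
    {σ α β γ α' β' γ' : ℝ} (hN : IsNV V S σ α β γ) (hon : ∀ u ∈ S, h u = pl α' β' γ' u) {v₁ : E3}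
    (hv₁ : v₁ ∈ V) (hgap : h v₁ ≠ pl α' β' γ' v₁) : (interior (hullH V h)).Nonempty := by
  classical
  by_contra hcon
  obtain ⟨a, b, ha, hab⟩ := exists_plane_of_no_interior (A := V.image (lift h))
    ⟨_, Finset.mem_image_of_mem _ hv₁⟩ hcon
  have hval : ∀ v ∈ V, a 0 * v 0 + a 1 * v 1 + a 2 * h v = b := by
    intro v hv
    have := hab _ (Finset.mem_image_of_mem (lift h) hv)
    simpa [ip] using this
  by_cases ha2 : a 2 = 0
  · apply not_all_on_plane hV ha (b := b)
    intro v hv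
    have := hval v hv
    rw [ha2] at this
    simp only [ip, ha2]
    linarith
  · obtain ⟨p, hp, q, hq, r, hr, hD⟩ := hN.nc
    have key : ∀ v ∈ V, h v = pl (-a 0 / a 2) (-a 1 / a 2) (b / a 2) v := by
      intro v hv
      have := hval v hv
      simp only [pl]
      field_simp
      linarith
    have hu := pl_unique hD
      (show pl (-a 0 / a 2) (-a 1 / a 2) (b / a 2) p = pl α' β' γ' p by
        rw [← key p (hN.sub hp), hon p hp])
      (show pl (-a 0 / a 2) (-a 1 / a 2) (b / a 2) q = pl α' β' γ' q by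
        rw [← key q (hN.sub hq), hon q hq])
      (show pl (-a 0 / a 2) (-a 1 / a 2) (b / a 2) r = pl α' β' γ' r by
        rw [← key r (hN.sub hr), hon r hr])
    apply hgap
    rw [key v₁ hv₁, hu.1, hu.2.1, hu.2.2]

/-- From a supporting plane with non vertical normal to a non vertical facet. -/
lemma isNV_of_plane {V S : Finset E3} {a : E3} {b : ℝ} (ha2 : a 2 ≠ 0)
    (hsup : ∀ v ∈ V, ip a v ≤ b) (hS : S = onP V a b)
    (hnc : ∃ p ∈ S, ∃ q ∈ S, ∃ r ∈ S, NC p q r) : ∃ σ α β γ, IsNV V S σ α β γ := by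
  have key : ∀ v : E3, pl (-a 0 / a 2) (-a 1 / a 2) (b / a 2) v - v 2 = (b - ip a v) / a 2 := by
    intro v
    simp only [pl]
    field_simp
    simp only [ip]
    ring
  have hσ : ∃ σ : ℝ, (σ = 1 ∨ σ = -1) ∧ 0 < σ * a 2 := by
    rcases lt_or_gt_of_ne ha2 with h | h
    · exact ⟨-1, Or.inr rfl, by linarith⟩
    · exact ⟨1, Or.inl rfl, by linarith⟩
  obtain ⟨σ, hσ, hs⟩ := hσ
  refine ⟨σ, -a 0 / a 2, -a 1 / a 2, b / a 2, hσ, ?_, ?_, ?_⟩
  · intro v hv
    rw [key]
    have h2 : σ * ((b - ip a v) / a 2) = (b - ip a v) / (σ * a 2) := by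
      rcases hσ with rfl | rfl
      · simp
      · rw [neg_one_mul, neg_one_mul, div_neg]
    rw [h2]
    apply div_nonneg _ hs.le
    linarith [hsup v hv]
  · rw [hS]
    ext v
    rw [mem_onP, Finset.mem_filter]
    have := key v
    constructor
    · rintro ⟨h1, h2⟩
      refine ⟨h1, ?_⟩
      rw [h2, sub_self, zero_div] at this
      linarith
    · rintro ⟨h1, h2⟩
      refine ⟨h1, ?_⟩
      rw [← h2, sub_self] at this
      have h3 := (div_eq_zero_iff.1 this.symm).resolve_right ha2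
      linarith
  · obtain ⟨p, hp, q, hq, r, hr, hn⟩ := hnc
    refine ⟨p, hp, q, hq, r, hr, ?_⟩
    intro hD
    rw [hS] at hp hq hr
    have h1 := (mem_onP.1 hp).2
    have h2 := (mem_onP.1 hq).2
    have h3 := (mem_onP.1 hr).2
    obtain ⟨κ, hκ⟩ := exists_mul_cr (a := a) (u := q - p) (w := r - p)
      (by rw [ip_sub]; linarith) (by rw [ip_sub]; linarith) hn
    apply ha2
    rw [hκ]
    simp only [Pi.smul_apply, smul_eq_mul]
    rw [← D2_eq_cr, hD, mul_zero]

/-- Comparison of two supporting planes of a convex set at a common point. -/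
lemma plane_compare {L : Set E3} (hL : Convex ℝ L) {σ : ℝ} (hσ : σ = 1 ∨ σ = -1)
    {a₁ b₁ c₁ a₂ b₂ c₂ : ℝ} (s₁ : ∀ x ∈ L, 0 ≤ σ * (pl a₁ b₁ c₁ x - x 2))
    (s₂ : ∀ x ∈ L, 0 ≤ σ * (pl a₂ b₂ c₂ x - x 2)) {I : Finset E3} {f : E3 → E3}
    (hI : ∀ u ∈ I, f u ∈ L ∧ f u 2 = pl a₂ b₂ c₂ (f u)) {c : E3 → ℝ} (hc : ∀ u ∈ I, 0 < c u)
    (hc1 : ∑ u ∈ I, c u = 1) {x : E3} (hx : x ∈ L) (h0 : x 0 = ∑ u ∈ I, c u * f u 0)
    (h1 : x 1 = ∑ u ∈ I, c u * f u 1) (h2 : x 2 = pl a₁ b₁ c₁ x) :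
    ∀ u ∈ I, pl a₁ b₁ c₁ (f u) = pl a₂ b₂ c₂ (f u) := by
  have hsumpl : ∀ a b d : ℝ, ∑ u ∈ I, c u * pl a b d (f u) = pl a b d x := by
    intro a b d
    simp only [pl]
    rw [h0, h1, Finset.mul_sum, Finset.mul_sum]
    have : d = ∑ u ∈ I, c u * d := by rw [← Finset.sum_mul, hc1, one_mul]
    conv_rhs => rw [this]
    rw [← Finset.sum_add_distrib, ← Finset.sum_add_distrib]
    apply Finset.sum_congr rfl
    intros
    ring
  set xb : E3 := ∑ u ∈ I, c u • f u with hxb
  have hxbL : xb ∈ L := hL.sum_mem (fun u hu => (hc u hu).le) hc1 (fun u hu => (hI u hu).1)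
  have hxb0 : xb 0 = x 0 := by
    rw [hxb, Finset.sum_apply, h0]
    simp
  have hxb1 : xb 1 = x 1 := by
    rw [hxb, Finset.sum_apply, h1]
    simp
  have hxb2 : xb 2 = pl a₂ b₂ c₂ x := by
    rw [hxb, Finset.sum_apply, ← hsumpl]
    apply Finset.sum_congr rfl
    intro u hu
    simp [(hI u hu).2]
  have A := s₂ x hx
  rw [h2] at A
  have B := s₁ xb hxbL
  rw [hxb2, pl_congr a₁ b₁ c₁ hxb0 hxb1] at B
  have hzero : σ * (pl a₁ b₁ c₁ x - pl a₂ b₂ c₂ x) = 0 := by
    apply le_antisymm _ B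
    linarith
  have hD : ∀ u ∈ I, 0 ≤ c u * (σ * (pl a₁ b₁ c₁ (f u) - pl a₂ b₂ c₂ (f u))) := by
    intro u hu
    apply mul_nonneg (hc u hu).le
    have := s₁ _ (hI u hu).1
    rwa [(hI u hu).2] at this
  have hsum : ∑ u ∈ I, c u * (σ * (pl a₁ b₁ c₁ (f u) - pl a₂ b₂ c₂ (f u))) = 0 := by
    have : ∑ u ∈ I, c u * (σ * (pl a₁ b₁ c₁ (f u) - pl a₂ b₂ c₂ (f u))) =
        σ * (∑ u ∈ I, c u * pl a₁ b₁ c₁ (f u) - ∑ u ∈ I, c u * pl a₂ b₂ c₂ (f u)) := by
      rw [← Finset.sum_sub_distrib, Finset.mul_sum]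
      apply Finset.sum_congr rfl
      intros
      ring
    rw [this, hsumpl, hsumpl, hzero]
  have hall := (Finset.sum_eq_zero_iff_of_nonneg hD).1 hsum
  intro u hu
  have h3 := (mul_eq_zero.1 (hall u hu)).resolve_left (hc u hu).ne'
  have h4 := (mul_eq_zero.1 h3).resolve_left (sg_ne hσ)
  linarith

/-- Every non vertical facet of the lifted polytope comes from a facet of `V`. -/
lemma rel_nonvertical {V T : Finset E3} {z : E3} (hz : z ∈ interior (hull V)) {h : E3 → ℝ}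
    (hh : Valid V h) {σ α' β' γ' : ℝ} (hT : IsNV (vertsH V h) T σ α' β' γ') :
    ∃ S α β γ, IsNV V S σ α β γ ∧ ∀ u ∈ S, h u = pl α' β' γ' u := by
  classical
  obtain ⟨p, hp, q, hq, r, hr, hD⟩ := hT.nc
  have hTne : T.Nonempty := ⟨p, hp⟩
  have hcard : (0 : ℝ) < T.card := by exact_mod_cast Finset.card_pos.2 hTne
  set c : E3 → ℝ := fun _ => 1 / (T.card : ℝ) with hc
  have hc1 : ∑ u ∈ T, c u = 1 := by
    simp only [hc, Finset.sum_const, nsmul_eq_mul]
    field_simp
  have hTL : ∀ u ∈ T, u ∈ hullH V h := by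
    intro u hu
    rw [← hull_vertsH]
    exact mem_hull_self (hT.sub hu)
  set xT : E3 := ∑ u ∈ T, c u • u with hxT
  have hxTL : xT ∈ hullH V h :=
    (hullH_convex V h).sum_mem (fun u _ => by simp only [hc]; positivity) hc1 hTL
  obtain ⟨w₀, hw₀, h00, h01, -⟩ := mem_hullH.1 hxTL
  obtain ⟨S, α, β, γ, w, hN, hw, h0, h1, hs⟩ := top_weights hz hT.sg hw₀
  obtain ⟨a₁, b₁, c₁, hon, hsup⟩ := hh S σ α β γ hN
  set x : E3 := ![bar V w (fun v => v 0), bar V w (fun v => v 1), bar V w h] with hx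
  have hxL : x ∈ hullH V h := mem_hullH.2 ⟨w, hw, rfl, rfl, rfl⟩
  have hx2 : x 2 = pl a₁ b₁ c₁ x := by
    have := bar_of_support hw hs hon
    simp only [pl, hx, Matrix.cons_val]
    exact this
  have hcmp := plane_compare (hullH_convex V h) hT.sg (fun y hy => supp_on_hullH hsup hy)
    (fun y hy => by
      rw [← hull_vertsH] at hy
      exact supp_on_hull hT.supp hy)
    (I := T) (f := id) (fun u hu => ⟨hTL u hu, hT.on hu⟩) (c := c)
    (fun u _ => by simp only [hc]; positivity) hc1 hxL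
    (by
      have e1 : x 0 = bar V w (fun v => v 0) := rfl
      rw [e1, h0, h00, hxT, sum_smul_apply]
      rfl)
    (by
      have e1 : x 1 = bar V w (fun v => v 1) := rfl
      rw [e1, h1, h01, hxT, sum_smul_apply]
      rfl)
    hx2
  obtain ⟨e1, e2, e3⟩ := pl_unique hD (hcmp p hp) (hcmp q hq) (hcmp r hr)
  refine ⟨S, α, β, γ, hN, fun u hu => ?_⟩
  rw [hon u hu, e1, e2, e3]

/-- The relation between facets of the lifted polytope and facets of `V`. -/
def RelF (V V' : Finset E3) (h : E3 → ℝ) (T S : Finset E3) : Prop :=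
  (∃ (a : E3) (b : ℝ), a ≠ 0 ∧ a 2 = 0 ∧ T = onP V' a b ∧ S = onP V a b) ∨
    (∃ σ α β γ α' β' γ', IsNV V S σ α β γ ∧ IsNV V' T σ α' β' γ' ∧ ∀ u ∈ S, h u = pl α' β' γ' u)

lemma rel_exists {V T : Finset E3} (hV : IsPoly V) {z : E3} (hz : z ∈ interior (hull V)) {h : E3 → ℝ}
    (hh : Valid V h) (hT : IsFacet (vertsH V h) T) :
    ∃ S, IsFacet V S ∧ RelF V (vertsH V h) h T S := by
  obtain ⟨a, b, ha, hsup, hTe, htr⟩ := hT
  by_cases ha2 : a 2 = 0
  · refine ⟨onP V a b, ?_, Or.inl ⟨a, b, ha, ha2, hTe, rfl⟩⟩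
    have hip : ∀ v, ip a (lift h v) = ip a v := by
      intro v
      simp only [ip, ha2, lift_0, lift_1, lift_2]
      ring
    refine ⟨a, b, ha, ?_, rfl, ?_⟩
    · intro v hv
      rw [← hip]
      apply ip_le_on_hull hsup
      rw [hull_vertsH]
      exact lift_mem h hv
    · obtain ⟨p', hp', q', hq', r', hr', hnc⟩ := htr
      rw [hTe] at hp' hq' hr'
      obtain ⟨hp1, hp2⟩ := mem_onP.1 hp'
      obtain ⟨hq1, hq2⟩ := mem_onP.1 hq'
      obtain ⟨hr1, hr2⟩ := mem_onP.1 hr'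
      obtain ⟨p, hp, rfl⟩ := vertsH_sub hp1
      obtain ⟨q, hq, rfl⟩ := vertsH_sub hq1
      obtain ⟨r, hr, rfl⟩ := vertsH_sub hr1
      rw [hip] at hp2 hq2 hr2
      refine ⟨p, mem_onP.2 ⟨hp, hp2⟩, q, mem_onP.2 ⟨hq, hq2⟩, r, mem_onP.2 ⟨hr, hr2⟩, ?_⟩
      apply hV.nc_of_distinct hp hq hr
      · rintro rfl
        exact hnc.ne_left rfl
      · rintro rfl
        exact hnc.ne_right rfl
      · rintro rfl
        exact hnc.ne_mid rfl
  · obtain ⟨σ, α', β', γ', hN⟩ := isNV_of_plane ha2 hsup hTe htr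
    obtain ⟨S, α, β, γ, hS, hon⟩ := rel_nonvertical hz hh hN
    exact ⟨S, hS.isFacet, Or.inr ⟨σ, α, β, γ, α', β', γ', hS, hN, hon⟩⟩

/-- A non vertical facet is not contained in a vertical plane. -/
lemma not_vertical_of_NV {V S : Finset E3} {σ α β γ : ℝ} (hN : IsNV V S σ α β γ) {a : E3} {b : ℝ}
    (ha : a ≠ 0) (ha2 : a 2 = 0) (hS : S = onP V a b) : False := by
  obtain ⟨p, hp, q, hq, r, hr, hD⟩ := hN.nc
  rw [hS] at hp hq hr
  have h1 := (mem_onP.1 hp).2
  have h2 := (mem_onP.1 hq).2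
  have h3 := (mem_onP.1 hr).2
  simp only [ip, ha2, zero_mul, add_zero] at h1 h2 h3
  have h4 : a 0 * D2 p q r = 0 := by
    simp only [D2]
    linear_combination (r 1 - p 1) * (h2 - h1) - (q 1 - p 1) * (h3 - h1)
  have h5 : a 1 * D2 p q r = 0 := by
    simp only [D2]
    linear_combination (-(r 0 - p 0)) * (h2 - h1) + (q 0 - p 0) * (h3 - h1)
  have h6 := (mul_eq_zero.1 h4).resolve_right hD
  have h7 := (mul_eq_zero.1 h5).resolve_right hD
  exact ha (ext3 h6 h7 ha2)

lemma rel_inj {V V' T T₂ S : Finset E3} {h : E3 → ℝ} (hS : IsFacet V S) (h₁ : RelF V V' h T S)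
    (h₂ : RelF V V' h T₂ S) : T = T₂ := by
  rcases h₁ with ⟨a, b, ha, ha2, hT, hSe⟩ | ⟨σ, α, β, γ, α', β', γ', hN, hNT, hon⟩
  · rcases h₂ with ⟨a₂, b₂, ha₂, ha₂2, hT₂, hSe₂⟩ | ⟨σ, α, β, γ, α', β', γ', hN, hNT, hon⟩
    · obtain ⟨-, -, -, -, -, p, hp, q, hq, r, hr, hnc⟩ := hS
      have hp' := hp
      have hq' := hq
      have hr' := hr
      rw [hSe] at hp hq hr
      rw [hSe₂] at hp' hq' hr'
      obtain ⟨μ, h1, h2⟩ := plane_unique hnc ha (mem_onP.1 hp).2 (mem_onP.1 hq).2 (mem_onP.1 hr).2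
        (mem_onP.1 hp').2 (mem_onP.1 hq').2 (mem_onP.1 hr').2
      have hμ : μ ≠ 0 := by
        rintro rfl
        apply ha₂
        rw [h1, zero_smul]
      rw [hT, hT₂]
      exact (onP_congr hμ h1 h2).symm
    · exact (not_vertical_of_NV hN ha ha2 hSe).elim
  · rcases h₂ with ⟨a₂, b₂, ha₂, ha₂2, hT₂, hSe₂⟩ | ⟨σ₂, α₂, β₂, γ₂, α₂', β₂', γ₂', hN₂, hNT₂, hon₂⟩
    · exact (not_vertical_of_NV hN ha₂ ha₂2 hSe₂).elim
    · obtain ⟨p, hp, q, hq, r, hr, hD⟩ := hN.nc
      obtain ⟨e1, e2, e3⟩ := pl_unique hD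
        (show pl α' β' γ' p = pl α₂' β₂' γ₂' p by rw [← hon p hp, hon₂ p hp])
        (show pl α' β' γ' q = pl α₂' β₂' γ₂' q by rw [← hon q hq, hon₂ q hq])
        (show pl α' β' γ' r = pl α₂' β₂' γ₂' r by rw [← hon r hr, hon₂ r hr])
      rw [hNT.eq, hNT₂.eq, e1, e2, e3]

/-- The projection to the first two coordinates. -/
def pr (x : E3) : E3 := ![x 0, x 1, 0]

/-- When the lift keeps all vertices, a tight vertex yields a second facet with the same plane. -/
lemma exists_second_facet {V S₀ : Finset E3} {z : E3} (hz : z ∈ interior (hull V)) {h : E3 → ℝ}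
    (hh : Valid V h) {σ α β γ α' β' γ' : ℝ} (hN : IsNV V S₀ σ α β γ)
    (hon : ∀ u ∈ S₀, h u = pl α' β' γ' u) (hsup : ∀ v ∈ V, 0 ≤ σ * (pl α' β' γ' v - h v)) {v₀ : E3}
    (hv₀ : v₀ ∈ V) (hv₀S : v₀ ∉ S₀) (htight : h v₀ = pl α' β' γ' v₀)
    (hcard : (vertsH V h).card = V.card) :
    ∃ S₁ α₁ β₁ γ₁, S₁ ≠ S₀ ∧ IsNV V S₁ σ α₁ β₁ γ₁ ∧ ∀ u ∈ S₁, h u = pl α' β' γ' u := by
  classical
  -- the lift is injective and keeps all vertices
  have hsub : vertsH V h ⊆ V.image (lift h) := Finset.filter_subset _ _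
  have hle : (V.image (lift h)).card ≤ V.card := Finset.card_image_le
  have hcardim : (V.image (lift h)).card = V.card := by
    apply le_antisymm hle
    rw [← hcard]
    exact Finset.card_le_card hsub
  have hinj : Set.InjOn (lift h) (V : Set E3) := Finset.card_image_iff.1 hcardim
  have hvE : vertsH V h = V.image (lift h) :=
    Finset.eq_of_subset_of_card_le hsub (by rw [hcardim, hcard])
  have hext : ∀ v ∈ V, lift h v ∈ (hullH V h).extremePoints ℝ := by
    intro v hv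
    rw [← coe_vertsH, hvE]
    exact Finset.mem_coe.2 (Finset.mem_image_of_mem _ hv)
  obtain ⟨p, hp, q, hq, r, hr, hD⟩ := hN.nc
  have hS₀ne : S₀.Nonempty := ⟨p, hp⟩
  set C : Set E3 := hull (S₀.image pr) with hC
  have hCcl : IsClosed C := (hull_compact _).isClosed
  by_cases hin : pr v₀ ∈ C
  · exfalso
    obtain ⟨w, hw, hwe⟩ := mem_hull_image.1 hin
    have h0 : ∑ u ∈ S₀, w u * u 0 = v₀ 0 := by
      have := congrFun hwe 0
      rw [sum_smul_apply] at this
      exact this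
    have h1 : ∑ u ∈ S₀, w u * u 1 = v₀ 1 := by
      have := congrFun hwe 1
      rw [sum_smul_apply] at this
      exact this
    have h2 : ∑ u ∈ S₀, w u * h u = h v₀ := by
      rw [htight]
      have e : ∀ u ∈ S₀, w u * h u = α' * (w u * u 0) + β' * (w u * u 1) + γ' * w u := by
        intro u hu
        rw [hon u hu]
        simp only [pl]
        ring
      rw [Finset.sum_congr rfl e, Finset.sum_add_distrib, Finset.sum_add_distrib,
        ← Finset.mul_sum, ← Finset.mul_sum, ← Finset.mul_sum, h0, h1, hw.2]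
      simp only [pl]
      ring
    have hmem : lift h v₀ ∈ hull (S₀.image (lift h)) := by
      rw [mem_hull_image]
      refine ⟨w, hw, ?_⟩
      apply ext3
      · rw [sum_smul_apply]; exact h0
      · rw [sum_smul_apply]; exact h1
      · rw [sum_smul_apply]; exact h2
    have hex := hext v₀ hv₀
    rw [(hullH_convex V h).mem_extremePoints_iff_mem_sdiff_convexHull_sdiff] at hex
    apply hex.2
    refine convexHull_mono ?_ hmem
    intro x hx
    obtain ⟨u, hu, rfl⟩ := Finset.mem_image.1 (Finset.mem_coe.1 hx)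
    refine ⟨lift_mem h (hN.sub hu), ?_⟩
    intro hne
    have : u = v₀ := hinj (Finset.mem_coe.2 (hN.sub hu)) (Finset.mem_coe.2 hv₀) hne
    exact hv₀S (this ▸ hu)
  · -- a point close to the projection of `v₀`, outside `C`
    have hScard : (0 : ℝ) < S₀.card := by exact_mod_cast Finset.card_pos.2 hS₀ne
    set c₀ : E3 := ∑ u ∈ S₀, (1 / (S₀.card : ℝ)) • pr u with hc₀
    have hcont : Continuous (fun ε : ℝ => (1 - ε) • pr v₀ + ε • c₀) := by fun_prop
    have hopen : IsOpen ((fun ε : ℝ => (1 - ε) • pr v₀ + ε • c₀) ⁻¹' Cᶜ) :=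
      hCcl.isOpen_compl.preimage hcont
    have h00 : (0:ℝ) ∈ (fun ε : ℝ => (1 - ε) • pr v₀ + ε • c₀) ⁻¹' Cᶜ := by
      simpa using hin
    obtain ⟨δ, hδ, hball⟩ := Metric.isOpen_iff.1 hopen 0 h00
    set ε : ℝ := min (δ / 2) (1 / 2) with hε
    have hε0 : 0 < ε := lt_min (by positivity) (by norm_num)
    have hε1 : ε < 1 := lt_of_le_of_lt (min_le_right _ _) (by norm_num)
    have hεδ : ε ∈ Metric.ball (0:ℝ) δ := by
      rw [Metric.mem_ball, Real.dist_eq, sub_zero, abs_of_pos hε0]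
      exact lt_of_le_of_lt (min_le_left _ _) (by linarith)
    have hyC : (1 - ε) • pr v₀ + ε • c₀ ∉ C := hball hεδ
    -- the weights on `v₀` and `S₀`
    set I := insert v₀ S₀ with hI
    set c : E3 → ℝ := fun u => if u = v₀ then 1 - ε else ε / (S₀.card : ℝ) with hc
    have hcS : ∀ u ∈ S₀, c u = ε / (S₀.card : ℝ) := by
      intro u hu
      have : u ≠ v₀ := fun e => hv₀S (e ▸ hu)
      simp only [hc, this, if_false]
    have hcv : c v₀ = 1 - ε := by simp [hc]
    have hsumI : ∀ φ : E3 → ℝ, ∑ u ∈ I, c u * φ u =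
        (1 - ε) * φ v₀ + ε * ∑ u ∈ S₀, (1 / (S₀.card : ℝ)) * φ u := by
      intro φ
      rw [hI, Finset.sum_insert hv₀S, hcv, Finset.mul_sum]
      congr 1
      apply Finset.sum_congr rfl
      intro u hu
      rw [hcS u hu]
      ring
    have hc1 : ∑ u ∈ I, c u = 1 := by
      have := hsumI (fun _ => 1)
      simp only [mul_one, Finset.sum_const, nsmul_eq_mul] at this
      rw [this]
      field_simp
      ring
    have hcpos : ∀ u ∈ I, 0 < c u := by
      intro u hu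
      rcases Finset.mem_insert.1 hu with rfl | hu
      · rw [hcv]; linarith
      · rw [hcS u hu]; positivity
    -- weights on all of `V`
    set w₀ : E3 → ℝ := fun u => if u ∈ I then c u else 0 with hw₀def
    have hIV : I ⊆ V := Finset.insert_subset hv₀ hN.sub
    have hbar₀ : ∀ φ : E3 → ℝ, bar V w₀ φ = ∑ u ∈ I, c u * φ u := by
      intro φ
      simp only [bar, hw₀def]
      rw [← Finset.sum_subset hIV]
      · apply Finset.sum_congr rfl
        intro u hu
        simp [hu]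
      · intro u _ hu
        simp [hu]
    have hw₀ : Wt V w₀ := by
      constructor
      · intro v _
        simp only [hw₀def]
        split_ifs with h3
        · exact (hcpos v h3).le
        · exact le_rfl
      · have := hbar₀ (fun _ => 1)
        simp only [bar, mul_one] at this
        rw [this, hc1]
    obtain ⟨S₁, α₁, β₁, γ₁, w₁, hN₁, hw₁, h0, h1, hs₁⟩ := top_weights hz hN.sg hw₀
    obtain ⟨a₁, b₁, d₁, hon₁, hsup₁⟩ := hh S₁ σ α₁ β₁ γ₁ hN₁
    set x : E3 := ![bar V w₁ (fun v => v 0), bar V w₁ (fun v => v 1), bar V w₁ h] with hx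
    have hxL : x ∈ hullH V h := mem_hullH.2 ⟨w₁, hw₁, rfl, rfl, rfl⟩
    have hx2 : x 2 = pl a₁ b₁ d₁ x := by
      have := bar_of_support hw₁ hs₁ hon₁
      simp only [pl, hx, Matrix.cons_val]
      exact this
    have hcmp := plane_compare (hullH_convex V h) hN.sg (fun y hy => supp_on_hullH hsup₁ hy)
      (fun y hy => supp_on_hullH hsup hy) (I := I) (f := lift h)
      (fun u hu => ⟨lift_mem h (hIV hu), by
        rcases Finset.mem_insert.1 hu with rfl | hu
        · simpa using htight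
        · simpa using hon u hu⟩) hcpos hc1 hxL
      (by
        have e1 : x 0 = bar V w₁ (fun v => v 0) := rfl
        rw [e1, h0, hbar₀]
        rfl)
      (by
        have e1 : x 1 = bar V w₁ (fun v => v 1) := rfl
        rw [e1, h1, hbar₀]
        rfl)
      hx2
    have hcmp' : ∀ u ∈ S₀, pl a₁ b₁ d₁ u = pl α' β' γ' u := by
      intro u hu
      exact hcmp u (Finset.mem_insert_of_mem hu)
    obtain ⟨e1, e2, e3⟩ := pl_unique hD (hcmp' p hp) (hcmp' q hq) (hcmp' r hr)
    refine ⟨S₁, α₁, β₁, γ₁, ?_, hN₁, fun u hu => ?_⟩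
    · rintro rfl
      apply hyC
      -- the point lies in `C`
      rw [hC, mem_hull_image]
      refine ⟨w₁, ⟨fun u hu => hw₁.1 u (hN.sub hu), ?_⟩, ?_⟩
      · have := hw₁.2
        rw [← Finset.sum_subset hN.sub] at this
        · exact this
        · intro v hv hvS
          by_contra hne
          exact hvS (hs₁ v hv hne)
      · have hsupp : ∀ φ : E3 → ℝ, ∑ u ∈ S₁, w₁ u * φ u = bar V w₁ φ := by
          intro φ
          apply Finset.sum_subset hN.sub
          intro v hv hvS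
          have : w₁ v = 0 := by
            by_contra hne
            exact hvS (hs₁ v hv hne)
          rw [this, zero_mul]
        have hpr : ∀ φ : E3 → ℝ, (1 - ε) * φ v₀ + ε * ∑ u ∈ S₁, (1 / (S₁.card : ℝ)) * φ u =
            bar V w₀ φ := by
          intro φ
          rw [hbar₀, hsumI]
        apply ext3
        · rw [sum_smul_apply]
          have e5 : ∑ u ∈ S₁, w₁ u * pr u 0 = bar V w₁ (fun v => v 0) := hsupp (fun v => v 0)
          rw [e5, h0, ← hpr]
          simp only [Pi.add_apply, Pi.smul_apply, smul_eq_mul, hc₀, Finset.sum_apply]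
          rfl
        · rw [sum_smul_apply]
          have e5 : ∑ u ∈ S₁, w₁ u * pr u 1 = bar V w₁ (fun v => v 1) := hsupp (fun v => v 1)
          rw [e5, h1, ← hpr]
          simp only [Pi.add_apply, Pi.smul_apply, smul_eq_mul, hc₀, Finset.sum_apply]
          rfl
        · rw [sum_smul_apply]
          simp [pr, hc₀, Finset.sum_apply]
    · rw [hon₁ u hu, e1, e2, e3]

/-- **Complexity decreases along a tight height.** -/
theorem cplx_lt {V S₀ : Finset E3} (hV : IsPoly V) {z : E3} (hz : z ∈ interior (hull V)) {h : E3 → ℝ}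
    (hh : Valid V h) {σ α β γ α' β' γ' : ℝ} (hN : IsNV V S₀ σ α β γ)
    (hon : ∀ u ∈ S₀, h u = pl α' β' γ' u) (hsup : ∀ v ∈ V, 0 ≤ σ * (pl α' β' γ' v - h v)) {v₀ : E3}
    (hv₀ : v₀ ∈ V) (hv₀S : v₀ ∉ S₀) (htight : h v₀ = pl α' β' γ' v₀) :
    cplx (vertsH V h) < cplx V := by
  classical
  set V' := vertsH V h with hV'
  have hex : ∀ T ∈ Fac V', ∃ S, S ∈ Fac V ∧ RelF V V' h T S := by
    intro T hT
    obtain ⟨S, hS, hR⟩ := rel_exists hV hz hh (mem_Fac.1 hT)
    exact ⟨S, mem_Fac.2 hS, hR⟩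
  choose! f hf hfR using hex
  have hinj : Set.InjOn f (Fac V' : Set (Finset E3)) := by
    intro T hT T₂ hT₂ he
    have h1 := hfR T hT
    have h2 := hfR T₂ hT₂
    rw [← he] at h2
    exact rel_inj (mem_Fac.1 (hf T hT)) h1 h2
  have hcardim : ((Fac V').image f).card = (Fac V').card := Finset.card_image_of_injOn hinj
  have hsub : (Fac V').image f ⊆ Fac V := by
    intro S hS
    obtain ⟨T, hT, rfl⟩ := Finset.mem_image.1 hS
    exact hf T hT
  have hle : (Fac V').card ≤ (Fac V).card := by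
    rw [← hcardim]
    exact Finset.card_le_card hsub
  unfold cplx
  by_cases hcard : V'.card = V.card
  · obtain ⟨S₁, α₁, β₁, γ₁, hne, hN₁, hon₁⟩ :=
      exists_second_facet hz hh hN hon hsup hv₀ hv₀S htight hcard
    have hS₀F : S₀ ∈ Fac V := mem_Fac.2 hN.isFacet
    have hS₁F : S₁ ∈ Fac V := mem_Fac.2 hN₁.isFacet
    -- one of the two facets is missed
    have hmiss : ¬ (S₀ ∈ (Fac V').image f ∧ S₁ ∈ (Fac V').image f) := by
      rintro ⟨h0, h1⟩
      obtain ⟨T₀, hT₀, he₀⟩ := Finset.mem_image.1 h0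
      obtain ⟨T₁, hT₁, he₁⟩ := Finset.mem_image.1 h1
      have hR₀ := hfR T₀ hT₀
      have hR₁ := hfR T₁ hT₁
      rw [he₀] at hR₀
      rw [he₁] at hR₁
      have key : ∀ {S T : Finset E3} {σ₁ a b c : ℝ}, IsNV V S σ₁ a b c →
          (∀ u ∈ S, h u = pl α' β' γ' u) → RelF V V' h T S →
          T = V'.filter (fun v => v 2 = pl α' β' γ' v) := by
        intro S T σ₁ a b c hNS honS hR
        rcases hR with ⟨a₂, b₂, ha₂, ha₂2, -, hSe⟩ | ⟨σ₂, α₂, β₂, γ₂, α₂', β₂', γ₂', hN₂, hNT₂, hon₂⟩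
        · exact (not_vertical_of_NV hNS ha₂ ha₂2 hSe).elim
        · obtain ⟨p, hp, q, hq, r, hr, hD⟩ := hNS.nc
          obtain ⟨e1, e2, e3⟩ := pl_unique hD
            (show pl α₂' β₂' γ₂' p = pl α' β' γ' p by rw [← hon₂ p hp, honS p hp])
            (show pl α₂' β₂' γ₂' q = pl α' β' γ' q by rw [← hon₂ q hq, honS q hq])
            (show pl α₂' β₂' γ₂' r = pl α' β' γ' r by rw [← hon₂ r hr, honS r hr])
          rw [hNT₂.eq, e1, e2, e3]
      have e₀ := key hN hon hR₀
      have e₁ := key hN₁ hon₁ hR₁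
      have hT : T₀ = T₁ := e₀.trans e₁.symm
      apply hne
      rw [← he₀, ← he₁, hT]
    have hlt : ((Fac V').image f).card < (Fac V).card := by
      apply Finset.card_lt_card
      refine ⟨hsub, fun hcon => hmiss ⟨hcon hS₀F, hcon hS₁F⟩⟩
    rw [hcardim] at hlt
    omega
  · have : V'.card ≤ V.card := vertsH_card_le V h
    omega

end Vale.Agent.Lib.P248
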