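import Vale.Agent.Lib.P248.Pol5

open MeasureTheory Set Function
open scoped ENNReal Pointwise

namespace Vale.Agent.Lib.P248

/-- A linear functional separating the points of a finite set. -/
lemma exists_injective_functional (V : Finset E3) :
    ∃ l : E3, ∀ u ∈ V, ∀ v ∈ V, u ≠ v → ip l u ≠ ip l v := by
  classical
  let F : E3 → Submodule ℝ E3 := fun d => LinearMap.ker
    ((LinearMap.proj 0 : E3 →ₗ[ℝ] ℝ).smulRight (d 0) + (LinearMap.proj 1 : E3 →ₗ[ℝ] ℝ).smulRight (d 1) +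
      (LinearMap.proj 2 : E3 →ₗ[ℝ] ℝ).smulRight (d 2))
  have hF : ∀ d l, l ∈ F d ↔ ip l d = 0 := by
    intro d l
    simp only [F, LinearMap.mem_ker, LinearMap.add_apply, LinearMap.smulRight_apply,
      LinearMap.proj_apply, smul_eq_mul, ip]
  let D : Finset E3 := ((V ×ˢ V).filter (fun p => p.1 ≠ p.2)).image (fun p => p.1 - p.2)
  have hD0 : ∀ d ∈ D, d ≠ 0 := by
    intro d hd
    obtain ⟨p, hp, rfl⟩ := Finset.mem_image.1 hd
    exact sub_ne_zero.2 (Finset.mem_filter.1 hp).2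
  have htop : (⊤ : Submodule ℝ E3) ∉ D.image F := by
    intro h
    obtain ⟨d, hd, he⟩ := Finset.mem_image.1 h
    have h1 : d ∈ F d := by
      rw [he]
      exact Submodule.mem_top
    rw [hF] at h1
    exact (ip_self_pos (hD0 d hd)).ne' h1
  have hne := Subspace.biUnion_ne_univ_of_top_notMem htop
  obtain ⟨l, hl⟩ := (Set.ne_univ_iff_exists_notMem _).1 hne
  refine ⟨l, fun u hu v hv huv he => hl ?_⟩
  simp only [mem_iUnion]
  refine ⟨F (u - v), ?_, ?_⟩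
  · apply Finset.mem_image.2
    refine ⟨u - v, ?_, rfl⟩
    exact Finset.mem_image.2 ⟨(u, v), Finset.mem_filter.2 ⟨Finset.mem_product.2 ⟨hu, hv⟩, huv⟩, rfl⟩
  · show l ∈ (F (u - v) : Set E3)
    rw [SetLike.mem_coe, hF, ip_sub, he, sub_self]

/-- The core of the argument: three vectors in a plane cannot be mutually on the inner sides. -/
lemma no_three_core {l a₁ a₂ a₃ u₁ u₂ u₃ : E3} (hl : l ≠ 0) (h₁ : ip l u₁ = 0) (h₂ : ip l u₂ = 0)
    (h₃ : ip l u₃ = 0) (hu₁ : u₁ ≠ 0) (e₁ : ip a₁ u₁ = 0) (e₂ : ip a₂ u₂ = 0) (e₃ : ip a₃ u₃ = 0)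
    (h12 : ip a₁ u₂ < 0) (h13 : ip a₁ u₃ < 0) (h21 : ip a₂ u₁ < 0) (h23 : ip a₂ u₃ < 0)
    (h31 : ip a₃ u₁ < 0) (h32 : ip a₃ u₂ < 0) : False := by
  set α := ip l (cr u₂ u₃) with hα
  set β := ip l (cr u₃ u₁) with hβ
  set γ := ip l (cr u₁ u₂) with hγ
  set det := ip u₁ (cr u₂ u₃) with hdet
  simp only [ip] at h₁ h₂ h₃
  have hd0 : det * l 0 = 0 := by
    simp only [hdet, ip, cr_0, cr_1, cr_2]
    linear_combination (u₂ 1 * u₃ 2 - u₂ 2 * u₃ 1) * h₁ + (u₃ 1 * u₁ 2 - u₃ 2 * u₁ 1) * h₂ + (u₁ 1 * u₂ 2 - u₁ 2 * u₂ 1) * h₃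
  have hd1 : det * l 1 = 0 := by
    simp only [hdet, ip, cr_0, cr_1, cr_2]
    linear_combination (u₂ 2 * u₃ 0 - u₂ 0 * u₃ 2) * h₁ + (u₃ 2 * u₁ 0 - u₃ 0 * u₁ 2) * h₂ + (u₁ 2 * u₂ 0 - u₁ 0 * u₂ 2) * h₃
  have hd2 : det * l 2 = 0 := by
    simp only [hdet, ip, cr_0, cr_1, cr_2]
    linear_combination (u₂ 0 * u₃ 1 - u₂ 1 * u₃ 0) * h₁ + (u₃ 0 * u₁ 1 - u₃ 1 * u₁ 0) * h₂ + (u₁ 0 * u₂ 1 - u₁ 1 * u₂ 0) * h₃
  have hdz : det = 0 := by
    rcases ne3 hl with h | h | h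
    · exact (mul_eq_zero.1 hd0).resolve_right h
    · exact (mul_eq_zero.1 hd1).resolve_right h
    · exact (mul_eq_zero.1 hd2).resolve_right h
  have R : ∀ a : E3, α * ip a u₁ + β * ip a u₂ + γ * ip a u₃ = det * ip a l := by
    intro a
    simp only [hα, hβ, hγ, hdet, ip, cr_0, cr_1, cr_2]
    ring
  have R₁ := R a₁
  have R₂ := R a₂
  have R₃ := R a₃
  rw [hdz, zero_mul, e₁] at R₁
  rw [hdz, zero_mul, e₂] at R₂
  rw [hdz, zero_mul, e₃] at R₃
  rcases lt_trichotomy γ 0 with hg | hg | hg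
  · have hb : 0 < β := by
      by_contra hc
      push Not at hc
      nlinarith [mul_nonneg_of_nonpos_of_nonpos hc h12.le, mul_pos_of_neg_of_neg hg h13]
    have ha : 0 < α := by
      by_contra hc
      push Not at hc
      nlinarith [mul_nonneg_of_nonpos_of_nonpos hc h21.le, mul_pos_of_neg_of_neg hg h23]
    nlinarith [mul_pos ha (neg_pos.2 h31), mul_pos hb (neg_pos.2 h32)]
  · -- all parallel
    have hcr : cr u₁ u₂ = 0 := by
      by_contra hne
      obtain ⟨κ, hκ⟩ := exists_mul_cr (a := l) (u := u₁) (w := u₂) (by simpa [ip] using h₁)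
        (by simpa [ip] using h₂) hne
      have hκ0 : κ ≠ 0 := by
        rintro rfl
        apply hl
        rw [hκ, zero_smul]
      have h5 : γ = κ * ip (cr u₁ u₂) (cr u₁ u₂) := by
        rw [hγ]
        nth_rewrite 1 [hκ]
        rw [smul_ip]
      rw [h5] at hg
      rcases mul_eq_zero.1 hg with h6 | h6
      · exact hκ0 h6
      · exact (ip_self_pos hne).ne' h6
    obtain ⟨μ, hμ⟩ := par_of_cr_zero hcr hu₁
    rw [hμ, ip_smul, e₁, mul_zero] at h12
    exact lt_irrefl _ h12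
  · have hb : β < 0 := by
      by_contra hc
      push Not at hc
      nlinarith [mul_nonneg hc (neg_pos.2 h12).le, mul_pos hg (neg_pos.2 h13)]
    have ha : α < 0 := by
      by_contra hc
      push Not at hc
      nlinarith [mul_nonneg hc (neg_pos.2 h21).le, mul_pos hg (neg_pos.2 h23)]
    nlinarith [mul_pos_of_neg_of_neg ha h31, mul_pos_of_neg_of_neg hb h32]

/-- The vector from a vertex to the chord of a facet at the level of the vertex. -/
lemma chord {V S : Finset E3} (hV : IsPoly V) {l v t b : E3} (hv : v ∈ V) (ht : t ∈ S) (hb : b ∈ S)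
    (hSV : S ⊆ V) (h1 : ip l b < ip l v) (h2 : ip l v < ip l t) :
    ∃ u : E3, ip l u = 0 ∧ u ≠ 0 ∧ NC v t b ∧ ∃ τ s : ℝ, 0 < τ ∧ 0 < s ∧ τ + s = 1 ∧
      u = τ • (t - v) + s • (b - v) := by
  have hd : 0 < ip l t - ip l b := by linarith
  set τ := (ip l v - ip l b) / (ip l t - ip l b) with hτ
  set s := (ip l t - ip l v) / (ip l t - ip l b) with hs
  have hτ0 : 0 < τ := div_pos (by linarith) hd
  have hs0 : 0 < s := div_pos (by linarith) hd
  have hsum : τ + s = 1 := by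
    rw [hτ, hs]
    field_simp
    ring
  have hnevt : v ≠ t := by
    rintro rfl
    exact lt_irrefl _ h2
  have hnevb : v ≠ b := by
    rintro rfl
    exact lt_irrefl _ h1
  have hnetb : t ≠ b := by
    rintro rfl
    linarith
  refine ⟨τ • (t - v) + s • (b - v), ?_, ?_, hV.nc_of_distinct hv (hSV ht) (hSV hb) hnevt hnevb hnetb,
    τ, s, hτ0, hs0, hsum, rfl⟩
  · rw [ip_add, ip_smul, ip_smul, ip_sub, ip_sub, hτ, hs]
    field_simp
    ring
  · intro h0
    have h3 : τ • t + s • b = v := by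
      have e : τ • t + s • b = τ • (t - v) + s • (b - v) + (τ + s) • v := by
        ext i
        simp only [Pi.add_apply, Pi.smul_apply, Pi.sub_apply, smul_eq_mul]
        ring
      rw [e, h0, hsum, zero_add, one_smul]
    have := extreme_combo (hV.ext_of_mem hv) (mem_hull_self (hSV ht)) (mem_hull_self (hSV hb)) hτ0 hs0
      hsum h3
    exact hnevt this.1.symm

/-- Values of a normal on the chord vector of another facet. -/
lemma chord_value {V S S' : Finset E3} {a' : E3} {b' : ℝ} (hS : IsFacet V S) (hS' : IsFacet V S')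
    (hsup : ∀ x ∈ V, ip a' x ≤ b') (hSe : S' = onP V a' b') {v t b u : E3} (hv : v ∈ S)
    (ht : t ∈ S) (hb : b ∈ S) (hv' : v ∈ S') (hnc : NC v t b) {τ s : ℝ} (hτ : 0 < τ) (hs : 0 < s)
    (hu : u = τ • (t - v) + s • (b - v)) (hne : S ≠ S') : ip a' u < 0 := by
  have hSV := hS.subset
  have h1 : ip a' v = b' := by
    rw [hSe] at hv'
    exact (mem_onP.1 hv').2
  have h2 := hsup t (hSV ht)
  have h3 := hsup b (hSV hb)
  have e : ip a' u = τ * (ip a' t - b') + s * (ip a' b - b') := by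
    rw [hu, ip_add, ip_smul, ip_smul, ip_sub, ip_sub, h1]
  rw [e]
  by_contra hcon
  push Not at hcon
  have h4 : τ * (ip a' t - b') ≤ 0 := mul_nonpos_of_nonneg_of_nonpos hτ.le (by linarith)
  have h5 : s * (ip a' b - b') ≤ 0 := mul_nonpos_of_nonneg_of_nonpos hs.le (by linarith)
  have h6 : τ * (ip a' t - b') = 0 := by linarith
  have h7 : s * (ip a' b - b') = 0 := by linarith
  have h8 : ip a' t = b' := by
    have := (mul_eq_zero.1 h6).resolve_left hτ.ne'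
    linarith
  have h9 : ip a' b = b' := by
    have := (mul_eq_zero.1 h7).resolve_left hs.ne'
    linarith
  apply hne
  refine hS.eq_of_triple hS' hnc hv ht hb hv' ?_ ?_
  · rw [hSe]
    exact mem_onP.2 ⟨hSV ht, h8⟩
  · rw [hSe]
    exact mem_onP.2 ⟨hSV hb, h9⟩

/-- A vertex is strictly between the extremes of at most two facets. -/
lemma no_three {V : Finset E3} (hV : IsPoly V) {l v : E3} (hl : l ≠ 0) (hv : v ∈ V)
    {S₁ S₂ S₃ : Finset E3} (h₁ : IsFacet V S₁) (h₂ : IsFacet V S₂) (h₃ : IsFacet V S₃)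
    (h12 : S₁ ≠ S₂) (h13 : S₁ ≠ S₃) (h23 : S₂ ≠ S₃)
    (hv₁ : v ∈ S₁ ∧ ∃ t ∈ S₁, ∃ b ∈ S₁, ip l b < ip l v ∧ ip l v < ip l t)
    (hv₂ : v ∈ S₂ ∧ ∃ t ∈ S₂, ∃ b ∈ S₂, ip l b < ip l v ∧ ip l v < ip l t)
    (hv₃ : v ∈ S₃ ∧ ∃ t ∈ S₃, ∃ b ∈ S₃, ip l b < ip l v ∧ ip l v < ip l t) : False := by
  obtain ⟨hvS₁, t₁, ht₁, b₁, hb₁, l₁, r₁⟩ := hv₁
  obtain ⟨hvS₂, t₂, ht₂, b₂, hb₂, l₂, r₂⟩ := hv₂
  obtain ⟨hvS₃, t₃, ht₃, b₃, hb₃, l₃, r₃⟩ := hv₃
  obtain ⟨u₁, e₁, ne₁, nc₁, τ₁, s₁, hτ₁, hs₁, -, hu₁⟩ := chord hV hv ht₁ hb₁ h₁.subset l₁ r₁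
  obtain ⟨u₂, e₂, ne₂, nc₂, τ₂, s₂, hτ₂, hs₂, -, hu₂⟩ := chord hV hv ht₂ hb₂ h₂.subset l₂ r₂
  obtain ⟨u₃, e₃, ne₃, nc₃, τ₃, s₃, hτ₃, hs₃, -, hu₃⟩ := chord hV hv ht₃ hb₃ h₃.subset l₃ r₃
  have h₁' := h₁
  have h₂' := h₂
  have h₃' := h₃
  obtain ⟨a₁, c₁, ha₁, hsup₁, hS₁, -⟩ := h₁'
  obtain ⟨a₂, c₂, ha₂, hsup₂, hS₂, -⟩ := h₂'
  obtain ⟨a₃, c₃, ha₃, hsup₃, hS₃, -⟩ := h₃'
  have self : ∀ {S : Finset E3} {a : E3} {c : ℝ} {t b u : E3} {τ s : ℝ}, S = onP V a c → v ∈ S → t ∈ S →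
      b ∈ S → u = τ • (t - v) + s • (b - v) → ip a u = 0 := by
    intro S a c t b u τ s hS h1 h2 h3 hu
    rw [hS] at h1 h2 h3
    rw [hu, ip_add, ip_smul, ip_smul, ip_sub, ip_sub, (mem_onP.1 h1).2, (mem_onP.1 h2).2,
      (mem_onP.1 h3).2]
    ring
  exact no_three_core hl e₁ e₂ e₃ ne₁
    (self hS₁ hvS₁ ht₁ hb₁ hu₁) (self hS₂ hvS₂ ht₂ hb₂ hu₂) (self hS₃ hvS₃ ht₃ hb₃ hu₃)
    (chord_value h₂ h₁ hsup₁ hS₁ hvS₂ ht₂ hb₂ hvS₁ nc₂ hτ₂ hs₂ hu₂ h12.symm)
    (chord_value h₃ h₁ hsup₁ hS₁ hvS₃ ht₃ hb₃ hvS₁ nc₃ hτ₃ hs₃ hu₃ h13.symm)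
    (chord_value h₁ h₂ hsup₂ hS₂ hvS₁ ht₁ hb₁ hvS₂ nc₁ hτ₁ hs₁ hu₁ h12)
    (chord_value h₃ h₂ hsup₂ hS₂ hvS₃ ht₃ hb₃ hvS₂ nc₃ hτ₃ hs₃ hu₃ h23.symm)
    (chord_value h₁ h₃ hsup₃ hS₃ hvS₁ ht₁ hb₁ hvS₃ nc₁ hτ₁ hs₁ hu₁ h13)
    (chord_value h₂ h₃ hsup₃ hS₃ hvS₂ ht₂ hb₂ hvS₃ nc₂ hτ₂ hs₂ hu₂ h23)

/-- Three distinct points give a polytope at least... the vertex set has at least two points. -/
lemma IsPoly.two_le {V : Finset E3} (hV : IsPoly V) : 2 ≤ V.card := by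
  by_contra hlt
  push Not at hlt
  have hne : V.Nonempty := by
    obtain ⟨z, hz⟩ := hV.2
    by_contra h0
    rw [Finset.not_nonempty_iff_eq_empty] at h0
    rw [h0] at hz
    have : z ∈ hull ∅ := interior_subset hz
    simp [hull] at this
  obtain ⟨p, hp⟩ := hne
  have hcard : V.card = 1 := by
    have := Finset.card_pos.2 ⟨p, hp⟩
    omega
  obtain ⟨q, rfl⟩ := Finset.card_eq_one.1 hcard
  apply not_all_on_plane hV.2 (a := e2) (b := q 2)
  · intro h0
    have := congrFun h0 2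
    simp [e2] at this
  · intro v hv
    rw [Finset.mem_singleton.1 hv, ip_comm, ip_e2]

/-- **The Euler inequality.** -/
theorem euler_ineq {V : Finset E3} (hV : IsPoly V) :
    ∑ S ∈ Fac V, S.card + 4 ≤ 2 * V.card + 2 * (Fac V).card := by
  classical
  obtain ⟨l, hl⟩ := exists_injective_functional V
  have h2 := hV.two_le
  have hl0 : l ≠ 0 := by
    obtain ⟨u, hu, v, hv, huv⟩ := Finset.one_lt_card.1 (show 1 < V.card by omega)
    rintro rfl
    apply hl u hu v hv huv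
    simp [ip]
  -- the relation intermediate
  let r : E3 → Finset E3 → Prop := fun v S => v ∈ S ∧ ∃ t ∈ S, ∃ b ∈ S, ip l b < ip l v ∧ ip l v < ip l t
  have hdc := Finset.sum_card_bipartiteAbove_eq_sum_card_bipartiteBelow (s := V) (t := Fac V) r
  -- each vertex is in at most two such facets
  have habove : ∀ v ∈ V, (Finset.bipartiteAbove r (Fac V) v).card ≤ 2 := by
    intro v hv
    by_contra hcon
    push Not at hcon
    obtain ⟨S₁, h₁, S₂, h₂, S₃, h₃, h12, h13, h23⟩ := Finset.two_lt_card.1 hcon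
    have m₁ := (Finset.mem_filter.1 h₁)
    have m₂ := (Finset.mem_filter.1 h₂)
    have m₃ := (Finset.mem_filter.1 h₃)
    exact no_three hV hl0 hv (mem_Fac.1 m₁.1) (mem_Fac.1 m₂.1) (mem_Fac.1 m₃.1) h12 h13 h23 m₁.2 m₂.2 m₃.2
  -- global extremes
  obtain ⟨vmax, hvmax, hmax⟩ := V.exists_max_image (fun v => ip l v) (Finset.card_pos.1 (by omega))
  obtain ⟨vmin, hvmin, hmin⟩ := V.exists_min_image (fun v => ip l v) (Finset.card_pos.1 (by omega))
  have hne : vmax ≠ vmin := by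
    rintro rfl
    obtain ⟨u, hu, v, hv, huv⟩ := Finset.one_lt_card.1 (show 1 < V.card by omega)
    apply hl u hu v hv huv
    have h3 := hmax u hu
    have h4 := hmin u hu
    have h5 := hmax v hv
    have h6 := hmin v hv
    linarith
  have habmax : Finset.bipartiteAbove r (Fac V) vmax = ∅ := by
    apply Finset.eq_empty_of_forall_notMem
    intro S hS
    obtain ⟨hS1, hv1, t, ht, b, hb, h3, h4⟩ := Finset.mem_filter.1 hS
    have := hmax t ((mem_Fac.1 hS1).subset ht)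
    linarith
  have habmin : Finset.bipartiteAbove r (Fac V) vmin = ∅ := by
    apply Finset.eq_empty_of_forall_notMem
    intro S hS
    obtain ⟨hS1, hv1, t, ht, b, hb, h3, h4⟩ := Finset.mem_filter.1 hS
    have := hmin b ((mem_Fac.1 hS1).subset hb)
    linarith
  have hsum : ∑ v ∈ V, (Finset.bipartiteAbove r (Fac V) v).card + 4 ≤ 2 * V.card := by
    have e1 : ∑ v ∈ V, (Finset.bipartiteAbove r (Fac V) v).card =
        ∑ v ∈ (V.erase vmax).erase vmin, (Finset.bipartiteAbove r (Fac V) v).card := by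
      rw [← Finset.add_sum_erase V _ hvmax, habmax, Finset.card_empty, zero_add,
        ← Finset.add_sum_erase (V.erase vmax) _ (Finset.mem_erase.2 ⟨hne.symm, hvmin⟩), habmin,
        Finset.card_empty, zero_add]
    have e2 : ∑ v ∈ (V.erase vmax).erase vmin, (Finset.bipartiteAbove r (Fac V) v).card ≤
        ∑ _v ∈ (V.erase vmax).erase vmin, 2 := by
      apply Finset.sum_le_sum
      intro v hv
      exact habove v (Finset.mem_of_mem_erase (Finset.mem_of_mem_erase hv))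
    rw [Finset.sum_const, smul_eq_mul, Finset.card_erase_of_mem
      (Finset.mem_erase.2 ⟨hne.symm, hvmin⟩), Finset.card_erase_of_mem hvmax] at e2
    rw [e1]
    omega
  -- each facet has all but two vertices intermediate
  have hbelow : ∀ S ∈ Fac V, S.card ≤ (Finset.bipartiteBelow r V S).card + 2 := by
    intro S hS
    have hSV := (mem_Fac.1 hS).subset
    obtain ⟨-, -, -, -, -, p, hp, -⟩ := mem_Fac.1 hS
    obtain ⟨smax, hsmax, hm1⟩ := S.exists_max_image (fun v => ip l v) ⟨p, hp⟩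
    obtain ⟨smin, hsmin, hm2⟩ := S.exists_min_image (fun v => ip l v) ⟨p, hp⟩
    have hsub : S ⊆ Finset.bipartiteBelow r V S ∪ {smax, smin} := by
      intro v hv
      by_cases h1 : v = smax
      · rw [h1]
        simp
      by_cases h3 : v = smin
      · rw [h3]
        simp
      apply Finset.mem_union_left
      refine Finset.mem_filter.2 ⟨hSV hv, hv, smax, hsmax, smin, hsmin, ?_, ?_⟩
      · exact lt_of_le_of_ne (hm2 v hv) (fun he => hl _ (hSV hsmin) _ (hSV hv) (Ne.symm h3) he)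
      · exact lt_of_le_of_ne (hm1 v hv) (fun he => hl _ (hSV hv) _ (hSV hsmax) h1 he)
    calc S.card ≤ _ := Finset.card_le_card hsub
      _ ≤ (Finset.bipartiteBelow r V S).card + ({smax, smin} : Finset E3).card :=
        Finset.card_union_le _ _
      _ ≤ _ := by
        have := Finset.card_le_two (a := smax) (b := smin)
        omega
  have hfinal : ∑ S ∈ Fac V, S.card ≤ ∑ S ∈ Fac V, ((Finset.bipartiteBelow r V S).card + 2) :=
    Finset.sum_le_sum hbelow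
  rw [Finset.sum_add_distrib, Finset.sum_const, smul_eq_mul, ← hdc] at hfinal
  omega

end Vale.Agent.Lib.P248
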