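import Vale.Agent.Lib.P248.Pol6

open MeasureTheory Set Function
open scoped ENNReal Pointwise

namespace Vale.Agent.Lib.P248

/-- The lower bound property. -/
def Qp (M : ℝ) (K : Set E3) : Prop :=
  ∀ z ∈ interior K, M ≤ (volume K).toReal * (volume (polarAt K z)).toReal

open Classical in
/-- The non vertical facets. -/
noncomputable def NVset (V : Finset E3) : Finset (Finset E3) :=
  (Fac V).filter (fun S => ∃ σ α β γ, IsNV V S σ α β γ)

lemma mem_NVset {V S : Finset E3} : S ∈ NVset V ↔ ∃ σ α β γ, IsNV V S σ α β γ := by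
  classical
  simp only [NVset, Finset.mem_filter, mem_Fac]
  constructor
  · exact fun h => h.2
  · rintro ⟨σ, α, β, γ, h⟩
    exact ⟨h.isFacet, σ, α, β, γ, h⟩

/-- Uniqueness of the equation of a non vertical facet. -/
lemma IsNV.unique {V S : Finset E3} (hV : (interior (hull V)).Nonempty) {σ α β γ σ' α' β' γ' : ℝ}
    (h : IsNV V S σ α β γ) (h' : IsNV V S σ' α' β' γ') :
    σ = σ' ∧ α = α' ∧ β = β' ∧ γ = γ' := by
  obtain ⟨p, hp, q, hq, r, hr, hD⟩ := h.nc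
  obtain ⟨e1, e2, e3⟩ := pl_unique hD
    (show pl α β γ p = pl α' β' γ' p by rw [← h.on hp, ← h'.on hp])
    (show pl α β γ q = pl α' β' γ' q by rw [← h.on hq, ← h'.on hq])
    (show pl α β γ r = pl α' β' γ' r by rw [← h.on hr, ← h'.on hr])
  refine ⟨?_, e1, e2, e3⟩
  by_contra hne
  subst e1 e2 e3
  have hopp : σ' = -σ := by
    rcases h.sg with rfl | rfl <;> rcases h'.sg with rfl | rfl <;> simp at hne ⊢
  apply not_all_on_plane hV (a := ![-α, -β, 1]) (b := γ)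
  · intro h0
    have := congrFun h0 2
    simp at this
  · intro v hv
    have h1 := h.supp v hv
    have h2 := h'.supp v hv
    rw [hopp] at h2
    have h3 : σ * (pl α β γ v - v 2) = 0 := by linarith
    have h4 := (mul_eq_zero.1 h3).resolve_left (sg_ne h.sg)
    simp only [pl] at h4
    simp only [ip, Matrix.cons_val]
    linarith

/-- Barycentric coordinates in the projection. -/
lemma bary_pl {p q r u : E3} (hD : D2 p q r ≠ 0) (a b c : ℝ) :
    pl a b c u = (1 - D2 p u r / D2 p q r - D2 p q u / D2 p q r) * pl a b c p +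
      (D2 p u r / D2 p q r) * pl a b c q + (D2 p q u / D2 p q r) * pl a b c r := by
  have : pl a b c u * D2 p q r = (D2 p q r - D2 p u r - D2 p q u) * pl a b c p +
      D2 p u r * pl a b c q + D2 p q u * pl a b c r := by
    simp only [pl, D2]
    ring
  field_simp
  linarith

/-- Dimension count: common zeros of few functionals are not contained in a small subspace. -/
lemma exists_not_in_range {X I : Type*} [Fintype X] [Fintype I] [DecidableEq X]
    (φ : I → ((X → ℝ) →ₗ[ℝ] ℝ)) (W : Submodule ℝ (X → ℝ)) (hW : Module.finrank ℝ W + Fintype.card I < Fintype.card X) :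
    ∃ δ : X → ℝ, (∀ i, φ i δ = 0) ∧ δ ∉ W := by
  let Λ : (X → ℝ) →ₗ[ℝ] (I → ℝ) := LinearMap.pi φ
  have hrk := LinearMap.finrank_range_add_finrank_ker Λ
  have hr : Module.finrank ℝ (LinearMap.range Λ) ≤ Fintype.card I := by
    calc _ ≤ Module.finrank ℝ (I → ℝ) := Submodule.finrank_le _
      _ = _ := Module.finrank_fintype_fun_eq_card ℝ
  rw [Module.finrank_fintype_fun_eq_card ℝ] at hrk
  have hnot : ¬ LinearMap.ker Λ ≤ W := by
    intro hle
    have := Submodule.finrank_mono hle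
    omega
  obtain ⟨δ, hδ, hδW⟩ := SetLike.not_le_iff_exists.1 hnot
  refine ⟨δ, ?_, hδW⟩
  intro i
  have := congrFun (LinearMap.mem_ker.1 hδ) i
  simpa [Λ] using this

/-- Existence of nontrivial heights, affine on the non vertical facets. -/
theorem exists_delta {V : Finset E3} (hdim : ∑ S ∈ NVset V, (S.card - 3) + 5 ≤ V.card) :
    ∃ δ : E3 → ℝ, (∀ S σ α β γ, IsNV V S σ α β γ → ∃ a b c, ∀ u ∈ S, δ u = pl a b c u) ∧
      ¬ ∃ ρ a b c, ∀ v ∈ V, δ v = ρ * v 2 + pl a b c v := by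
  classical
  have htr : ∀ S ∈ NVset V, ∃ p q r, p ∈ S ∧ q ∈ S ∧ r ∈ S ∧ D2 p q r ≠ 0 := by
    intro S hS
    obtain ⟨σ, α, β, γ, hN⟩ := mem_NVset.1 hS
    obtain ⟨p, hp, q, hq, r, hr, hD⟩ := hN.nc
    exact ⟨p, q, r, hp, hq, hr, hD⟩
  have hSV : ∀ S ∈ NVset V, S ⊆ V := by
    intro S hS
    obtain ⟨σ, α, β, γ, hN⟩ := mem_NVset.1 hS
    exact hN.sub
  choose! P Q R hP hQ hR hD using htr
  let T : Finset E3 → Finset E3 := fun S => {P S, Q S, R S}
  let I := Σ S : {S // S ∈ NVset V}, {u // u ∈ S.1 \ T S.1}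
  have hT : ∀ S ∈ NVset V, (S \ T S).card = S.card - 3 := by
    intro S hS
    have hsub : T S ⊆ S := by
      intro x hx
      simp only [T, Finset.mem_insert, Finset.mem_singleton] at hx
      rcases hx with rfl | rfl | rfl
      · exact hP S hS
      · exact hQ S hS
      · exact hR S hS
    have hnc := NC_of_D2 (hD S hS)
    have hcard : (T S).card = 3 := by
      simp only [T]
      rw [Finset.card_insert_of_notMem, Finset.card_insert_of_notMem, Finset.card_singleton]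
      · simpa using hnc.ne_mid
      · simp only [Finset.mem_insert, Finset.mem_singleton, not_or]
        exact ⟨hnc.ne_left, hnc.ne_right⟩
    rw [Finset.card_sdiff_of_subset hsub, hcard]
  have hcardI : Fintype.card I = ∑ S ∈ NVset V, (S.card - 3) := by
    simp only [I, Fintype.card_sigma, Fintype.card_coe]
    rw [← Finset.sum_attach (NVset V) (fun S => S.card - 3)]
    apply Finset.sum_congr
    · rfl
    · intro S _
      exact hT S.1 S.2
  let X := {v // v ∈ V}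
  -- functionals
  have hmemU : ∀ i : I, i.2.1 ∈ V := fun i => hSV _ i.1.2 (Finset.mem_sdiff.1 i.2.2).1
  have hmemP : ∀ i : I, P i.1.1 ∈ V := fun i => hSV _ i.1.2 (hP _ i.1.2)
  have hmemQ : ∀ i : I, Q i.1.1 ∈ V := fun i => hSV _ i.1.2 (hQ _ i.1.2)
  have hmemR : ∀ i : I, R i.1.1 ∈ V := fun i => hSV _ i.1.2 (hR _ i.1.2)
  let φ : I → ((X → ℝ) →ₗ[ℝ] ℝ) := fun i =>
    LinearMap.proj ⟨i.2.1, hmemU i⟩ -
      (1 - D2 (P i.1.1) i.2.1 (R i.1.1) / D2 (P i.1.1) (Q i.1.1) (R i.1.1) -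
        D2 (P i.1.1) (Q i.1.1) i.2.1 / D2 (P i.1.1) (Q i.1.1) (R i.1.1)) •
          LinearMap.proj ⟨P i.1.1, hmemP i⟩ -
      (D2 (P i.1.1) i.2.1 (R i.1.1) / D2 (P i.1.1) (Q i.1.1) (R i.1.1)) •
          LinearMap.proj ⟨Q i.1.1, hmemQ i⟩ -
      (D2 (P i.1.1) (Q i.1.1) i.2.1 / D2 (P i.1.1) (Q i.1.1) (R i.1.1)) •
          LinearMap.proj ⟨R i.1.1, hmemR i⟩
  -- the trivial heights
  let Ψ : (Fin 4 → ℝ) →ₗ[ℝ] (X → ℝ) :=
    { toFun := fun c x => c 0 * x.1 2 + (c 1 * x.1 0 + c 2 * x.1 1 + c 3)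
      map_add' := by
        intro c d
        ext x
        simp only [Pi.add_apply]
        ring
      map_smul' := by
        intro t c
        ext x
        simp only [Pi.smul_apply, smul_eq_mul, RingHom.id_apply]
        ring }
  have hW : Module.finrank ℝ (LinearMap.range Ψ) ≤ 4 := by
    calc _ ≤ Module.finrank ℝ (Fin 4 → ℝ) := LinearMap.finrank_range_le Ψ
      _ = 4 := by simp
  obtain ⟨δ, hδ, hδW⟩ := exists_not_in_range φ (LinearMap.range Ψ) (by
    rw [hcardI, Fintype.card_coe]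
    omega)
  let d : E3 → ℝ := fun v => if h : v ∈ V then δ ⟨v, h⟩ else 0
  have hd : ∀ (v : E3) (h : v ∈ V), d v = δ ⟨v, h⟩ := by
    intro v h
    simp only [d, dif_pos h]
  refine ⟨d, ?_, ?_⟩
  · intro S σ α β γ hN
    have hS : S ∈ NVset V := mem_NVset.2 ⟨σ, α, β, γ, hN⟩
    obtain ⟨a, b, c, h1, h2, h3⟩ := exists_pl (hD S hS) (d (P S)) (d (Q S)) (d (R S))
    refine ⟨a, b, c, fun u hu => ?_⟩
    by_cases huT : u ∈ T S
    · simp only [T, Finset.mem_insert, Finset.mem_singleton] at huT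
      rcases huT with rfl | rfl | rfl
      · exact h1.symm
      · exact h2.symm
      · exact h3.symm
    · have := hδ ⟨⟨S, hS⟩, ⟨u, Finset.mem_sdiff.2 ⟨hu, huT⟩⟩⟩
      simp only [φ, LinearMap.sub_apply, LinearMap.smul_apply, LinearMap.proj_apply, smul_eq_mul] at this
      rw [bary_pl (hD S hS) a b c (u := u), h1, h2, h3, hd u (hSV S hS hu), hd _ (hSV S hS (hP S hS)),
        hd _ (hSV S hS (hQ S hS)), hd _ (hSV S hS (hR S hS))]
      linarith
  · rintro ⟨ρ, a, b, c, hall⟩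
    apply hδW
    refine ⟨![ρ, a, b, c], ?_⟩
    ext x
    have := hall x.1 x.2
    rw [hd x.1 x.2] at this
    simp only [Ψ, LinearMap.coe_mk, AddHom.coe_mk, Matrix.cons_val]
    rw [this]
    simp only [pl]

/-- A non vertical facet exists. -/
lemma exists_isNV {V : Finset E3} {z : E3} (hz : z ∈ interior (hull V)) :
    ∃ S σ α β γ, IsNV V S σ α β γ := by
  obtain ⟨x, hx, hmax⟩ := (hull_compact V).exists_isMaxOn ⟨z, interior_subset hz⟩
    (continuous_apply (2 : Fin 3)).continuousOn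
  have hmax' : ∀ x' ∈ hull V, x' 2 ≤ x 2 := fun x' hx' => hmax hx'
  obtain ⟨S, α, β, γ, hN, -⟩ := exists_nv_facet hz (σ := 1) (Or.inl rfl) hx (by
    intro ε hε hin
    have := hmax' _ hin
    simp only [Pi.add_apply, Pi.smul_apply, smul_eq_mul, e2, Matrix.cons_val] at this
    linarith)
  exact ⟨S, 1, α, β, γ, hN⟩

/-- From nontrivial heights to two valid extreme heights. -/
theorem exists_move {V : Finset E3} {z : E3} (hz : z ∈ interior (hull V)) {δ : E3 → ℝ}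
    (hδ : ∀ S σ α β γ, IsNV V S σ α β γ → ∃ a b c, ∀ u ∈ S, δ u = pl a b c u)
    (hnt : ¬ ∃ ρ a b c, ∀ v ∈ V, δ v = ρ * v 2 + pl a b c v) :
    ∃ h₁ h₂ : E3 → ℝ, Valid V h₁ ∧ Valid V h₂ ∧ (∀ v ∈ V, v 2 = (h₁ v + h₂ v) / 2) ∧
      (∃ S σ α β γ a b c v, IsNV V S σ α β γ ∧ (∀ u ∈ S, h₁ u = pl a b c u) ∧
        (∀ x ∈ V, 0 ≤ σ * (pl a b c x - h₁ x)) ∧ v ∈ V ∧ v ∉ S ∧ h₁ v = pl a b c v) ∧
      (∃ S σ α β γ a b c v, IsNV V S σ α β γ ∧ (∀ u ∈ S, h₂ u = pl a b c u) ∧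
        (∀ x ∈ V, 0 ≤ σ * (pl a b c x - h₂ x)) ∧ v ∈ V ∧ v ∉ S ∧ h₂ v = pl a b c v) ∧
      (∃ S σ α β γ a b c v, IsNV V S σ α β γ ∧ (∀ u ∈ S, h₁ u = pl a b c u) ∧ v ∈ V ∧
        h₁ v ≠ pl a b c v) ∧
      (∃ S σ α β γ a b c v, IsNV V S σ α β γ ∧ (∀ u ∈ S, h₂ u = pl a b c u) ∧ v ∈ V ∧
        h₂ v ≠ pl a b c v) := by
  classical
  have hint : (interior (hull V)).Nonempty := ⟨z, hz⟩
  have hex : ∀ S ∈ NVset V, ∃ σ α β γ a b c, IsNV V S σ α β γ ∧ ∀ u ∈ S, δ u = pl a b c u := by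
    intro S hS
    obtain ⟨σ, α, β, γ, hN⟩ := mem_NVset.1 hS
    obtain ⟨a, b, c, h⟩ := hδ S σ α β γ hN
    exact ⟨σ, α, β, γ, a, b, c, hN, h⟩
  choose! σ' α' β' γ' a' b' c' hN' hd' using hex
  let gap : Finset E3 → E3 → ℝ := fun S v => σ' S * (pl (α' S) (β' S) (γ' S) v - v 2)
  let slope : Finset E3 → E3 → ℝ := fun S v => σ' S * (pl (a' S) (b' S) (c' S) v - δ v)
  have hgap0 : ∀ S ∈ NVset V, ∀ v ∈ V, v ∉ S → 0 < gap S v := by
    intro S hS v hv hvS
    refine lt_of_le_of_ne ((hN' S hS).supp v hv) (fun he => hvS ?_)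
    have h1 := (mul_eq_zero.1 he.symm).resolve_left (sg_ne (hN' S hS).sg)
    exact (hN' S hS).mem hv (by linarith)
  have hgapS : ∀ S ∈ NVset V, ∀ v ∈ S, gap S v = 0 := by
    intro S hS v hv
    simp only [gap]
    rw [← (hN' S hS).on hv, sub_self, mul_zero]
  have hslopeS : ∀ S ∈ NVset V, ∀ v ∈ S, slope S v = 0 := by
    intro S hS v hv
    simp only [slope]
    rw [hd' S hS v hv, sub_self, mul_zero]
  let P : Finset (Finset E3 × E3) := (NVset V ×ˢ V).filter (fun p => p.2 ∉ p.1)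
  have hP : ∀ p ∈ P, p.1 ∈ NVset V ∧ p.2 ∈ V ∧ p.2 ∉ p.1 := by
    intro p hp
    obtain ⟨h1, h2⟩ := Finset.mem_filter.1 hp
    obtain ⟨h3, h4⟩ := Finset.mem_product.1 h1
    exact ⟨h3, h4, h2⟩
  obtain ⟨S₀, σ₀, α₀, β₀, γ₀, hN₀⟩ := exists_isNV hz
  have hS₀ : S₀ ∈ NVset V := mem_NVset.2 ⟨σ₀, α₀, β₀, γ₀, hN₀⟩
  have hPne : P.Nonempty := by
    by_contra hemp
    rw [Finset.not_nonempty_iff_eq_empty] at hemp
    apply not_all_on_plane hint (a := ![-α₀, -β₀, 1]) (b := γ₀)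
    · intro h0
      have := congrFun h0 2
      simp at this
    · intro v hv
      have hvS : v ∈ S₀ := by
        by_contra hnot
        have : (S₀, v) ∈ P := Finset.mem_filter.2 ⟨Finset.mem_product.2 ⟨hS₀, hv⟩, hnot⟩
        rw [hemp] at this
        simp at this
      have h1 := hN₀.on hvS
      simp only [pl] at h1
      simp only [ip, Matrix.cons_val]
      linarith
  let ratio : Finset E3 × E3 → ℝ := fun p => slope p.1 p.2 / gap p.1 p.2
  obtain ⟨pM, hpM, hmax⟩ := P.exists_max_image ratio hPne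
  obtain ⟨pm, hpm, hmin⟩ := P.exists_min_image ratio hPne
  set ρM := ratio pM with hρM
  set ρm := ratio pm with hρm
  have hup : ∀ S ∈ NVset V, ∀ v ∈ V, slope S v ≤ ρM * gap S v := by
    intro S hS v hv
    by_cases hvS : v ∈ S
    · rw [hslopeS S hS v hvS, hgapS S hS v hvS, mul_zero]
    · have h1 := hmax (S, v) (Finset.mem_filter.2 ⟨Finset.mem_product.2 ⟨hS, hv⟩, hvS⟩)
      have h2 := hgap0 S hS v hv hvS
      simp only [ratio] at h1
      rwa [div_le_iff₀ h2] at h1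
  have hlo : ∀ S ∈ NVset V, ∀ v ∈ V, ρm * gap S v ≤ slope S v := by
    intro S hS v hv
    by_cases hvS : v ∈ S
    · rw [hslopeS S hS v hvS, hgapS S hS v hvS, mul_zero]
    · have h1 := hmin (S, v) (Finset.mem_filter.2 ⟨Finset.mem_product.2 ⟨hS, hv⟩, hvS⟩)
      have h2 := hgap0 S hS v hv hvS
      simp only [ratio] at h1
      rwa [le_div_iff₀ h2] at h1
  have hlt : ρm < ρM := by
    by_contra hle
    push Not at hle
    apply hnt
    have hN := hN' S₀ hS₀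
    refine ⟨ρM, a' S₀ - ρM * α' S₀, b' S₀ - ρM * β' S₀, c' S₀ - ρM * γ' S₀, fun v hv => ?_⟩
    have h1 := hup S₀ hS₀ v hv
    have h2 := hlo S₀ hS₀ v hv
    have h3 : ρM * gap S₀ v ≤ ρm * gap S₀ v := by
      by_cases hvS : v ∈ S₀
      · rw [hgapS S₀ hS₀ v hvS]
        simp
      · exact mul_le_mul_of_nonneg_right hle (hgap0 S₀ hS₀ v hv hvS).le
    have h4 : slope S₀ v = ρM * gap S₀ v := by linarith
    simp only [slope, gap] at h4
    have h5 : σ' S₀ * ((pl (a' S₀) (b' S₀) (c' S₀) v - δ v) -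
        ρM * (pl (α' S₀) (β' S₀) (γ' S₀) v - v 2)) = 0 := by
      linear_combination h4
    have h6 := (mul_eq_zero.1 h5).resolve_left (sg_ne hN.sg)
    simp only [pl] at h6 ⊢
    linarith
  set d := ρM - ρm with hd
  have hd0 : 0 < d := by rw [hd]; linarith
  set k := 2 / d with hk
  have hk0 : 0 < k := by positivity
  have hkd : k * d = 2 := by
    rw [hk]
    field_simp
  let h₁ : E3 → ℝ := fun v => k * (ρM * v 2 - δ v)
  let h₂ : E3 → ℝ := fun v => k * (δ v - ρm * v 2)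
  -- the data of the two heights on a facet
  have data₁ : ∀ S ∈ NVset V, (∀ u ∈ S, h₁ u = pl (k * (ρM * α' S - a' S)) (k * (ρM * β' S - b' S))
      (k * (ρM * γ' S - c' S)) u) ∧ ∀ x ∈ V, σ' S * (pl (k * (ρM * α' S - a' S)) (k * (ρM * β' S - b' S))
      (k * (ρM * γ' S - c' S)) x - h₁ x) = k * (ρM * gap S x - slope S x) := by
    intro S hS
    constructor
    · intro u hu
      simp only [h₁]
      rw [(hN' S hS).on hu, hd' S hS u hu]
      simp only [pl]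
      ring
    · intro x _
      simp only [h₁, gap, slope, pl]
      ring
  have data₂ : ∀ S ∈ NVset V, (∀ u ∈ S, h₂ u = pl (k * (a' S - ρm * α' S)) (k * (b' S - ρm * β' S))
      (k * (c' S - ρm * γ' S)) u) ∧ ∀ x ∈ V, σ' S * (pl (k * (a' S - ρm * α' S)) (k * (b' S - ρm * β' S))
      (k * (c' S - ρm * γ' S)) x - h₂ x) = k * (slope S x - ρm * gap S x) := by
    intro S hS
    constructor
    · intro u hu
      simp only [h₂]
      rw [(hN' S hS).on hu, hd' S hS u hu]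
      simp only [pl]
      ring
    · intro x _
      simp only [h₂, gap, slope, pl]
      ring
  have ub₁ : ∀ S ∈ NVset V, ∀ x ∈ V, 0 ≤ σ' S * (pl (k * (ρM * α' S - a' S)) (k * (ρM * β' S - b' S))
      (k * (ρM * γ' S - c' S)) x - h₁ x) := by
    intro S hS x hx
    rw [(data₁ S hS).2 x hx]
    exact mul_nonneg hk0.le (by linarith [hup S hS x hx])
  have ub₂ : ∀ S ∈ NVset V, ∀ x ∈ V, 0 ≤ σ' S * (pl (k * (a' S - ρm * α' S)) (k * (b' S - ρm * β' S))
      (k * (c' S - ρm * γ' S)) x - h₂ x) := by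
    intro S hS x hx
    rw [(data₂ S hS).2 x hx]
    exact mul_nonneg hk0.le (by linarith [hlo S hS x hx])
  obtain ⟨hM1, hM2, hM3⟩ := hP pM hpM
  obtain ⟨hm1, hm2, hm3⟩ := hP pm hpm
  have hgM := hgap0 _ hM1 _ hM2 hM3
  have hgm := hgap0 _ hm1 _ hm2 hm3
  have eM : slope pM.1 pM.2 = ρM * gap pM.1 pM.2 := by
    rw [hρM]
    simp only [ratio]
    field_simp
  have em : slope pm.1 pm.2 = ρm * gap pm.1 pm.2 := by
    rw [hρm]
    simp only [ratio]
    field_simp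
  refine ⟨h₁, h₂, ?_, ?_, ?_, ?_, ?_, ?_, ?_⟩
  · intro S σ α β γ hN
    have hS : S ∈ NVset V := mem_NVset.2 ⟨σ, α, β, γ, hN⟩
    obtain ⟨e1, -, -, -⟩ := hN.unique hint (hN' S hS)
    refine ⟨_, _, _, (data₁ S hS).1, ?_⟩
    rw [e1]
    exact ub₁ S hS
  · intro S σ α β γ hN
    have hS : S ∈ NVset V := mem_NVset.2 ⟨σ, α, β, γ, hN⟩
    obtain ⟨e1, -, -, -⟩ := hN.unique hint (hN' S hS)
    refine ⟨_, _, _, (data₂ S hS).1, ?_⟩
    rw [e1]
    exact ub₂ S hS
  · intro v _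
    simp only [h₁, h₂]
    have : k * (ρM * v 2 - δ v) + k * (δ v - ρm * v 2) = (k * d) * v 2 := by
      rw [hd]
      ring
    rw [this, hkd]
    ring
  · refine ⟨pM.1, σ' pM.1, α' pM.1, β' pM.1, γ' pM.1, _, _, _, pM.2, hN' _ hM1, (data₁ _ hM1).1,
      ub₁ _ hM1, hM2, hM3, ?_⟩
    have := (data₁ _ hM1).2 _ hM2
    rw [eM, sub_self, mul_zero] at this
    have h3 := (mul_eq_zero.1 this).resolve_left (sg_ne (hN' _ hM1).sg)
    linarith
  · refine ⟨pm.1, σ' pm.1, α' pm.1, β' pm.1, γ' pm.1, _, _, _, pm.2, hN' _ hm1, (data₂ _ hm1).1,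
      ub₂ _ hm1, hm2, hm3, ?_⟩
    have := (data₂ _ hm1).2 _ hm2
    rw [em, sub_self, mul_zero] at this
    have h3 := (mul_eq_zero.1 this).resolve_left (sg_ne (hN' _ hm1).sg)
    linarith
  · refine ⟨pm.1, σ' pm.1, α' pm.1, β' pm.1, γ' pm.1, _, _, _, pm.2, hN' _ hm1, (data₁ _ hm1).1,
      hm2, ?_⟩
    intro he
    have := (data₁ _ hm1).2 _ hm2
    rw [← he, sub_self, mul_zero, em] at this
    have h5 : k * (ρM * gap pm.1 pm.2 - ρm * gap pm.1 pm.2) = k * d * gap pm.1 pm.2 := by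
      rw [hd]
      ring
    rw [h5, hkd] at this
    linarith
  · refine ⟨pM.1, σ' pM.1, α' pM.1, β' pM.1, γ' pM.1, _, _, _, pM.2, hN' _ hM1, (data₂ _ hM1).1,
      hM2, ?_⟩
    intro he
    have := (data₂ _ hM1).2 _ hM2
    rw [← he, sub_self, mul_zero, eM] at this
    have h5 : k * (ρM * gap pM.1 pM.2 - ρm * gap pM.1 pM.2) = k * d * gap pM.1 pM.2 := by
      rw [hd]
      ring
    rw [h5, hkd] at this
    linarith

/-- **The induction step from a nontrivial height.** -/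
theorem Q_of_count {V : Finset E3} (hV : IsPoly V) (hdim : ∑ S ∈ NVset V, (S.card - 3) + 5 ≤ V.card)
    {M : ℝ} (IH : ∀ W, IsPoly W → cplx W < cplx V → Qp M (hull W)) : Qp M (hull V) := by
  obtain ⟨z, hz⟩ := hV.2
  obtain ⟨δ, hδ, hnt⟩ := exists_delta hdim
  obtain ⟨h₁, h₂, v₁, v₂, hv, ⟨S, σ, α, β, γ, a, b, c, u, hN, hon, hsup, hu, huS, ht⟩,
    ⟨S', σ', α', β', γ', a', b', c', u', hN', hon', hsup', hu', huS', ht'⟩,
    ⟨T, τ, α₁, β₁, γ₁, a₁, b₁, c₁, w, hNT, honT, hw, hgap⟩,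
    ⟨T', τ', α₂, β₂, γ₂, a₂, b₂, c₂, w', hNT', honT', hw', hgap'⟩⟩ := exists_move hz hδ hnt
  have hi₁ := interior_of_gap hV.2 hNT honT hw hgap
  have hi₂ := interior_of_gap hV.2 hNT' honT' hw' hgap'
  have Q₁ := IH _ (isPoly_vertsH hi₁) (cplx_lt hV hz v₁ hN hon hsup hu huS ht)
  have Q₂ := IH _ (isPoly_vertsH hi₂) (cplx_lt hV hz v₂ hN' hon' hsup' hu' huS' ht')
  rw [hull_vertsH] at Q₁ Q₂
  exact move_Q hz v₁ v₂ hv hi₁ hi₂ Q₁ Q₂

end Vale.Agent.Lib.P248
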