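import Vale.Agent.Lib.P248.Pol7

open MeasureTheory Set Function
open scoped ENNReal Pointwise

namespace Vale.Agent.Lib.P248

/-- The linear map of a matrix. -/
noncomputable abbrev Lm (m : Matrix (Fin 3) (Fin 3) ℝ) : E3 →ₗ[ℝ] E3 := Matrix.toLin' m

lemma Lm_apply (m : Matrix (Fin 3) (Fin 3) ℝ) (x : E3) (i : Fin 3) :
    Lm m x i = m i 0 * x 0 + m i 1 * x 1 + m i 2 * x 2 := by
  simp [Matrix.toLin'_apply, Matrix.mulVec, dotProduct, Fin.sum_univ_three]

lemma ip_Lm (m : Matrix (Fin 3) (Fin 3) ℝ) (y x : E3) :
    ip y (Lm m x) = ip (Lm m.transpose y) x := by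
  simp only [ip, Lm_apply, Matrix.transpose_apply]
  ring

lemma polar_image (m : Matrix (Fin 3) (Fin 3) ℝ) (K : Set E3) (z : E3) :
    polarAt (Lm m '' K) (Lm m z) = (Lm m.transpose) ⁻¹' polarAt K z := by
  ext y
  simp only [mem_polar_iff, mem_preimage, forall_mem_image, ip_Lm]

lemma prod_image {m : Matrix (Fin 3) (Fin 3) ℝ} (hm : m.det ≠ 0) (K : Set E3) (z : E3) :
    (volume (Lm m '' K)).toReal * (volume (polarAt (Lm m '' K) (Lm m z))).toReal =
      (volume K).toReal * (volume (polarAt K z)).toReal := by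
  have h1 : LinearMap.det (Lm m) = m.det := LinearMap.det_toLin' m
  have h2 : LinearMap.det (Lm m.transpose) = m.det := by
    rw [LinearMap.det_toLin', Matrix.det_transpose]
  rw [polar_image, Measure.addHaar_image_linearMap, Measure.addHaar_preimage_linearMap _ (by rw [h2]; exact hm),
    h1, h2, ENNReal.toReal_mul, ENNReal.toReal_mul, ENNReal.toReal_ofReal (abs_nonneg _),
    ENNReal.toReal_ofReal (abs_nonneg _), abs_inv]
  have : |m.det| ≠ 0 := abs_ne_zero.2 hm
  field_simp

/-- The continuous linear equivalence of a matrix. -/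
noncomputable def Le (m : Matrix (Fin 3) (Fin 3) ℝ) (hm : m.det ≠ 0) : E3 ≃L[ℝ] E3 :=
  ((Lm m).equivOfDetNeZero (by rw [LinearMap.det_toLin']; exact hm)).toContinuousLinearEquiv

@[simp] lemma Le_apply {m : Matrix (Fin 3) (Fin 3) ℝ} (hm : m.det ≠ 0) (x : E3) : Le m hm x = Lm m x := rfl

lemma Le_image {m : Matrix (Fin 3) (Fin 3) ℝ} (hm : m.det ≠ 0) (K : Set E3) : Le m hm '' K = Lm m '' K := rfl

lemma Qp_image {m : Matrix (Fin 3) (Fin 3) ℝ} (hm : m.det ≠ 0) {M : ℝ} {K : Set E3} :
    Qp M (Lm m '' K) ↔ Qp M K := by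
  have hi : interior (Lm m '' K) = Lm m '' interior K := by
    rw [← Le_image hm, ← Le_image hm]
    exact ((Le m hm).toHomeomorph.image_interior K).symm
  constructor
  · intro h z hz
    have := h (Lm m z) (by rw [hi]; exact mem_image_of_mem _ hz)
    rwa [prod_image hm] at this
  · intro h w hw
    rw [hi] at hw
    obtain ⟨z, hz, rfl⟩ := hw
    rw [prod_image hm]
    exact h z hz

lemma polar_translate (K : Set E3) (t z : E3) :
    polarAt ((fun x => x + t) ⁻¹' K) z = polarAt K (z + t) := by
  ext y
  simp only [mem_polar_iff, mem_preimage]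
  constructor
  · intro h x hx
    have := h (x - t) (by simpa using hx)
    rw [ip_sub] at this
    rw [ip_add]
    linarith
  · intro h x hx
    have := h _ hx
    rw [ip_add, ip_add] at this
    linarith

lemma Qp_translate {M : ℝ} {K : Set E3} (t : E3) :
    Qp M ((fun x => x + t) ⁻¹' K) ↔ Qp M K := by
  have hi : interior ((fun x => x + t) ⁻¹' K) = (fun x => x + t) ⁻¹' interior K :=
    ((Homeomorph.addRight t).preimage_interior K).symm
  constructor
  · intro h z hz
    have := h (z - t) (by rw [hi]; simpa using hz)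
    rw [polar_translate, measure_preimage_add_right] at this
    simpa using this
  · intro h z hz
    rw [hi] at hz
    rw [polar_translate, measure_preimage_add_right]
    exact h _ hz

/-- The functional given by a vector. -/
noncomputable def ipL (a : E3) : E3 →ₗ[ℝ] ℝ where
  toFun := ip a
  map_add' := ip_add a
  map_smul' c x := by simp [ip_smul]

lemma hull_image (e : E3 ≃L[ℝ] E3) (V : Finset E3) : hull (V.image e) = e '' hull V := by
  classical
  have := (e : E3 →ₗ[ℝ] E3).image_convexHull (V : Set E3)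
  simp only [hull, Finset.coe_image]
  exact this.symm

lemma IsPoly.image (e : E3 ≃L[ℝ] E3) {V : Finset E3} (hV : IsPoly V) : IsPoly (V.image e) := by
  classical
  constructor
  · rw [hull_image]
    have := image_extremePoints (𝕜 := ℝ) e.toLinearEquiv (hull V)
    have e1 : ((e.toLinearEquiv : E3 ≃ₗ[ℝ] E3) '' hull V) = e '' hull V := rfl
    rw [e1] at this
    rw [← this, hV.1]
    simp only [Finset.coe_image]
    rfl
  · rw [hull_image]
    have := e.toHomeomorph.image_interior (hull V)
    have e2 : (e.toHomeomorph '' hull V) = e '' hull V := rfl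
    rw [← e2, ← this]
    exact hV.2.image _

lemma IsFacet.image (e : E3 ≃L[ℝ] E3) {V S : Finset E3} (hV : IsPoly V) (hS : IsFacet V S) :
    IsFacet (V.image e) (S.image e) := by
  classical
  obtain ⟨a, b, ha, hsup, rfl, p, hp, q, hq, r, hr, hnc⟩ := hS
  have hV' := hV.image e
  obtain ⟨a', ha'⟩ := exists_vec_of_lin ((ipL a).comp (e.symm : E3 →L[ℝ] E3).toLinearMap)
  have key : ∀ x, ip a' (e x) = ip a x := by
    intro x
    rw [← ha']
    simp [ipL]
  have ha'0 : a' ≠ 0 := by
    rintro rfl
    have h1 := key a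
    have h2 := ip_self_pos ha
    simp only [ip, Pi.zero_apply, zero_mul, add_zero] at h1 h2
    linarith
  refine ⟨a', b, ha'0, ?_, ?_, e p, Finset.mem_image_of_mem _ hp, e q, Finset.mem_image_of_mem _ hq,
    e r, Finset.mem_image_of_mem _ hr, ?_⟩
  · intro v hv
    obtain ⟨u, hu, rfl⟩ := Finset.mem_image.1 hv
    rw [key]
    exact hsup u hu
  · ext x
    simp only [Finset.mem_image, mem_onP]
    constructor
    · rintro ⟨u, ⟨hu, hub⟩, rfl⟩
      exact ⟨⟨u, hu, rfl⟩, by rw [key, hub]⟩
    · rintro ⟨⟨u, hu, rfl⟩, hx⟩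
      rw [key] at hx
      exact ⟨u, ⟨hu, hx⟩, rfl⟩
  · exact hV'.nc_of_distinct
      (Finset.mem_image_of_mem _ (mem_onP.1 hp).1) (Finset.mem_image_of_mem _ (mem_onP.1 hq).1)
      (Finset.mem_image_of_mem _ (mem_onP.1 hr).1)
      (fun h => hnc.ne_left (e.injective h)) (fun h => hnc.ne_right (e.injective h))
      (fun h => hnc.ne_mid (e.injective h))

lemma card_Fac_image_le (e : E3 ≃L[ℝ] E3) {V : Finset E3} (hV : IsPoly V) :
    (Fac V).card ≤ (Fac (V.image e)).card := by
  classical
  apply Finset.card_le_card_of_injOn (fun S => S.image e)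
  · intro S hS
    exact mem_Fac.2 ((mem_Fac.1 hS).image e hV)
  · intro S _ S' _ h
    exact Finset.image_injective e.injective h

lemma card_Fac_image (e : E3 ≃L[ℝ] E3) {V : Finset E3} (hV : IsPoly V) :
    (Fac (V.image e)).card = (Fac V).card := by
  classical
  apply le_antisymm _ (card_Fac_image_le e hV)
  have := card_Fac_image_le e.symm (hV.image e)
  have e1 : (V.image e).image e.symm = V := by
    rw [Finset.image_image]
    have : (e.symm ∘ e) = id := by
      ext x
      simp
    rw [this, Finset.image_id]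
  rwa [e1] at this

lemma card_image_Le (e : E3 ≃L[ℝ] E3) (V : Finset E3) : (V.image e).card = V.card :=
  Finset.card_image_of_injective _ e.injective

lemma cplx_image (e : E3 ≃L[ℝ] E3) {V : Finset E3} (hV : IsPoly V) :
    cplx (V.image e) = cplx V := by
  simp only [cplx, card_Fac_image e hV, card_image_Le]

/-- A linear isomorphism whose first coordinate is a given nonzero functional. -/
lemma exists_vertical {a : E3} (ha : a ≠ 0) :
    ∃ m : Matrix (Fin 3) (Fin 3) ℝ, m.det ≠ 0 ∧ ∀ x, Lm m x 0 = ip a x := by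
  rcases ne3 ha with h | h | h
  · refine ⟨!![a 0, a 1, a 2; 0, 1, 0; 0, 0, 1], ?_, ?_⟩
    · rw [Matrix.det_fin_three]
      simpa using h
    · intro x
      rw [Lm_apply]
      simp [ip]
  · refine ⟨!![a 0, a 1, a 2; 1, 0, 0; 0, 0, 1], ?_, ?_⟩
    · rw [Matrix.det_fin_three]
      simpa using h
    · intro x
      rw [Lm_apply]
      simp [ip]
  · refine ⟨!![a 0, a 1, a 2; 1, 0, 0; 0, 1, 0], ?_, ?_⟩
    · rw [Matrix.det_fin_three]
      simpa using h
    · intro x
      rw [Lm_apply]
      simp [ip]

lemma facet_three {V S : Finset E3} (hS : IsFacet V S) : 3 ≤ S.card := by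
  obtain ⟨a, b, -, -, -, p, hp, q, hq, r, hr, hnc⟩ := hS
  have : 2 < S.card := Finset.two_lt_card.2 ⟨p, hp, q, hq, r, hr, hnc.ne_left, hnc.ne_right, hnc.ne_mid⟩
  omega

/-- The count when a facet not in `NVset` has at least four vertices. -/
lemma count_nonsimplicial {V S₁ : Finset E3} (hV : IsPoly V) (hF : V.card ≤ (Fac V).card)
    (hS₁ : S₁ ∈ Fac V) (h4 : 4 ≤ S₁.card) (hvert : S₁ ∉ NVset V) :
    ∑ S ∈ NVset V, (S.card - 3) + 5 ≤ V.card := by
  classical
  have hsub : NVset V ⊆ (Fac V).erase S₁ := by
    intro S hS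
    rw [Finset.mem_erase]
    refine ⟨?_, (Finset.mem_filter.1 hS).1⟩
    rintro rfl
    exact hvert hS
  have h1 : ∑ S ∈ NVset V, (S.card - 3) ≤ ∑ S ∈ (Fac V).erase S₁, (S.card - 3) :=
    Finset.sum_le_sum_of_subset hsub
  have h2 := Finset.add_sum_erase (Fac V) (fun S => S.card - 3) hS₁
  have h3 : ∑ S ∈ Fac V, S.card = ∑ S ∈ Fac V, (S.card - 3) + (Fac V).card * 3 := by
    rw [← smul_eq_mul, ← Finset.sum_const, ← Finset.sum_add_distrib]
    apply Finset.sum_congr rfl
    intro S hS
    have := facet_three (mem_Fac.1 hS)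
    omega
  have h5 := euler_ineq hV
  omega

lemma sum_zero_simplicial {V : Finset E3} (h : ∀ S ∈ Fac V, S.card < 4) :
    ∑ S ∈ NVset V, (S.card - 3) = 0 := by
  apply Finset.sum_eq_zero
  intro S hS
  have := h S (mem_Fac.2 (by
    obtain ⟨σ, α, β, γ, hN⟩ := mem_NVset.1 hS
    exact hN.isFacet))
  omega

/-- The standard simplex. -/
def T3 : Set E3 := {x | (∀ i, 0 ≤ x i) ∧ x 0 + x 1 + x 2 ≤ 1}

lemma T3_convex : Convex ℝ T3 := by
  rintro x ⟨hx, hx'⟩ y ⟨hy, hy'⟩ s t hs ht hst
  constructor
  · intro i
    have := hx i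
    have := hy i
    simp only [Pi.add_apply, Pi.smul_apply, smul_eq_mul]
    positivity
  · simp only [Pi.add_apply, Pi.smul_apply, smul_eq_mul]
    nlinarith

lemma T3_compact : IsCompact T3 := by
  have hb : IsCompact (Set.pi univ (fun _ : Fin 3 => Icc (0:ℝ) 1)) :=
    isCompact_univ_pi (fun _ => isCompact_Icc)
  refine hb.of_isClosed_subset ?_ ?_
  · have h1 : IsClosed {x : E3 | ∀ i, 0 ≤ x i} := by
      simp only [setOf_forall]
      exact isClosed_iInter fun i => isClosed_le continuous_const (continuous_apply i)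
    have h2 : IsClosed {x : E3 | x 0 + x 1 + x 2 ≤ 1} :=
      isClosed_le (by fun_prop) continuous_const
    exact h1.inter h2
  · rintro x ⟨hx, hx'⟩ i _
    refine ⟨hx i, ?_⟩
    have h0 := hx 0
    have h1 := hx 1
    have h2 := hx 2
    fin_cases i <;> simp <;> linarith

lemma T3_anti : IsAntiBlocking T3 := by
  refine ⟨fun x hx => hx.1, ?_⟩
  rintro x ⟨hx, hx'⟩ y hy hyx
  refine ⟨hy, ?_⟩
  have h0 := hyx 0
  have h1 := hyx 1
  have h2 := hyx 2
  linarith

lemma Qp_T3 : Qp (64 / 9) T3 := by
  intro z hz
  obtain ⟨h1, -⟩ := antiblocking_mahler T3_convex T3_compact T3_anti hz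
  simp only [Fintype.card_fin, Nat.factorial] at h1
  norm_num at h1
  linarith

/-- Polytopes with at most four vertices. -/
lemma Q_small {V : Finset E3} (hV : IsPoly V) (h4 : V.card ≤ 4) : Qp (64 / 9) (hull V) := by
  classical
  -- an enumeration of the points
  have hne : V.Nonempty := by
    rcases V.eq_empty_or_nonempty with rfl | h
    · obtain ⟨z, hz⟩ := hV.2
      have h6 := interior_subset hz
      rw [show hull (∅ : Finset E3) = ∅ by simp [hull]] at h6
      exact absurd h6 (Set.notMem_empty _)
    · exact h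
  obtain ⟨v₀, hv₀⟩ := hne
  have hf : ∃ f : Fin 4 → E3, V = Finset.univ.image f := by
    let g := V.equivFin.symm
    refine ⟨fun i => if h : i.1 < V.card then (g ⟨i.1, h⟩ : E3) else v₀, ?_⟩
    ext x
    simp only [Finset.mem_image, Finset.mem_univ, true_and]
    constructor
    · intro hx
      refine ⟨⟨(V.equivFin ⟨x, hx⟩).1, by have := (V.equivFin ⟨x, hx⟩).2; omega⟩, ?_⟩
      have h5 := (V.equivFin ⟨x, hx⟩).2
      simp only [h5, dite_true]
      have : g (V.equivFin ⟨x, hx⟩) = ⟨x, hx⟩ := by simp [g]
      exact congrArg Subtype.val this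
    · rintro ⟨i, rfl⟩
      by_cases h : i.1 < V.card
      · simp only [h, dite_true]
        exact (g ⟨i.1, h⟩).2
      · simp only [h, dite_false]
        exact hv₀
  obtain ⟨f, rfl⟩ := hf
  set u := f 0 with hu
  let m : Matrix (Fin 3) (Fin 3) ℝ := Matrix.of fun i j : Fin 3 => f j.succ i - u i
  have hm : m.det ≠ 0 := by
    intro h0
    obtain ⟨a, ha, hv⟩ := Matrix.exists_vecMul_eq_zero_iff.2 h0
    apply not_all_on_plane hV.2 (a := a) (b := ip a u) ha
    have key : ∀ j : Fin 3, ip a (f j.succ) = ip a u := by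
      intro j
      have := congrFun hv j
      simp only [Matrix.vecMul, dotProduct, Fin.sum_univ_three, Pi.zero_apply, m, Matrix.of_apply] at this
      simp only [ip]
      linarith
    intro v hv'
    obtain ⟨i, -, rfl⟩ := Finset.mem_image.1 hv'
    refine Fin.cases rfl key i
  have hset : (fun x => x + u) ⁻¹' hull (Finset.univ.image f) = Lm m '' T3 := by
    apply Subset.antisymm
    · intro y hy
      have hconv : Convex ℝ ((fun x => x + (-u)) ⁻¹' (Lm m '' T3)) :=
        (T3_convex.linear_image (Lm m)).translate_preimage_left (-u)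
      have hsub : hull (Finset.univ.image f) ⊆ (fun x => x + (-u)) ⁻¹' (Lm m '' T3) := by
        apply convexHull_min _ hconv
        intro x hx
        have hx' : x ∈ Finset.univ.image f := hx
        obtain ⟨i, -, rfl⟩ := Finset.mem_image.1 hx'
        refine Fin.cases ?_ (fun j => ?_) i
        · refine ⟨0, ⟨fun _ => le_rfl, by norm_num⟩, ?_⟩
          simp [hu]
        · refine ⟨Pi.single j 1, ⟨?_, ?_⟩, ?_⟩
          · intro k
            by_cases hk : k = j
            · subst hk; simp
            · simp [Pi.single_apply, hk]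
          · fin_cases j <;> simp [Pi.single_apply]
          · ext i
            rw [Lm_apply]
            fin_cases j <;> simp [Pi.single_apply, m, sub_eq_add_neg]
      have := hsub hy
      simpa using this
    · rintro y ⟨x, ⟨hx, hx'⟩, rfl⟩
      have hc := hull_convex (Finset.univ.image f)
      have hw := hc.sum_mem (t := Finset.univ) (w := ![1 - x 0 - x 1 - x 2, x 0, x 1, x 2]) (z := f)
        (by
          intro i _
          have h0 := hx 0
          have h1 := hx 1
          have h2 := hx 2
          fin_cases i <;> simp <;> linarith)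
        (by simp [Fin.sum_univ_four]; ring)
        (by
          intro i _
          exact mem_hull_self (Finset.mem_image_of_mem _ (Finset.mem_univ i)))
      have e : (Lm m x + u) = ∑ i, (![1 - x 0 - x 1 - x 2, x 0, x 1, x 2] : Fin 4 → ℝ) i • f i := by
        ext i
        rw [Fin.sum_univ_four]
        simp only [Pi.add_apply, Lm_apply, Pi.smul_apply, smul_eq_mul, m, Matrix.of_apply]
        simp [hu]
        ring
      rw [mem_preimage, e]
      exact hw
  rw [← Qp_translate u, hset, Qp_image hm]
  exact Qp_T3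

/-- The step: polytopes with at least as many facets as vertices. -/
theorem Q_step {V : Finset E3} (hV : IsPoly V) (hF : V.card ≤ (Fac V).card)
    (IH : ∀ W, IsPoly W → cplx W < cplx V → Qp (64 / 9) (hull W)) : Qp (64 / 9) (hull V) := by
  classical
  by_cases h : ∃ S ∈ Fac V, 4 ≤ S.card
  · obtain ⟨S₁, hS₁, h4⟩ := h
    have hfac := mem_Fac.1 hS₁
    obtain ⟨a, b, ha, hsup, hSe, -⟩ := id hfac
    obtain ⟨m, hm, hma⟩ := exists_vertical ha
    let e := Le m hm
    have hV' := hV.image e
    have hcount : ∑ S ∈ NVset (V.image e), (S.card - 3) + 5 ≤ (V.image e).card := by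
      apply count_nonsimplicial (S₁ := S₁.image e) hV'
      · rw [card_image_Le, card_Fac_image e hV]
        exact hF
      · exact mem_Fac.2 (hfac.image e hV)
      · rw [card_image_Le]
        exact h4
      · intro hN
        obtain ⟨σ, α, β, γ, hN⟩ := mem_NVset.1 hN
        refine not_vertical_of_NV hN (a := ![1, 0, 0]) (b := b) (by
          intro h0
          have := congrFun h0 0
          simp at this) (by simp) ?_
        ext x
        simp only [Finset.mem_image, mem_onP]
        have key : ∀ v, ip ![1, 0, 0] (e v) = ip a v := by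
          intro v
          rw [← hma v]
          simp [ip, e]
        constructor
        · rintro ⟨u, hu, rfl⟩
          rw [hSe] at hu
          obtain ⟨hu, hub⟩ := mem_onP.1 hu
          exact ⟨⟨u, hu, rfl⟩, by rw [key, hub]⟩
        · rintro ⟨⟨u, hu, rfl⟩, hx⟩
          rw [key] at hx
          exact ⟨u, by rw [hSe]; exact mem_onP.2 ⟨hu, hx⟩, rfl⟩
    have hQ := Q_of_count hV' hcount (by
      intro W hW hc
      rw [cplx_image e hV] at hc
      exact IH W hW hc)
    rw [hull_image, Le_image] at hQ
    exact (Qp_image hm).1 hQ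
  · push Not at h
    by_cases h5 : 5 ≤ V.card
    · exact Q_of_count hV (by rw [sum_zero_simplicial h]; simpa using h5) IH
    · exact Q_small hV (by omega)

/-- **Mahler's inequality for polytopes in dimension three.** -/
theorem Q_poly : ∀ (N : ℕ) (V : Finset E3), cplx V = N → IsPoly V → Qp (64 / 9) (hull V) := by
  intro N
  induction N using Nat.strong_induction_on with
  | _ N IH =>
    intro V hN hV
    have IH' : ∀ W, IsPoly W → cplx W < cplx V → Qp (64 / 9) (hull W) := by
      intro W hW hc
      exact IH _ (hN ▸ hc) W rfl hW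
    by_cases hF : V.card ≤ (Fac V).card
    · exact Q_step hV hF IH'
    · intro z hz
      obtain ⟨W, hW, hh, hc1, hc2, h0, hp⟩ := polar_poly hV hz
      have hcW : cplx W = cplx V := by
        simp only [cplx]
        omega
      have hQ := Q_step hW (by omega) (by
        intro U hU hc
        rw [hcW] at hc
        exact IH' U hU hc)
      have := hQ 0 h0
      rw [hp, measure_preimage_add_right, hh] at this
      rw [mul_comm]
      exact this

end Vale.Agent.Lib.P248
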