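import Vale.Agent.Lib.P248.Pol8

open MeasureTheory Set Function Filter
open scoped ENNReal Pointwise Topology

namespace Vale.Agent.Lib.P248

lemma exists_vertices_of_hull (F : Finset E3) (hi : (interior (hull F)).Nonempty) :
    ∃ W : Finset E3, IsPoly W ∧ hull W = hull F := by
  classical
  let W := F.filter (fun x => x ∈ (hull F).extremePoints ℝ)
  have hW : (W : Set E3) = (hull F).extremePoints ℝ := by
    ext x
    simp only [W, Finset.coe_filter, mem_ofPred_eq]
    constructor
    · rintro ⟨-, h2⟩
      exact h2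
    · intro h2
      refine ⟨?_, h2⟩
      have := extremePoints_convexHull_subset h2
      exact Finset.mem_coe.1 this
  have hh := hull_of_ext (hull_compact F) (hull_convex F) hW
  refine ⟨W, ⟨by rw [hh, hW], by rw [hh]; exact hi⟩, hh⟩

/-- A closed ball of the sup norm is a cube, the hull of finitely many points. -/
lemma exists_cube (x : E3) {r : ℝ} (hr : 0 < r) :
    ∃ F : Finset E3, hull F = Metric.closedBall x r := by
  classical
  refine ⟨Fintype.piFinset (fun i => ({x i - r, x i + r} : Finset ℝ)), ?_⟩
  rw [hull, Fintype.coe_piFinset, convexHull_pi, closedBall_pi _ hr.le]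
  congr 1
  ext i y
  simp only [Finset.coe_insert, Finset.coe_singleton, convexHull_pair,
    Real.closedBall_eq_Icc]
  rw [segment_eq_Icc (by linarith)]

lemma exists_finset_between {K U : Set E3} (hK : IsCompact K) (hU : IsOpen U) (hKU : K ⊆ U) :
    ∃ F : Finset E3, K ⊆ hull F ∧ (F : Set E3) ⊆ U := by
  classical
  refine hK.induction_on (p := fun A => ∃ F : Finset E3, A ⊆ hull F ∧ (F : Set E3) ⊆ U) ?_ ?_ ?_ ?_
  · exact ⟨∅, empty_subset _, by simp⟩
  · rintro s t hst ⟨F, h1, h2⟩
    exact ⟨F, hst.trans h1, h2⟩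
  · rintro s t ⟨F, h1, h2⟩ ⟨G, h3, h4⟩
    refine ⟨F ∪ G, union_subset ?_ ?_, ?_⟩
    · exact h1.trans (convexHull_mono (by simp))
    · exact h3.trans (convexHull_mono (by simp))
    · rw [Finset.coe_union]
      exact union_subset h2 h4
  · intro x hx
    obtain ⟨r, hr, hb⟩ := Metric.nhds_basis_closedBall.mem_iff.1 (hU.mem_nhds (hKU hx))
    obtain ⟨F, hF⟩ := exists_cube x hr
    refine ⟨Metric.closedBall x r, mem_nhdsWithin_of_mem_nhds (Metric.closedBall_mem_nhds x hr),
      F, hF.symm.subset, ?_⟩
    intro y hy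
    apply hb
    rw [← hF]
    exact subset_convexHull ℝ _ hy

lemma polarAt_anti {A B : Set E3} (h : A ⊆ B) (z : E3) : polarAt B z ⊆ polarAt A z := by
  intro y hy x hx
  exact hy x (h hx)

/-- **Mahler's inequality in dimension three.** -/
theorem mahler3 {K : Set E3} (hK : IsCompact K) (hc : Convex ℝ K) {z : E3} (hz : z ∈ interior K) :
    (64 / 9 : ℝ) ≤ (volume K).toReal * (volume (polarAt K z)).toReal := by
  have key : ∀ ε : ℝ, 0 < ε →
      (64 / 9 : ℝ) ≤ (1 + ε) ^ 3 * ((volume K).toReal * (volume (polarAt K z)).toReal) := by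
    intro ε hε
    set c : ℝ := 1 + ε with hcdef
    have hc1 : 1 < c := by linarith
    have hc0 : 0 < c := by linarith
    let φ : E3 →ᵃ[ℝ] E3 := AffineMap.homothety z c
    have hφ : ∀ y, φ y = c • (y - z) + z := by
      intro y
      simp [φ, AffineMap.homothety_apply]
    let ψ : E3 → E3 := fun y => c⁻¹ • (y - z) + z
    have hψc : Continuous ψ := by fun_prop
    have hφψ : ∀ y, φ (ψ y) = y := by
      intro y
      rw [hφ]
      simp only [ψ, add_sub_cancel_right, smul_smul]
      rw [mul_inv_cancel₀ hc0.ne', one_smul, sub_add_cancel]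
    let U : Set E3 := ψ ⁻¹' interior K
    have hUo : IsOpen U := isOpen_interior.preimage hψc
    have hKU : K ⊆ U := by
      intro x hx
      have h1 : (1 - c⁻¹) + c⁻¹ = 1 := by ring
      have h2 : 0 < 1 - c⁻¹ := by
        have : c⁻¹ < 1 := inv_lt_one_of_one_lt₀ hc1
        linarith
      have := hc.combo_interior_self_mem_interior hz hx h2 (by positivity) h1
      have e : ψ x = (1 - c⁻¹) • z + c⁻¹ • x := by
        ext i
        simp only [ψ, Pi.add_apply, Pi.smul_apply, Pi.sub_apply, smul_eq_mul]
        ring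
      show ψ x ∈ interior K
      rw [e]
      exact this
    have hUK : U ⊆ φ '' K := by
      intro y hy
      exact ⟨ψ y, interior_subset hy, hφψ y⟩
    obtain ⟨F, hF1, hF2⟩ := exists_finset_between hK hUo hKU
    have hF3 : hull F ⊆ φ '' K := convexHull_min (hF2.trans hUK) (hc.affine_image φ)
    have hzF : z ∈ interior (hull F) := interior_mono hF1 hz
    obtain ⟨W, hW, hWF⟩ := exists_vertices_of_hull F ⟨z, hzF⟩
    have hQ := Q_poly _ W rfl hW z (by rw [hWF]; exact hzF)
    rw [hWF] at hQ
    have hv1 : (volume (hull F)).toReal ≤ c ^ 3 * (volume K).toReal := by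
      have h1 : volume (hull F) ≤ volume (φ '' K) := measure_mono hF3
      have h2 : volume (φ '' K) = ENNReal.ofReal (c ^ 3) * volume K := by
        have := Measure.addHaar_image_homothety (μ := (volume : Measure E3)) z c K
        rw [this]
        simp only [Module.finrank_fin_fun]
        rw [abs_of_pos (by positivity)]
      rw [h2] at h1
      have h3 := ENNReal.toReal_mono (ENNReal.mul_ne_top ENNReal.ofReal_ne_top hK.measure_lt_top.ne) h1
      rwa [ENNReal.toReal_mul, ENNReal.toReal_ofReal (by positivity)] at h3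
    have hv2 : (volume (polarAt (hull F) z)).toReal ≤ (volume (polarAt K z)).toReal := by
      apply ENNReal.toReal_mono (polar_compact hz).measure_lt_top.ne
      exact measure_mono (polarAt_anti hF1 z)
    have hn1 : 0 ≤ (volume (polarAt (hull F) z)).toReal := ENNReal.toReal_nonneg
    have hn2 : 0 ≤ (volume K).toReal := ENNReal.toReal_nonneg
    calc (64 / 9 : ℝ) ≤ (volume (hull F)).toReal * (volume (polarAt (hull F) z)).toReal := hQ
      _ ≤ (c ^ 3 * (volume K).toReal) * (volume (polarAt K z)).toReal :=
          mul_le_mul hv1 hv2 hn1 (by positivity)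
      _ = _ := by ring
  set P := (volume K).toReal * (volume (polarAt K z)).toReal with hP
  have hlim : Tendsto (fun ε : ℝ => (1 + ε) ^ 3 * P) (𝓝[>] 0) (𝓝 ((1 + 0) ^ 3 * P)) := by
    have : Continuous (fun ε : ℝ => (1 + ε) ^ 3 * P) := by fun_prop
    exact (this.tendsto 0).mono_left nhdsWithin_le_nhds
  have h := ge_of_tendsto hlim (by
    filter_upwards [self_mem_nhdsWithin] with ε hε
    exact key ε hε)
  simpa using h

end Vale.Agent.Lib.P248
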